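import Claimed.Agent.R252.S7p.Defs
import Claimed.Agent.R252.State.KsStateC
import Claimed.Agent.R252.S4E.Contract

/-!
# ROW 252 (S0492), unit S7p (sub-architect helper97), file 3: THE ABSTRACT TWO-COLOUR COMPARISON  (07 l.438-549; the same argument is used in 07 l.598-630 and 08 l.432-440).      CONTRACT file: every `sorry` is a leaf `L-252-S7p-C*`.

PAPER-FREE (Mathlib + `State/KsStateC` (pruning) + `S4E/Contract` (bins of code vectors `k4eBin`, `k4eNbr`) + the two hubs of `S7p/Defs`).   ONE scale, explicit slack `K ≥ 1`.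
## The setting
* `Z : K7pBs`  THE COMMON BASE: incidences `Ω`, WITNESS law `μ` (never restricted), full set `Sp` of pointwise facts; every incidence lies in ONE comparison box `bx ω` (countable type), has a normalised base point `u ω ∈ [0,1)²` in its box
               and a signal `X ω`;  `A κ` = base weight of a box.
  `Z.Ok K d a0 ϑ` : THE CAP AT A FINITE MESH: a box, a TINY cell of mesh `ϑ = 2^{-k}` and an interval of radius `p ≥ a0` of `X` have mass `≤ K p^d ϑ² A κ`.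
* `c : K7pCol Z`  ONE COLOUR = one list of graphs: index `ix ω` (countable type; it determines the box: `bxI`), graph `f i` on the unit square, reference weight `T i`.
  `c.Ok S K d a ϑ` : `T (ix ω) = A (bx ω) a^d`, SUMMABLE BUDGET `∑' T ≤ K`, fit `|X - f (u)| ≤ K a`, graphs in the class `S`, norm and Lipschitz constant `≤ K`, `K ϑ ≤ a`.
* heavy indices: `ksKeep Z.μ c.ix c.T K₁ = {i | T i ≤ K₁ μ {ix = i}}` ("stored marginal witnesses": the floor refers to the WITNESS law, no floor is asserted in any current pair law).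
## The result `k7p_core`
Off an exceptional set of mass `≤ 2K/K₁ + Lg δ` the two graphs of an incidence are `Θ Δ`-close on the whole unit square (`Δ = max a₁ a₂`), and each index of one colour meets `≤ K K₁ (2 (K + Θ Δ / a))^d` indices of the other.
Requirement: `C K⁴ K₁ / δ ≤ Θ^ε` and `(x Δ / a_c)^d ≤ x^{d₀}` for `x ≥ Θ` (`d₀ < 1`; for `a₁ = a₂`: `d₀ = d`).
## The chain
 C1 `k7p_cap_cell`, `k7p_cap_box`  the cap about a Lipschitz graph.         C2 `k7p_light` (proved), `k7p_A_fin`.         C3 `k7p_count`  packing of heavy indices near one graph.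
 C4 `k7pJit` + `k7p_jit_*`  the event point is jittered uniformly in its tiny cell (07 l.486-491): exact density ceilings.         C5 `k7p_pigeon`, `k7p_group_budget`.
 C6 `k7p_bad_scale`  the bad pairs of ONE dyadic discrepancy scale `M = R Δ` have mass `≤ δ` (contradiction with the hub in one group).         C7 `k7p_bad_all`  all scales.         C8 `k7p_list`.         C9 `k7p_core`.
-/

set_option autoImplicit false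

namespace Claimed.Agent.R252

open MeasureTheory
open scoped ENNReal BigOperators

noncomputable section

/-! ## 0. Vocabulary -/

/-- the tiny cell of mesh `ϑ` of a point of the plane -/
def k7pCell (ϑ : ℝ) (u : ℝ × ℝ) : ℤ × ℤ := (⌊u.1 / ϑ⌋, ⌊u.2 / ϑ⌋)

/-- the square of a tiny cell -/
def k7pSq (ϑ : ℝ) (c : ℤ × ℤ) : Set (ℝ × ℝ) := Set.Ico ((c.1 : ℝ) * ϑ) (((c.1 : ℝ) + 1) * ϑ) ×ˢ Set.Ico ((c.2 : ℝ) * ϑ) (((c.2 : ℝ) + 1) * ϑ)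

/-- Lipschitz on the unit square -/
def k7pLip (f : ℝ → ℝ → ℝ) (L : ℝ) : Prop :=
  ∀ t ∈ Set.Icc (0 : ℝ) 1, ∀ y ∈ Set.Icc (0 : ℝ) 1, ∀ t' ∈ Set.Icc (0 : ℝ) 1, ∀ y' ∈ Set.Icc (0 : ℝ) 1, |f t y - f t' y'| ≤ L * (|t - t'| + |y - y'|)

/-- **the common base of a comparison** (data only) -/
structure K7pBs where
  Ω : Type
  mΩ : MeasurableSpace Ω
  /-- the witness law -/
  μ : Measure Ω
  /-- the set on which the pointwise facts hold -/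
  Sp : Set Ω
  /-- comparison boxes -/
  Bx : Type
  bx : Ω → Bx
  /-- normalised base point in the box -/
  u : Ω → ℝ × ℝ
  X : Ω → ℝ
  /-- base weight of a box -/
  A : Bx → ℝ≥0∞

attribute [instance] K7pBs.mΩ

/-- the tiny cell of an incidence -/
def K7pBs.cl (Z : K7pBs) (ϑ : ℝ) (ω : Z.Ω) : ℤ × ℤ := k7pCell ϑ (Z.u ω)

/-- the standing hypotheses on the base, slack `K`; caps for radii `p ≥ a0` at the mesh `ϑ` -/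
structure K7pBs.Ok (Z : K7pBs) (K d a0 ϑ : ℝ) : Prop where
  cBx : Countable Z.Bx
  fin : IsFiniteMeasure Z.μ
  m_Sp : MeasurableSet Z.Sp
  full : Z.μ Z.Spᶜ = 0
  m_bx : KsLab Z.bx
  m_u : Measurable Z.u
  m_X : Measurable Z.X
  u_mem : ∀ ω ∈ Z.Sp, Z.u ω ∈ Set.Ico (0 : ℝ) 1 ×ˢ Set.Ico (0 : ℝ) 1
  a0_pos : 0 < a0
  mesh : ∃ k : ℕ, ϑ = (1 / 2 : ℝ) ^ k
  cap : ∀ (κ : Z.Bx) (c : ℤ × ℤ) (x₀ p : ℝ), a0 ≤ p →
    Z.μ (Z.Sp ∩ {ω | Z.bx ω = κ ∧ Z.cl ϑ ω = c ∧ |Z.X ω - x₀| ≤ p}) ≤ ENNReal.ofReal (K * p ^ d * ϑ ^ 2) * Z.A κ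

/-- **one colour**: a list of graphs over the boxes (data only) -/
structure K7pCol (Z : K7pBs) where
  I : Type
  ix : Z.Ω → I
  /-- the box of an index -/
  bxI : I → Z.Bx
  f : I → ℝ → ℝ → ℝ
  /-- reference weights -/
  T : I → ℝ≥0∞

/-- the standing hypotheses on a colour of thickness `a`, class `S`, slack `K` -/
structure K7pCol.Ok {Z : K7pBs} (c : K7pCol Z) (S : Set (ℝ → ℝ → ℝ)) (K d a ϑ : ℝ) : Prop where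
  cI : Countable c.I
  m_ix : KsLab c.ix
  a_pos : 0 < a
  box : ∀ ω ∈ Z.Sp, c.bxI (c.ix ω) = Z.bx ω
  T_eq : ∀ ω ∈ Z.Sp, c.T (c.ix ω) = Z.A (Z.bx ω) * ENNReal.ofReal (a ^ d)
  bud : ∑' i, c.T i ≤ ENNReal.ofReal K
  fit : ∀ ω ∈ Z.Sp, |Z.X ω - c.f (c.ix ω) (Z.u ω).1 (Z.u ω).2| ≤ K * a
  cls : ∀ ω ∈ Z.Sp, c.f (c.ix ω) ∈ S
  nrm : ∀ ω ∈ Z.Sp, ∀ t ∈ Set.Icc (0 : ℝ) 1, ∀ y ∈ Set.Icc (0 : ℝ) 1, |c.f (c.ix ω) t y| ≤ K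
  lip : ∀ ω ∈ Z.Sp, k7pLip (c.f (c.ix ω)) K
  tiny : K * ϑ ≤ a

/-- the heavy indices of a colour -/
def K7pCol.hv {Z : K7pBs} (c : K7pCol Z) (K1 : ℝ) : Set c.I := ksKeep Z.μ c.ix c.T (ENNReal.ofReal K1)

/-- the hub at fixed parameters -/
def K7pMatchAt (S1 S2 : Set (ℝ → ℝ → ℝ)) (d0 ε R : ℝ) : Prop :=
  ∀ M Δ : ℝ, 0 < Δ → M = R * Δ →
    ∀ (I1 I2 : Type) [Fintype I1] [Fintype I2] (f1 : I1 → ℝ → ℝ → ℝ) (f2 : I2 → ℝ → ℝ → ℝ) (fs : ℝ → ℝ → ℝ)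
      (π1 : I1 → ℝ≥0∞) (π2 : I2 → ℝ≥0∞) (Pr : I1 → I2 → Measure (ℝ × ℝ)),
      (∀ i, f1 i ∈ S1) → (∀ j, f2 j ∈ S2) → fs ∈ S2 →
      (Fintype.card I1 : ℝ) ≤ R ^ (d0 + ε) → (Fintype.card I2 : ℝ) ≤ R ^ (d0 + ε) →
      (∀ i, ∀ t ∈ Set.Icc (0 : ℝ) 1, ∀ y ∈ Set.Icc (0 : ℝ) 1, |f1 i t y - fs t y| ≤ M * R ^ ε) →
      (∀ j, ∀ t ∈ Set.Icc (0 : ℝ) 1, ∀ y ∈ Set.Icc (0 : ℝ) 1, |f2 j t y - fs t y| ≤ M * R ^ ε) →
      ∑ i, π1 i ≤ 1 → ∑ j, π2 j ≤ 1 →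
      (∀ i j, Pr i j (Set.Icc (0 : ℝ) 1 ×ˢ Set.Icc (0 : ℝ) 1)ᶜ = 0) →
      (∀ i, ∑ j, Pr i j ≤ (ENNReal.ofReal (R ^ ε) * π1 i) • volume) →
      (∀ j, ∑ i, Pr i j ≤ (ENNReal.ofReal (R ^ ε) * π2 j) • volume) →
      (∀ i j, ∀ᵐ z ∂Pr i j, |f1 i z.1 z.2 - f2 j z.1 z.2| ≤ Δ * R ^ ε) →
      (∀ i j, Pr i j ≠ 0 → ∃ t ∈ Set.Icc (0 : ℝ) 1, ∃ y ∈ Set.Icc (0 : ℝ) 1, M * R ^ (-ε) ≤ |f1 i t y - f2 j t y|) →
      ∑ i, ∑ j, Pr i j Set.univ < ENNReal.ofReal (R ^ (-ε))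

theorem k7p_match_at {S1 S2 : Set (ℝ → ℝ → ℝ)} (h : K7pMatch S1 S2) (d0 : ℝ) (hd0 : d0 < 1) :
    ∃ ε : ℝ, 0 < ε ∧ ∃ R0 : ℝ, ∀ R : ℝ, R0 ≤ R → K7pMatchAt S1 S2 d0 ε R := by
  obtain ⟨ε, hε, R0, hR⟩ := h d0 hd0
  exact ⟨ε, hε, R0, fun R hRR M Δ hΔ hM => hR R M Δ hRR hΔ hM⟩

/-- the code property for a GIVEN code -/
def K7pCodeOf (S1 S2 : Set (ℝ → ℝ → ℝ)) {m : ℕ} (J : (ℝ → ℝ → ℝ) → Fin m → ℝ) (C : ℝ) : Prop :=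
  ∀ f ∈ S1 ∪ S2, ∀ g ∈ S2, ∀ η : ℝ, (k7pClose f g η → ∀ k, |J f k - J g k| ≤ C * η) ∧ ((∀ k, |J f k - J g k| ≤ η) → k7pClose f g (C * η))

theorem k7p_close_symm {f g : ℝ → ℝ → ℝ} {η : ℝ} (h : k7pClose f g η) : k7pClose g f η := fun t ht y hy => by
  rw [abs_sub_comm]; exact h t ht y hy

theorem k7p_close_mono {f g : ℝ → ℝ → ℝ} {η η' : ℝ} (h : k7pClose f g η) (hη : η ≤ η') : k7pClose f g η' := fun t ht y hy => (h t ht y hy).trans hη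

theorem k7p_close_trans {f g k : ℝ → ℝ → ℝ} {η η' : ℝ} (h : k7pClose f g η) (h' : k7pClose g k η') : k7pClose f k (η + η') := fun t ht y hy => by
  have e : f t y - k t y = (f t y - g t y) + (g t y - k t y) := by ring
  rw [e]
  exact (abs_add_le _ _).trans (add_le_add (h t ht y hy) (h' t ht y hy))

/-! ## C1. The cap about a Lipschitz graph -/

/-- **L-252-S7p-C1a**.  One tiny cell.
PROOF.  If the set is empty: trivial.  Otherwise fix `ω₀` in it, `x₀ := g (u ω₀)`.  For `ω` in the set `u ω`, `u ω₀ ∈ [0,1)²` (`hZ.u_mem`) lie in the same cell: `|u.1 - u₀.1| ≤ ϑ`, `|u.2 - u₀.2| ≤ ϑ`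
(`Int.abs_sub_lt_one_of_floor_eq_floor`, `ϑ > 0` from `hZ.mesh`), so `|g (u ω) - x₀| ≤ 2 Lg ϑ ≤ p` and `|X ω - x₀| ≤ 2 p`.   `measure_mono` + `hZ.cap κ c x₀ (2 p)` (`a0 ≤ p ≤ 2 p` as `0 < a0`). -/
theorem k7p_cap_cell {Z : K7pBs} {K d a0 ϑ : ℝ} (hZ : Z.Ok K d a0 ϑ) {g : ℝ → ℝ → ℝ} {Lg p : ℝ} (hg : k7pLip g Lg) (hp : a0 ≤ p)
    (hLg : 2 * Lg * ϑ ≤ p) (κ : Z.Bx) (c : ℤ × ℤ) :
    Z.μ (Z.Sp ∩ {ω | Z.bx ω = κ ∧ Z.cl ϑ ω = c ∧ |Z.X ω - g (Z.u ω).1 (Z.u ω).2| ≤ p}) ≤ ENNReal.ofReal (K * (2 * p) ^ d * ϑ ^ 2) * Z.A κ := by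
  obtain ⟨k, hk⟩ := hZ.mesh
  have hϑ : 0 < ϑ := by rw [hk]; positivity
  have hp0 : 0 < p := lt_of_lt_of_le hZ.a0_pos hp
  rcases Set.eq_empty_or_nonempty (Z.Sp ∩ {ω | Z.bx ω = κ ∧ Z.cl ϑ ω = c ∧ |Z.X ω - g (Z.u ω).1 (Z.u ω).2| ≤ p}) with he | ⟨ω₀, h0S, h0b, h0c, h0x⟩
  · rw [he]
    simp
  · refine (measure_mono ?_).trans (hZ.cap κ c (g (Z.u ω₀).1 (Z.u ω₀).2) (2 * p) (by linarith))
    rintro ω ⟨hS, hb, hc, hx⟩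
    refine ⟨hS, hb, hc, ?_⟩
    have hu := hZ.u_mem ω hS
    have hu0 := hZ.u_mem ω₀ h0S
    have hcc : k7pCell ϑ (Z.u ω) = k7pCell ϑ (Z.u ω₀) := hc.trans h0c.symm
    have e1 : ⌊(Z.u ω).1 / ϑ⌋ = ⌊(Z.u ω₀).1 / ϑ⌋ := congrArg Prod.fst hcc
    have e2 : ⌊(Z.u ω).2 / ϑ⌋ = ⌊(Z.u ω₀).2 / ϑ⌋ := congrArg Prod.snd hcc
    have d1 : |(Z.u ω).1 - (Z.u ω₀).1| ≤ ϑ := by
      have := Int.abs_sub_lt_one_of_floor_eq_floor e1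
      rw [← sub_div, abs_div, abs_of_pos hϑ, div_lt_one hϑ] at this
      exact this.le
    have d2 : |(Z.u ω).2 - (Z.u ω₀).2| ≤ ϑ := by
      have := Int.abs_sub_lt_one_of_floor_eq_floor e2
      rw [← sub_div, abs_div, abs_of_pos hϑ, div_lt_one hϑ] at this
      exact this.le
    have hl := hg (Z.u ω).1 ⟨hu.1.1, hu.1.2.le⟩ (Z.u ω).2 ⟨hu.2.1, hu.2.2.le⟩ (Z.u ω₀).1 ⟨hu0.1.1, hu0.1.2.le⟩ (Z.u ω₀).2 ⟨hu0.2.1, hu0.2.2.le⟩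
    have hl2 : Lg * (|(Z.u ω).1 - (Z.u ω₀).1| + |(Z.u ω).2 - (Z.u ω₀).2|) ≤ p := by
      rcases le_or_gt 0 Lg with h | h
      · calc Lg * (|(Z.u ω).1 - (Z.u ω₀).1| + |(Z.u ω).2 - (Z.u ω₀).2|) ≤ Lg * (ϑ + ϑ) := mul_le_mul_of_nonneg_left (add_le_add d1 d2) h
          _ = 2 * Lg * ϑ := by ring
          _ ≤ p := hLg
      · have : Lg * (|(Z.u ω).1 - (Z.u ω₀).1| + |(Z.u ω).2 - (Z.u ω₀).2|) ≤ 0 :=
          mul_nonpos_of_nonpos_of_nonneg h.le (by positivity)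
        linarith
    have e : Z.X ω - g (Z.u ω₀).1 (Z.u ω₀).2 = (Z.X ω - g (Z.u ω).1 (Z.u ω).2) + (g (Z.u ω).1 (Z.u ω).2 - g (Z.u ω₀).1 (Z.u ω₀).2) := by ring
    show |Z.X ω - g (Z.u ω₀).1 (Z.u ω₀).2| ≤ 2 * p
    rw [e]
    refine (abs_add_le _ _).trans ?_
    linarith

/-- **L-252-S7p-C1b**.  The whole box.
PROOF.  `ϑ = 2^{-k}`.  For `ω ∈ Sp`, `Z.cl ϑ ω ∈ Finset.Ico 0 2^k ×ˢ Finset.Ico 0 2^k` (`u ∈ [0,1)²`, `u / ϑ = u 2^k ∈ [0, 2^k)`).  The set is the union over these `4^k` cells of the sets of `k7p_cap_cell`: `measure_biUnion_finset_le`,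
`Finset.sum_const`, `card = 2^k * 2^k`, `(2^k)² ϑ² = 1`  (pull the constant into `ENNReal.ofReal` : `ENNReal.ofReal_mul`, `ENNReal.ofReal_natCast`; `0 ≤ K` is NOT assumed: if `K (2p)^d ϑ² < 0` both sides use `ofReal = 0`; do the computation by
`nsmul_eq_mul`, `← ENNReal.ofReal_natCast`, `← ENNReal.ofReal_mul (Nat.cast_nonneg _)`). -/
theorem k7p_cap_box {Z : K7pBs} {K d a0 ϑ : ℝ} (hZ : Z.Ok K d a0 ϑ) {g : ℝ → ℝ → ℝ} {Lg p : ℝ} (hg : k7pLip g Lg) (hp : a0 ≤ p)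
    (hLg : 2 * Lg * ϑ ≤ p) (κ : Z.Bx) :
    Z.μ (Z.Sp ∩ {ω | Z.bx ω = κ ∧ |Z.X ω - g (Z.u ω).1 (Z.u ω).2| ≤ p}) ≤ ENNReal.ofReal (K * (2 * p) ^ d) * Z.A κ := by
  obtain ⟨k, hk⟩ := hZ.mesh
  have hϑ : 0 < ϑ := by rw [hk]; positivity
  have h2k : ϑ * 2 ^ k = 1 := by
    rw [hk, ← mul_pow]
    norm_num
  set Cs : Finset (ℤ × ℤ) := Finset.Ico (0 : ℤ) (2 ^ k) ×ˢ Finset.Ico (0 : ℤ) (2 ^ k) with hCs
  have hcard : (Cs.card : ℝ) = 2 ^ k * 2 ^ k := by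
    rw [hCs, Finset.card_product, Int.card_Ico]
    have : ((2 : ℤ) ^ k - 0).toNat = 2 ^ k := by
      rw [sub_zero]
      have : ((2 : ℤ) ^ k) = ((2 ^ k : ℕ) : ℤ) := by push_cast; rfl
      rw [this, Int.toNat_natCast]
    rw [this]
    push_cast
    rfl
  have hfl : ∀ x : ℝ, x ∈ Set.Ico (0 : ℝ) 1 → ⌊x / ϑ⌋ ∈ Finset.Ico (0 : ℤ) (2 ^ k) := fun x hx => by
    rw [Finset.mem_Ico]
    constructor
    · exact Int.floor_nonneg.2 (div_nonneg hx.1 hϑ.le)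
    · rw [Int.floor_lt]
      push_cast
      rw [div_lt_iff₀ hϑ, mul_comm, h2k]
      exact hx.2
  have hsub : Z.Sp ∩ {ω | Z.bx ω = κ ∧ |Z.X ω - g (Z.u ω).1 (Z.u ω).2| ≤ p}
      ⊆ ⋃ c ∈ Cs, Z.Sp ∩ {ω | Z.bx ω = κ ∧ Z.cl ϑ ω = c ∧ |Z.X ω - g (Z.u ω).1 (Z.u ω).2| ≤ p} := by
    rintro ω ⟨hS, hb, hx⟩
    have hu := hZ.u_mem ω hS
    refine Set.mem_biUnion (x := Z.cl ϑ ω) ?_ ⟨hS, hb, rfl, hx⟩
    rw [Finset.mem_coe, hCs, Finset.mem_product]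
    exact ⟨hfl _ hu.1, hfl _ hu.2⟩
  calc Z.μ (Z.Sp ∩ {ω | Z.bx ω = κ ∧ |Z.X ω - g (Z.u ω).1 (Z.u ω).2| ≤ p})
      ≤ Z.μ (⋃ c ∈ Cs, Z.Sp ∩ {ω | Z.bx ω = κ ∧ Z.cl ϑ ω = c ∧ |Z.X ω - g (Z.u ω).1 (Z.u ω).2| ≤ p}) := measure_mono hsub
    _ ≤ ∑ c ∈ Cs, Z.μ (Z.Sp ∩ {ω | Z.bx ω = κ ∧ Z.cl ϑ ω = c ∧ |Z.X ω - g (Z.u ω).1 (Z.u ω).2| ≤ p}) := measure_biUnion_finset_le _ _
    _ ≤ ∑ _c ∈ Cs, ENNReal.ofReal (K * (2 * p) ^ d * ϑ ^ 2) * Z.A κ := Finset.sum_le_sum fun c _ => k7p_cap_cell hZ hg hp hLg κ c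
    _ = ENNReal.ofReal (K * (2 * p) ^ d) * Z.A κ := by
      rw [Finset.sum_const, nsmul_eq_mul, ← mul_assoc, ← ENNReal.ofReal_natCast, ← ENNReal.ofReal_mul (Nat.cast_nonneg _), hcard]
      congr 2
      calc (2 : ℝ) ^ k * 2 ^ k * (K * (2 * p) ^ d * ϑ ^ 2) = K * (2 * p) ^ d * (ϑ * 2 ^ k) ^ 2 := by ring
        _ = K * (2 * p) ^ d := by rw [h2k]; ring

/-! ## C2. Light indices; finiteness of the base weights -/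

/-- the incidences with a light index are measurable and carry mass `≤ K / K₁` -/
theorem k7p_light {Z : K7pBs} {c : K7pCol Z} {S : Set (ℝ → ℝ → ℝ)} {K d a ϑ : ℝ} (hc : c.Ok S K d a ϑ) (K1 : ℝ) :
    MeasurableSet (c.ix ⁻¹' (c.hv K1)ᶜ) ∧ ENNReal.ofReal K1 * Z.μ (c.ix ⁻¹' (c.hv K1)ᶜ) ≤ ENNReal.ofReal K := by
  have := hc.cI
  exact ⟨ksc_lab_preimage hc.m_ix _, (ksc_prune_loss Z.μ hc.m_ix c.T (ENNReal.ofReal K1)).trans hc.bud⟩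

/-- **L-252-S7p-C2**.  An occupied box has finite base weight (`T (ix ω) ≤ ∑' T ≤ K < ∞` (`ENNReal.le_tsum`), `T (ix ω) = A a^d`, `a^d > 0`: `ENNReal.mul_eq_top`). -/
theorem k7p_A_fin {Z : K7pBs} {c : K7pCol Z} {S : Set (ℝ → ℝ → ℝ)} {K d a ϑ : ℝ} (hc : c.Ok S K d a ϑ) {ω : Z.Ω} (hω : ω ∈ Z.Sp) : Z.A (Z.bx ω) ≠ ⊤ := by
  intro htop
  have h1 : c.T (c.ix ω) ≤ ENNReal.ofReal K := (ENNReal.le_tsum _).trans hc.bud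
  rw [hc.T_eq ω hω, htop] at h1
  have h2 : ENNReal.ofReal (a ^ d) ≠ 0 := by
    rw [Ne, ENNReal.ofReal_eq_zero, not_le]
    exact Real.rpow_pos_of_pos hc.a_pos d
  rw [ENNReal.top_mul h2] at h1
  exact absurd h1 (not_le.2 ENNReal.ofReal_lt_top)

/-- **L-252-S7p-C2**.  The boxes of weight zero are null, and their union is measurable.
PROOF.  Measurable: `ksc_lab_preimage hZ.m_bx {κ | A κ = 0}` (`hZ.cBx`).   Null: `μ (..) = μ (Sp ∩ ..)` (`hZ.full`, `measure_inter_add_diff`/`measure_mono_null`); `Sp ∩ {A (bx ω) = 0} ⊆ ⋃ κ ∈ {A κ = 0}, ⋃ c, ⋃ n : ℕ, Sp ∩ {bx = κ, cl = c, |X - 0| ≤ a0 + n}`;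
each of these has measure `≤ ofReal (..) * 0 = 0` (`hZ.cap`); countable union (`measure_iUnion_null`). -/
theorem k7p_A_zero {Z : K7pBs} {K d a0 ϑ : ℝ} (hZ : Z.Ok K d a0 ϑ) : MeasurableSet {ω | Z.A (Z.bx ω) = 0} ∧ Z.μ {ω | Z.A (Z.bx ω) = 0} = 0 := by
  have := hZ.cBx
  refine ⟨ksc_lab_preimage hZ.m_bx {κ | Z.A κ = 0}, ?_⟩
  have hsub : {ω | Z.A (Z.bx ω) = 0} ⊆ Z.Spᶜ ∪ ⋃ κ : {κ : Z.Bx // Z.A κ = 0}, ⋃ c : ℤ × ℤ, ⋃ n : ℕ,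
      (Z.Sp ∩ {ω | Z.bx ω = κ.1 ∧ Z.cl ϑ ω = c ∧ |Z.X ω - 0| ≤ a0 + n}) := by
    intro ω hω
    by_cases hS : ω ∈ Z.Sp
    · right
      obtain ⟨n, hn⟩ := exists_nat_ge |Z.X ω - 0|
      simp only [Set.mem_iUnion]
      exact ⟨⟨Z.bx ω, hω⟩, Z.cl ϑ ω, n, hS, rfl, rfl, hn.trans (by linarith [hZ.a0_pos])⟩
    · exact Or.inl hS
  refine measure_mono_null hsub (measure_union_null hZ.full ?_)
  refine measure_iUnion_null fun κ => measure_iUnion_null fun c => measure_iUnion_null fun n => ?_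
  have h := hZ.cap κ.1 c 0 (a0 + n) (by linarith [(Nat.cast_nonneg n : (0 : ℝ) ≤ n)])
  rw [κ.2, mul_zero] at h
  exact le_antisymm h zero_le

/-! ## C3. Packing of heavy indices near one graph -/

/-- **L-252-S7p-C3** (07 l.510-515, l.541-546).  Heavy occurring indices of one box whose graphs are `η`-close to ONE Lipschitz function `g`.
PROOF.  `p := K a + η`.  For `i ∈ Js` the set `Sp ∩ ix⁻¹{i}` is contained in `U := Sp ∩ {bx = κ, |X - g (u)| ≤ p}` (`hc.box`: `bx ω = bxI i = κ`; `hc.fit` + `hcl i` at `u ω ∈ [0,1)² ⊆ [0,1]²`).  These sets are measurable and pairwise disjoint, so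
`∑_{i ∈ Js} μ (Sp ∩ ix⁻¹{i}) = μ (⋃ ..) ≤ μ U ≤ ofReal (K (2p)^d) A κ` (`k7p_cap_box`).   Heavy: `T i ≤ K₁ μ (ix⁻¹{i}) = K₁ μ (Sp ∩ ix⁻¹{i})` (`hZ.full`), and `T i = A κ a^d` (`hc.T_eq` at the occurrence `hocc i`).
Hence `card · A κ · a^d ≤ K₁ K (2p)^d A κ`; cancel `A κ` (`≠ 0`, `≠ ⊤`) and go to reals (`ENNReal.ofReal_le_ofReal_iff`, all factors `≥ 0`). -/
theorem k7p_count {Z : K7pBs} {c : K7pCol Z} {S : Set (ℝ → ℝ → ℝ)} {K d a0 a ϑ K1 η Lg : ℝ} (hZ : Z.Ok K d a0 ϑ) (hc : c.Ok S K d a ϑ) (hK : 1 ≤ K) (hK1 : 0 < K1)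
    (hη : 0 ≤ η) (ha : a0 ≤ a) {g : ℝ → ℝ → ℝ} (hg : k7pLip g Lg) (hLg : 2 * Lg * ϑ ≤ K * a + η) (κ : Z.Bx) (hA0 : Z.A κ ≠ 0) (hA1 : Z.A κ ≠ ⊤) (Js : Finset c.I)
    (hocc : ∀ i ∈ Js, ∃ ω ∈ Z.Sp, c.ix ω = i ∧ Z.bx ω = κ) (hhv : ∀ i ∈ Js, i ∈ c.hv K1) (hcl : ∀ i ∈ Js, k7pClose (c.f i) g η) :
    (Js.card : ℝ) * a ^ d ≤ K * K1 * (2 * (K * a + η)) ^ d := by
  have ha0 : 0 < a := hc.a_pos
  set p : ℝ := K * a + η with hp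
  have hap : a0 ≤ p := by
    have : a ≤ K * a := le_mul_of_one_le_left ha0.le hK
    linarith
  have hp0 : 0 < p := lt_of_lt_of_le hZ.a0_pos hap
  have hcap := k7p_cap_box hZ hg hap hLg κ
  -- the pieces
  have hsub : (⋃ i ∈ Js, Z.Sp ∩ c.ix ⁻¹' {i}) ⊆ Z.Sp ∩ {ω | Z.bx ω = κ ∧ |Z.X ω - g (Z.u ω).1 (Z.u ω).2| ≤ p} := by
    intro ω hω
    obtain ⟨i, hi, hS, hix⟩ := Set.mem_iUnion₂.1 hω
    have hix' : c.ix ω = i := hix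
    obtain ⟨ω', hS', hix'', hb'⟩ := hocc i hi
    have hb : Z.bx ω = κ := by
      rw [← hc.box ω hS, hix', ← hix'', hc.box ω' hS', hb']
    refine ⟨hS, hb, ?_⟩
    have hu := hZ.u_mem ω hS
    have h1 := hc.fit ω hS
    have h2 := hcl i hi (Z.u ω).1 ⟨hu.1.1, hu.1.2.le⟩ (Z.u ω).2 ⟨hu.2.1, hu.2.2.le⟩
    rw [hix'] at h1
    have e : Z.X ω - g (Z.u ω).1 (Z.u ω).2 = (Z.X ω - c.f i (Z.u ω).1 (Z.u ω).2) + (c.f i (Z.u ω).1 (Z.u ω).2 - g (Z.u ω).1 (Z.u ω).2) := by ring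
    rw [e]
    exact (abs_add_le _ _).trans (add_le_add h1 h2)
  have hsum : ∑ i ∈ Js, Z.μ (Z.Sp ∩ c.ix ⁻¹' {i}) ≤ ENNReal.ofReal (K * (2 * p) ^ d) * Z.A κ := by
    rw [← measure_biUnion_finset (fun i _ j _ hij => ?_) (fun i _ => hZ.m_Sp.inter (hc.m_ix i))]
    · exact (measure_mono hsub).trans hcap
    · refine Set.disjoint_left.2 fun ω h1 h2 => hij ?_
      have e1 : c.ix ω = i := h1.2
      have e2 : c.ix ω = j := h2.2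
      rw [← e1, e2]
  have hT : ∀ i ∈ Js, Z.A κ * ENNReal.ofReal (a ^ d) ≤ ENNReal.ofReal K1 * Z.μ (Z.Sp ∩ c.ix ⁻¹' {i}) := fun i hi => by
    obtain ⟨ω', hS', hix'', hb'⟩ := hocc i hi
    have h1 : c.T i = Z.A κ * ENNReal.ofReal (a ^ d) := by
      rw [← hix'', hc.T_eq ω' hS', hb']
    have h2 : c.T i ≤ ENNReal.ofReal K1 * Z.μ (c.ix ⁻¹' {i}) := hhv i hi
    have h3 : Z.μ (c.ix ⁻¹' {i}) ≤ Z.μ (Z.Sp ∩ c.ix ⁻¹' {i}) := by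
      calc Z.μ (c.ix ⁻¹' {i}) ≤ Z.μ ((Z.Sp ∩ c.ix ⁻¹' {i}) ∪ Z.Spᶜ) := by
            refine measure_mono fun ω hω => ?_
            by_cases h : ω ∈ Z.Sp
            · exact Or.inl ⟨h, hω⟩
            · exact Or.inr h
        _ ≤ Z.μ (Z.Sp ∩ c.ix ⁻¹' {i}) + Z.μ Z.Spᶜ := measure_union_le _ _
        _ = Z.μ (Z.Sp ∩ c.ix ⁻¹' {i}) := by rw [hZ.full, add_zero]
    rw [← h1]
    exact h2.trans (mul_le_mul_right h3 _)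
  have hmain : (Js.card : ℝ≥0∞) * ENNReal.ofReal (a ^ d) * Z.A κ ≤ ENNReal.ofReal K1 * ENNReal.ofReal (K * (2 * p) ^ d) * Z.A κ := by
    calc (Js.card : ℝ≥0∞) * ENNReal.ofReal (a ^ d) * Z.A κ = ∑ _i ∈ Js, Z.A κ * ENNReal.ofReal (a ^ d) := by
          rw [Finset.sum_const, nsmul_eq_mul]
          ring
      _ ≤ ∑ i ∈ Js, ENNReal.ofReal K1 * Z.μ (Z.Sp ∩ c.ix ⁻¹' {i}) := Finset.sum_le_sum hT
      _ = ENNReal.ofReal K1 * ∑ i ∈ Js, Z.μ (Z.Sp ∩ c.ix ⁻¹' {i}) := by rw [Finset.mul_sum]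
      _ ≤ ENNReal.ofReal K1 * (ENNReal.ofReal (K * (2 * p) ^ d) * Z.A κ) := mul_le_mul_right hsum _
      _ = ENNReal.ofReal K1 * ENNReal.ofReal (K * (2 * p) ^ d) * Z.A κ := by ring
  have hcancel : (Js.card : ℝ≥0∞) * ENNReal.ofReal (a ^ d) ≤ ENNReal.ofReal K1 * ENNReal.ofReal (K * (2 * p) ^ d) :=
    (ENNReal.mul_le_mul_iff_left hA0 hA1).1 hmain
  rw [← ENNReal.ofReal_natCast, ← ENNReal.ofReal_mul (Nat.cast_nonneg _), ← ENNReal.ofReal_mul hK1.le] at hcancel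
  have hnn : 0 ≤ K1 * (K * (2 * p) ^ d) := by positivity
  have := (ENNReal.ofReal_le_ofReal_iff hnn).1 hcancel
  calc (Js.card : ℝ) * a ^ d ≤ K1 * (K * (2 * p) ^ d) := this
    _ = K * K1 * (2 * (K * a + η)) ^ d := by rw [hp]; ring

/-- **L-252-S7p-C3**.  A set all of whose finite subsets have at most `B` elements is finite, with the same bound.  (`Set.Infinite.exists_subset_card_eq` with `n = ⌊B⌋₊ + 1`.) -/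
theorem k7p_finite_of_card {α : Type} (s : Set α) (B : ℝ) (h : ∀ Js : Finset α, (↑Js : Set α) ⊆ s → (Js.card : ℝ) ≤ B) :
    ∃ S : Finset α, (↑S : Set α) = s ∧ (S.card : ℝ) ≤ B := by
  have hfin : s.Finite := by
    by_contra hinf
    obtain ⟨t, ht, hcard⟩ := Set.Infinite.exists_subset_card_eq hinf (⌊B⌋₊ + 1)
    have h1 := h t ht
    rw [hcard] at h1
    have h2 := Nat.lt_floor_add_one B
    push_cast at h1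
    linarith
  refine ⟨hfin.toFinset, hfin.coe_toFinset, h _ ?_⟩
  rw [hfin.coe_toFinset]

/-! ## C4. The jittered base law -/

/-- the law of the base point of the incidences in `F`, JITTERED uniformly in its tiny cell -/
def k7pJit (Z : K7pBs) (ϑ : ℝ) (F : Set Z.Ω) : Measure (ℝ × ℝ) :=
  Measure.sum fun c : ℤ × ℤ => (Z.μ (F ∩ Z.cl ϑ ⁻¹' {c}) / ENNReal.ofReal (ϑ ^ 2)) • volume.restrict (k7pSq ϑ c)

/-- **L-252-S7p-C4a**.  `volume (k7pSq ϑ c) = ϑ²` (`Measure.volume_eq_prod`, `Measure.prod_prod`, `Real.volume_Ico`), the squares are measurable, `z ∈ k7pSq ϑ c ↔ k7pCell ϑ z = c` (`Int.floor_eq_iff`, `le_div_iff₀`, `div_lt_iff₀`). -/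
theorem k7p_sq (ϑ : ℝ) (hϑ : 0 < ϑ) (c : ℤ × ℤ) :
    MeasurableSet (k7pSq ϑ c) ∧ volume (k7pSq ϑ c) = ENNReal.ofReal (ϑ ^ 2) ∧ ∀ z, z ∈ k7pSq ϑ c ↔ k7pCell ϑ z = c := by
  refine ⟨measurableSet_Ico.prod measurableSet_Ico, ?_, ?_⟩
  · unfold k7pSq
    rw [Measure.volume_eq_prod, Measure.prod_prod, Real.volume_Ico, Real.volume_Ico, ← ENNReal.ofReal_mul (by nlinarith)]
    congr 1
    ring
  · intro z
    unfold k7pSq k7pCell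
    rw [Set.mem_prod, Set.mem_Ico, Set.mem_Ico, Prod.ext_iff, Int.floor_eq_iff, Int.floor_eq_iff, le_div_iff₀ hϑ, le_div_iff₀ hϑ,
      div_lt_iff₀ hϑ, div_lt_iff₀ hϑ]

/-- the tiny cell is a measurable function of the incidence -/
theorem k7p_cl_meas {Z : K7pBs} (hu : Measurable Z.u) (ϑ : ℝ) (c : ℤ × ℤ) : MeasurableSet (Z.cl ϑ ⁻¹' {c}) := by
  have h : Measurable (Z.cl ϑ) :=
    (Int.measurable_floor.comp ((measurable_fst.comp hu).div_const ϑ)).prodMk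
      (Int.measurable_floor.comp ((measurable_snd.comp hu).div_const ϑ))
  exact h (measurableSet_singleton c)

theorem k7p_mesh_pos {Z : K7pBs} {K d a0 ϑ : ℝ} (hZ : Z.Ok K d a0 ϑ) : 0 < ϑ := by
  obtain ⟨k, hk⟩ := hZ.mesh
  rw [hk]
  positivity

theorem k7p_jit_apply (Z : K7pBs) (ϑ : ℝ) (F : Set Z.Ω) {s : Set (ℝ × ℝ)} (hs : MeasurableSet s) :
    k7pJit Z ϑ F s = ∑' c : ℤ × ℤ, Z.μ (F ∩ Z.cl ϑ ⁻¹' {c}) / ENNReal.ofReal (ϑ ^ 2) * volume (s ∩ k7pSq ϑ c) := by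
  unfold k7pJit
  rw [Measure.sum_apply _ hs]
  refine tsum_congr fun c => ?_
  rw [Measure.smul_apply, Measure.restrict_apply hs, smul_eq_mul]

/-- **L-252-S7p-C4a**.  Total mass.
PROOF.  `Measure.sum_apply _ MeasurableSet.univ`, `Measure.smul_apply`, `Measure.restrict_apply`, `k7p_sq`: each term is `μ (F ∩ cl⁻¹{c}) / ϑ² * ϑ² = μ (F ∩ cl⁻¹{c})` (`ENNReal.div_mul_cancel`).  The sets `F ∩ cl⁻¹{c}` are measurable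
(`cl = k7pCell ϑ ∘ u`, `Measurable.floor`), pairwise disjoint, with union `F`: `measure_iUnion`. -/
theorem k7p_jit_univ {Z : K7pBs} {K d a0 ϑ : ℝ} (hZ : Z.Ok K d a0 ϑ) {F : Set Z.Ω} (hF : MeasurableSet F) : k7pJit Z ϑ F Set.univ = Z.μ F := by
  have hϑ := k7p_mesh_pos hZ
  have h0 : ENNReal.ofReal (ϑ ^ 2) ≠ 0 := by
    rw [Ne, ENNReal.ofReal_eq_zero, not_le]
    positivity
  rw [k7p_jit_apply Z ϑ F MeasurableSet.univ]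
  have e1 : ∀ c : ℤ × ℤ, Z.μ (F ∩ Z.cl ϑ ⁻¹' {c}) / ENNReal.ofReal (ϑ ^ 2) * volume (Set.univ ∩ k7pSq ϑ c) = Z.μ (F ∩ Z.cl ϑ ⁻¹' {c}) := by
    intro c
    rw [Set.univ_inter, (k7p_sq ϑ hϑ c).2.1, ENNReal.div_mul_cancel h0 ENNReal.ofReal_ne_top]
  simp only [e1]
  rw [← measure_iUnion]
  · congr 1
    ext ω
    simp
  · intro c c' hcc
    refine Set.disjoint_left.2 fun ω h1 h2 => hcc ?_
    have a1 : Z.cl ϑ ω = c := h1.2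
    have a2 : Z.cl ϑ ω = c' := h2.2
    rw [← a1, a2]
  · exact fun c => hF.inter (k7p_cl_meas hZ.m_u ϑ c)

/-- **L-252-S7p-C4b**.  Disjoint pieces.
PROOF.  `Measure.le_iff`; for measurable `s` expand both sides with `Measure.finset_sum_apply`/`Measure.coe_finset_sum`, `Measure.sum_apply`; exchange `∑ j` and `∑' c` (`ENNReal.tsum_finsetSum`/`tsum_finsetSum`-type lemma, or `Summable.tsum_finsetSum ENNReal.summable`);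
for each `c`: `∑ j, μ (Fs j ∩ cl⁻¹{c}) = μ (⋃ j, Fs j ∩ cl⁻¹{c}) ≤ μ (F ∩ cl⁻¹{c})` (`measure_biUnion_finset`), then `ENNReal.div_le_div_right`, `Finset.sum_div`, `Finset.sum_mul`. -/
theorem k7p_jit_sum {Z : K7pBs} {K d a0 ϑ : ℝ} (hZ : Z.Ok K d a0 ϑ) {ι : Type} [Fintype ι] (Fs : ι → Set Z.Ω) (F : Set Z.Ω) (hm : ∀ j, MeasurableSet (Fs j))
    (hdis : Pairwise fun j j' => Disjoint (Fs j) (Fs j')) (hsub : ∀ j, Fs j ⊆ F) : ∑ j, k7pJit Z ϑ (Fs j) ≤ k7pJit Z ϑ F := by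
  rw [Measure.le_iff]
  intro s hs
  rw [Measure.finsetSum_apply, k7p_jit_apply Z ϑ F hs]
  simp only [k7p_jit_apply Z ϑ _ hs]
  rw [← Summable.tsum_finsetSum fun _ _ => ENNReal.summable]
  refine ENNReal.tsum_le_tsum fun c => ?_
  simp only [div_eq_mul_inv]
  rw [← Finset.sum_mul, ← Finset.sum_mul]
  gcongr
  rw [← measure_biUnion_finset (fun j _ j' _ hjj => (hdis hjj).mono Set.inter_subset_left Set.inter_subset_left)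
    (fun j _ => (hm j).inter (k7p_cl_meas hZ.m_u ϑ c))]
  refine measure_mono ?_
  intro ω hω
  simp only [Set.mem_iUnion] at hω
  obtain ⟨j, -, h1, h2⟩ := hω
  exact ⟨hsub j h1, h2⟩

/-- **L-252-S7p-C4c**.  Exact density ceiling.
PROOF.  `Measure.le_iff`; for measurable `s`: `∑' c, μ(..)/ϑ² * vol (s ∩ Sq c) ≤ ∑' c, Cst * vol (s ∩ Sq c) = Cst * vol (⋃ c, s ∩ Sq c) = Cst * vol s` (the squares partition the plane: `k7p_sq`; `ENNReal.div_le_of_le_mul`, `ENNReal.tsum_mul_left`, `measure_iUnion`). -/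
theorem k7p_jit_le {Z : K7pBs} {ϑ : ℝ} (hϑ : 0 < ϑ) {F : Set Z.Ω} {Cst : ℝ≥0∞} (h : ∀ c, Z.μ (F ∩ Z.cl ϑ ⁻¹' {c}) ≤ Cst * ENNReal.ofReal (ϑ ^ 2)) :
    k7pJit Z ϑ F ≤ Cst • volume := by
  rw [Measure.le_iff]
  intro s hs
  rw [k7p_jit_apply Z ϑ F hs, Measure.smul_apply, smul_eq_mul]
  calc ∑' c : ℤ × ℤ, Z.μ (F ∩ Z.cl ϑ ⁻¹' {c}) / ENNReal.ofReal (ϑ ^ 2) * volume (s ∩ k7pSq ϑ c)
      ≤ ∑' c : ℤ × ℤ, Cst * volume (s ∩ k7pSq ϑ c) := by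
        refine ENNReal.tsum_le_tsum fun c => ?_
        gcongr
        exact ENNReal.div_le_of_le_mul (h c)
    _ = Cst * ∑' c : ℤ × ℤ, volume (s ∩ k7pSq ϑ c) := ENNReal.tsum_mul_left
    _ = Cst * volume s := by
        rw [← measure_iUnion]
        · congr 2
          ext z
          simp only [Set.mem_iUnion, Set.mem_inter_iff, exists_and_left, and_iff_left_iff_imp]
          exact fun _ => ⟨k7pCell ϑ z, ((k7p_sq ϑ hϑ _).2.2 z).2 rfl⟩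
        · intro c c' hcc
          refine Set.disjoint_left.2 fun z h1 h2 => hcc ?_
          rw [← ((k7p_sq ϑ hϑ c).2.2 z).1 h1.2, ((k7p_sq ϑ hϑ c').2.2 z).1 h2.2]
        · exact fun c => hs.inter (k7p_sq ϑ hϑ c).1

/-- **L-252-S7p-C4d**.  A property which holds on every occupied square holds almost everywhere for the jittered law (no measurability of `Pz`).
PROOF.  `ae_iff`, `Measure.sum_apply_of_countable`, `ENNReal.tsum_eq_zero`; for each `c`: if `F ∩ cl⁻¹{c} = ∅` the coefficient is `0`; otherwise take `ω` in it: `{z | ¬ Pz z} ∩ Sq c = ∅`, `Measure.restrict_apply'` (`k7p_sq`). -/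
theorem k7p_jit_ae {Z : K7pBs} {ϑ : ℝ} (hϑ : 0 < ϑ) {F : Set Z.Ω} {Pz : ℝ × ℝ → Prop} (h : ∀ ω ∈ F, ∀ z ∈ k7pSq ϑ (Z.cl ϑ ω), Pz z) : ∀ᵐ z ∂k7pJit Z ϑ F, Pz z := by
  rw [ae_iff]
  unfold k7pJit
  rw [Measure.sum_apply_of_countable, ENNReal.tsum_eq_zero]
  intro c
  rw [Measure.smul_apply, smul_eq_mul]
  by_cases hc : (F ∩ Z.cl ϑ ⁻¹' {c}).Nonempty
  · obtain ⟨ω, hω, hωc⟩ := hc
    have hωc' : Z.cl ϑ ω = c := hωc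
    have he : {z | ¬ Pz z} ∩ k7pSq ϑ c = ∅ := by
      ext z
      simp only [Set.mem_inter_iff, Set.mem_ofPred_eq, Set.mem_empty_iff_false, iff_false, not_and]
      intro hz hzc
      exact hz (h ω hω z (hωc' ▸ hzc))
    rw [Measure.restrict_apply' (k7p_sq ϑ hϑ c).1, he, measure_empty, mul_zero]
  · rw [Set.not_nonempty_iff_eq_empty.1 hc, measure_empty, ENNReal.zero_div, zero_mul]

theorem k7p_C4d_one (k : ℕ) {u z : ℝ} (hu : u ∈ Set.Ico (0 : ℝ) 1)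
    (hz : z ∈ Set.Ico ((⌊u / (1 / 2 : ℝ) ^ k⌋ : ℝ) * (1 / 2 : ℝ) ^ k) (((⌊u / (1 / 2 : ℝ) ^ k⌋ : ℝ) + 1) * (1 / 2 : ℝ) ^ k)) : z ∈ Set.Icc (0 : ℝ) 1 := by
  have hϑ : (0 : ℝ) < (1 / 2 : ℝ) ^ k := by positivity
  have e : (2 : ℝ) ^ k * (1 / 2 : ℝ) ^ k = 1 := by
    rw [← mul_pow]
    norm_num
  have h0 : (0 : ℤ) ≤ ⌊u / (1 / 2 : ℝ) ^ k⌋ := Int.floor_nonneg.2 (div_nonneg hu.1 hϑ.le)
  have h1 : ⌊u / (1 / 2 : ℝ) ^ k⌋ < (2 : ℤ) ^ k := by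
    rw [Int.floor_lt, div_lt_iff₀ hϑ]
    push_cast
    rw [e]
    exact hu.2
  have h0' : (0 : ℝ) ≤ (⌊u / (1 / 2 : ℝ) ^ k⌋ : ℝ) := by exact_mod_cast h0
  have h1' : (⌊u / (1 / 2 : ℝ) ^ k⌋ : ℝ) + 1 ≤ (2 : ℝ) ^ k := by exact_mod_cast (Int.add_one_le_iff.2 h1)
  constructor
  · exact le_trans (mul_nonneg h0' hϑ.le) hz.1
  · exact hz.2.le.trans ((mul_le_mul_of_nonneg_right h1' hϑ.le).trans e.le)

/-- **L-252-S7p-C4d**.  The occupied squares lie in the unit square (`ϑ = 2^{-k}`: `0 ≤ c < 2^k`, so `(c + 1) ϑ ≤ 1`); hence (`k7p_jit_ae`) the jittered law is carried by the unit square. -/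
theorem k7p_jit_supp {Z : K7pBs} {K d a0 ϑ : ℝ} (hZ : Z.Ok K d a0 ϑ) {F : Set Z.Ω} (hF : F ⊆ Z.Sp) :
    (∀ ω ∈ F, k7pSq ϑ (Z.cl ϑ ω) ⊆ Set.Icc (0 : ℝ) 1 ×ˢ Set.Icc (0 : ℝ) 1) ∧ k7pJit Z ϑ F (Set.Icc (0 : ℝ) 1 ×ˢ Set.Icc (0 : ℝ) 1)ᶜ = 0 := by
  obtain ⟨k, hk⟩ := hZ.mesh
  have hϑ : 0 < ϑ := by
    rw [hk]
    positivity
  have h1 : ∀ ω ∈ F, k7pSq ϑ (Z.cl ϑ ω) ⊆ Set.Icc (0 : ℝ) 1 ×ˢ Set.Icc (0 : ℝ) 1 := by
    intro ω hω z hz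
    have hu := hZ.u_mem ω (hF hω)
    subst hk
    exact ⟨k7p_C4d_one k hu.1 hz.1, k7p_C4d_one k hu.2 hz.2⟩
  refine ⟨h1, ?_⟩
  have h2 : ∀ᵐ z ∂k7pJit Z ϑ F, z ∈ Set.Icc (0 : ℝ) 1 ×ˢ Set.Icc (0 : ℝ) 1 := k7p_jit_ae hϑ fun ω hω z hz => h1 ω hω hz
  exact ae_iff.1 h2

/-- **L-252-S7p-C4e**.  The index-base marginal of one index after the jitter (07 l.479-491): density `≤ K (2K)^d T i`.
PROOF.  `k7p_jit_le` with `Cst := ofReal (K (2 K a)^d) * A κ`, `κ = bx ω₀`: `F ∩ cl⁻¹{c} ⊆ Sp ∩ {bx = κ, cl = c, |X - f i (u)| ≤ K a}` (`hc.box`, `hc.fit`), `k7p_cap_cell` with `g = f i`, `Lg = K` (`hc.lip ω₀`), `p = K a` (`a0 ≤ a ≤ K a`; `2 K ϑ ≤ ..`: use `hc.tiny`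
and `hK2 : 2 ≤ K`... NOT assumed: take `p = 2 K a` instead; the statement has `(4 K a)^d`).  Then `(4 K a)^d = (4K)^d a^d` (`Real.mul_rpow`) and `T i = A κ a^d`. -/
theorem k7p_jit_marg {Z : K7pBs} {c : K7pCol Z} {S : Set (ℝ → ℝ → ℝ)} {K d a0 a ϑ : ℝ} (hZ : Z.Ok K d a0 ϑ) (hc : c.Ok S K d a ϑ) (hK : 1 ≤ K) (ha : a0 ≤ a)
    {ω₀ : Z.Ω} (hω₀ : ω₀ ∈ Z.Sp) {F : Set Z.Ω} (hF : F ⊆ Z.Sp ∩ c.ix ⁻¹' {c.ix ω₀}) :
    k7pJit Z ϑ F ≤ (ENNReal.ofReal (K * (4 * K) ^ d) * c.T (c.ix ω₀)) • volume := by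
  obtain ⟨k, hk⟩ := hZ.mesh
  have hϑ : 0 < ϑ := by rw [hk]; positivity
  have ha0 : 0 < a := hc.a_pos
  have hKa : a ≤ K * a := le_mul_of_one_le_left ha0.le hK
  have hT : c.T (c.ix ω₀) = Z.A (Z.bx ω₀) * ENNReal.ofReal (a ^ d) := hc.T_eq ω₀ hω₀
  have hcst : ENNReal.ofReal (K * (4 * K) ^ d) * c.T (c.ix ω₀) = ENNReal.ofReal (K * (2 * (2 * K * a)) ^ d) * Z.A (Z.bx ω₀) := by
    have e : K * (2 * (2 * K * a)) ^ d = K * (4 * K) ^ d * a ^ d := by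
      have : 2 * (2 * K * a) = 4 * K * a := by ring
      rw [this, Real.mul_rpow (by positivity) ha0.le]
      ring
    rw [hT, e, ENNReal.ofReal_mul (p := K * (4 * K) ^ d) (q := a ^ d) (by positivity)]
    ring
  rw [hcst]
  refine k7p_jit_le hϑ fun cc => ?_
  have hcap := k7p_cap_cell hZ (hc.lip ω₀ hω₀) (p := 2 * K * a) (by linarith) (by have := hc.tiny; nlinarith) (Z.bx ω₀) cc
  refine (measure_mono ?_).trans (hcap.trans (le_of_eq ?_))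
  · rintro ω ⟨hωF, hcl⟩
    obtain ⟨hS, hix⟩ := hF hωF
    have hix' : c.ix ω = c.ix ω₀ := hix
    refine ⟨hS, ?_, hcl, ?_⟩
    · rw [← hc.box ω hS, hix', hc.box ω₀ hω₀]
    · have := hc.fit ω hS
      rw [hix'] at this
      have h2 : 0 ≤ K * a := by positivity
      linarith
  · rw [ENNReal.ofReal_mul (by positivity)]
    ring

/-! ## C5. Pigeonholes -/

/-- **L-252-S7p-C5a** (07 l.517-522).  PROOF.  Otherwise `Kw * B i ≤ δ * Wt i` for all `i` (if `B i = 0` trivially), so `Kw * ∑' B ≤ δ * ∑' Wt ≤ δ * Kw` (`ENNReal.tsum_mul_left`), i.e. `∑' B ≤ δ` (`ENNReal.mul_le_mul_left`-type cancellation, `Kw ≠ 0, ⊤`). -/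
theorem k7p_pigeon {ι : Type} (B Wt : ι → ℝ≥0∞) {δ Kw : ℝ≥0∞} (hKw0 : Kw ≠ 0) (hKw : Kw ≠ ⊤) (hB : δ < ∑' i, B i) (hW : ∑' i, Wt i ≤ Kw) :
    ∃ i, B i ≠ 0 ∧ δ * Wt i ≤ Kw * B i := by
  by_contra hcon
  push Not at hcon
  have h1 : ∀ i, Kw * B i ≤ δ * Wt i := by
    intro i
    by_cases hi : B i = 0
    · rw [hi, mul_zero]; exact zero_le
    · exact (hcon i hi).le
  have h2 : Kw * ∑' i, B i ≤ Kw * δ := by
    calc Kw * ∑' i, B i = ∑' i, Kw * B i := ENNReal.tsum_mul_left.symm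
      _ ≤ ∑' i, δ * Wt i := ENNReal.tsum_le_tsum h1
      _ = δ * ∑' i, Wt i := ENNReal.tsum_mul_left
      _ ≤ δ * Kw := by gcongr
      _ = Kw * δ := mul_comm _ _
  have h3 : ∑' i, B i ≤ δ := (ENNReal.mul_le_mul_iff_right hKw0 hKw).1 h2
  exact absurd hB (not_lt.2 h3)

/-- **L-252-S7p-C5b** (07 l.505-509).  An index enters at most `n` groups.   (`ENNReal.tsum_comm`; `∑' g, if g ∈ Γ i then T i else 0 = (Γ i).card * T i` by `tsum_eq_sum`.) -/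
theorem k7p_group_budget {I G : Type} [DecidableEq G] (T : I → ℝ≥0∞) (Γ : I → Finset G) (n : ℕ) (hΓ : ∀ i, (Γ i).card ≤ n) :
    ∑' g, ∑' i, (if g ∈ Γ i then T i else 0) ≤ n * ∑' i, T i := by
  rw [ENNReal.tsum_comm, ← ENNReal.tsum_mul_left]
  refine ENNReal.tsum_le_tsum fun i => ?_
  have h1 : ∑' g, (if g ∈ Γ i then T i else 0) = ∑ g ∈ Γ i, (if g ∈ Γ i then T i else 0) :=
    tsum_eq_sum fun g hg => by rw [if_neg hg]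
  rw [h1, Finset.sum_congr rfl fun g hg => if_pos hg, Finset.sum_const, nsmul_eq_mul]
  gcongr
  exact_mod_cast hΓ i

/-! ## C6. One discrepancy scale -/

/-- the retained incidences: both indices heavy, box of positive weight -/
def k7pRet {Z : K7pBs} (c1 c2 : K7pCol Z) (K1 : ℝ) : Set Z.Ω := Z.Sp ∩ {ω | c1.ix ω ∈ c1.hv K1 ∧ c2.ix ω ∈ c2.hv K1 ∧ Z.A (Z.bx ω) ≠ 0}

theorem k7p_C6_num {K d a K1 C0 M R d0 ε n : ℝ} (hK : 1 ≤ K) (hd : 0 ≤ d) (hd1 : d ≤ 1) (ha : 0 < a) (haM : a ≤ M) (hC0 : 1 ≤ C0) (hK1 : 1 ≤ K1) (hR : 1 ≤ R)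
    (hex : (M / a) ^ d ≤ R ^ d0) (hsm : 2 * K * K1 * (K + C0 + 2) ≤ R ^ ε) (hn : n * a ^ d ≤ K * K1 * (2 * (K * a + (2 + C0) * M)) ^ d) : n ≤ R ^ (d0 + ε) := by
  have hR0 : 0 < R := by linarith
  have hM : 0 < M := lt_of_lt_of_le ha haM
  have had : 0 < a ^ d := Real.rpow_pos_of_pos ha d
  have hx : 1 ≤ 2 * (K + C0 + 2) := by linarith
  have h1 : 2 * (K * a + (2 + C0) * M) ≤ 2 * (K + C0 + 2) * (M / a) * a := by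
    have e : 2 * (K + C0 + 2) * (M / a) * a = 2 * (K + C0 + 2) * M := by
      field_simp
    rw [e]
    nlinarith
  have h2 : (2 * (K * a + (2 + C0) * M)) ^ d ≤ 2 * (K + C0 + 2) * R ^ d0 * a ^ d := by
    calc (2 * (K * a + (2 + C0) * M)) ^ d ≤ (2 * (K + C0 + 2) * (M / a) * a) ^ d :=
          Real.rpow_le_rpow (by positivity) h1 hd
      _ = (2 * (K + C0 + 2)) ^ d * (M / a) ^ d * a ^ d := by
          rw [Real.mul_rpow (by positivity) ha.le, Real.mul_rpow (by positivity) (by positivity)]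
      _ ≤ 2 * (K + C0 + 2) * R ^ d0 * a ^ d := by
          refine mul_le_mul_of_nonneg_right ?_ had.le
          refine mul_le_mul ?_ hex (by positivity) (by positivity)
          calc (2 * (K + C0 + 2)) ^ d ≤ (2 * (K + C0 + 2)) ^ (1 : ℝ) := Real.rpow_le_rpow_of_exponent_le hx hd1
            _ = _ := Real.rpow_one _
  have h3 : n * a ^ d ≤ (R ^ (d0 + ε)) * a ^ d := by
    refine hn.trans ?_
    calc K * K1 * (2 * (K * a + (2 + C0) * M)) ^ d ≤ K * K1 * (2 * (K + C0 + 2) * R ^ d0 * a ^ d) :=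
          mul_le_mul_of_nonneg_left h2 (by positivity)
      _ = (2 * K * K1 * (K + C0 + 2)) * R ^ d0 * a ^ d := by ring
      _ ≤ R ^ ε * R ^ d0 * a ^ d := by
          refine mul_le_mul_of_nonneg_right (mul_le_mul_of_nonneg_right hsm (by positivity)) had.le
      _ = R ^ (d0 + ε) * a ^ d := by
          rw [Real.rpow_add hR0]
          ring
  exact le_of_mul_le_mul_right h3 had

/-- what the smallness hypothesis gives -/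
theorem k7p_C6_small {K d K1 C0 δ X : ℝ} {m : ℕ} (hK : 1 ≤ K) (hd1 : d ≤ 1) (hC0 : 1 ≤ C0) (hK1 : 1 ≤ K1) (hδ : 0 < δ) (hδ1 : δ ≤ 1)
    (hsm : 64 * (4 * C0 + 8) ^ m * (K + C0 + 2) ^ 4 * K1 / δ ≤ X) :
    2 * K * K1 * (K + C0 + 2) ≤ X ∧ 2 + C0 ≤ X ∧ 2 * K + 4 ≤ X ∧
      K * (4 * K) ^ d * (((2 * ((⌈2 * C0⌉₊ + 1 : ℕ) : ℝ) + 1) ^ m + 1) * K) / δ ≤ X := by
  obtain ⟨s, hs⟩ : ∃ s, s = K + C0 + 2 := ⟨_, rfl⟩
  obtain ⟨p, hp⟩ : ∃ p, p = (4 * C0 + 8) ^ m := ⟨_, rfl⟩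
  rw [← hs, ← hp] at hsm
  rw [← hs]
  have hs4 : 4 ≤ s := by linarith
  have hp1 : 1 ≤ p := by
    rw [hp]
    exact one_le_pow₀ (by linarith)
  have hss : s ≤ s ^ 2 := by nlinarith
  have hs24 : s ^ 2 ≤ s ^ 4 := by nlinarith [sq_nonneg (s ^ 2 - s), sq_nonneg s]
  have hs34 : s ^ 3 ≤ s ^ 4 := by
    have : 0 ≤ s ^ 3 := by positivity
    nlinarith
  have hT : s ^ 4 ≤ s ^ 4 * K1 := by
    have : 0 ≤ s ^ 4 := by positivity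
    nlinarith
  have hbase : ∀ Y : ℝ, 0 ≤ Y → Y ≤ 64 * p * s ^ 4 * K1 → Y / δ ≤ X := by
    intro Y _ hY
    exact (div_le_div_of_nonneg_right hY hδ.le).trans hsm
  have hbase' : ∀ Y : ℝ, 0 ≤ Y → Y ≤ 64 * p * s ^ 4 * K1 → Y ≤ X := by
    intro Y hY0 hY
    refine le_trans ?_ (hbase Y hY0 hY)
    rw [le_div_iff₀ hδ]
    nlinarith
  have hpT : 64 * (s ^ 4 * K1) ≤ 64 * p * s ^ 4 * K1 := by
    have : 0 ≤ s ^ 4 * K1 := by positivity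
    nlinarith
  refine ⟨hbase' _ (by positivity) ?_, hbase' _ (by linarith) ?_, hbase' _ (by linarith) ?_, hbase _ (by positivity) ?_⟩
  · have h1 : 2 * K * K1 * s ≤ 2 * (s ^ 2 * K1) := by
      have : K * s ≤ s ^ 2 := by nlinarith
      nlinarith
    have h2 : s ^ 2 * K1 ≤ s ^ 4 * K1 := mul_le_mul_of_nonneg_right hs24 (by linarith)
    have : 0 ≤ s ^ 4 * K1 := by positivity
    linarith
  · have : 0 ≤ s ^ 4 * K1 := by positivity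
    linarith
  · have : 0 ≤ s ^ 4 * K1 := by positivity
    linarith
  · have h4K : (4 * K) ^ d ≤ 4 * K := by
      calc (4 * K) ^ d ≤ (4 * K) ^ (1 : ℝ) := Real.rpow_le_rpow_of_exponent_le (by linarith) hd1
        _ = _ := Real.rpow_one _
    have hr : 2 * ((⌈2 * C0⌉₊ + 1 : ℕ) : ℝ) + 1 ≤ 4 * C0 + 8 := by
      have := Nat.ceil_lt_add_one (show (0 : ℝ) ≤ 2 * C0 by linarith)
      push_cast
      linarith
    have hrm : (2 * ((⌈2 * C0⌉₊ + 1 : ℕ) : ℝ) + 1) ^ m ≤ p := by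
      rw [hp]
      exact pow_le_pow_left₀ (by positivity) hr m
    have hK3 : K ^ 3 ≤ s ^ 3 := pow_le_pow_left₀ (by linarith) (by linarith) 3
    calc K * (4 * K) ^ d * (((2 * ((⌈2 * C0⌉₊ + 1 : ℕ) : ℝ) + 1) ^ m + 1) * K) ≤ K * (4 * K) * ((p + p) * K) := by
          refine mul_le_mul (mul_le_mul_of_nonneg_left h4K (by linarith)) ?_ (by positivity) (by positivity)
          exact mul_le_mul_of_nonneg_right (by linarith) (by linarith)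
      _ = 8 * p * K ^ 3 := by ring
      _ ≤ 8 * p * (s ^ 4 * K1) := by
          refine mul_le_mul_of_nonneg_left ?_ (by positivity)
          linarith
      _ ≤ 64 * p * s ^ 4 * K1 := by
          have : 0 ≤ p * (s ^ 4 * K1) := by positivity
          nlinarith

/-- step 1: the pigeonhole over the groups -/
theorem k7p_C6_group {I1 I2 Bx : Type} {m : ℕ} (T1 : I1 → ℝ≥0∞) (T2 : I2 → ℝ≥0∞) (x1 : I1 → Bx) (x2 : I2 → Bx) (b1 : I1 → Fin m → ℤ) (b2 : I2 → Fin m → ℤ)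
    (r : ℕ) {K δ : ℝ} (hK : 0 < K) (hbud1 : ∑' i, T1 i ≤ ENNReal.ofReal K) (hbud2 : ∑' i, T2 i ≤ ENNReal.ofReal K)
    (B : Bx × (Fin m → ℤ) → ℝ≥0∞) (hB : ENNReal.ofReal δ < ∑' G, B G) :
    ∃ G, B G ≠ 0 ∧
      (∀ s : Finset I1, (∀ i ∈ s, x1 i = G.1 ∧ G.2 ∈ k4eNbr r (b1 i)) →
        ENNReal.ofReal δ * ∑ i ∈ s, T1 i ≤ ENNReal.ofReal (((2 * (r : ℝ) + 1) ^ m + 1) * K) * B G) ∧
      (∀ s : Finset I2, (∀ j ∈ s, x2 j = G.1 ∧ b2 j = G.2) →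
        ENNReal.ofReal δ * ∑ j ∈ s, T2 j ≤ ENNReal.ofReal (((2 * (r : ℝ) + 1) ^ m + 1) * K) * B G) := by
  classical
  obtain ⟨Γ1, hΓ1⟩ : ∃ Γ1 : I1 → Finset (Bx × (Fin m → ℤ)), Γ1 = fun i => (k4eNbr r (b1 i)).image (fun b => (x1 i, b)) := ⟨_, rfl⟩
  obtain ⟨Γ2, hΓ2⟩ : ∃ Γ2 : I2 → Finset (Bx × (Fin m → ℤ)), Γ2 = fun j => {(x2 j, b2 j)} := ⟨_, rfl⟩
  have hc1 : ∀ i, (Γ1 i).card ≤ (2 * r + 1) ^ m := by
    intro i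
    rw [hΓ1]
    exact Finset.card_image_le.trans (k4e_nbr_card r (b1 i)).le
  have hc2 : ∀ j, (Γ2 j).card ≤ 1 := by
    intro j
    rw [hΓ2]
    simp
  have hW : ∑' G, ((∑' i, (if G ∈ Γ1 i then T1 i else 0)) + ∑' j, (if G ∈ Γ2 j then T2 j else 0))
      ≤ ENNReal.ofReal (((2 * (r : ℝ) + 1) ^ m + 1) * K) := by
    rw [ENNReal.tsum_add]
    have e : ENNReal.ofReal (((2 * (r : ℝ) + 1) ^ m + 1) * K) = (((2 * r + 1) ^ m : ℕ) : ℝ≥0∞) * ENNReal.ofReal K + ((1 : ℕ) : ℝ≥0∞) * ENNReal.ofReal K := by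
      rw [← add_mul, ENNReal.ofReal_mul (by positivity), ← Nat.cast_add, ← ENNReal.ofReal_natCast]
      congr 2
      push_cast
      ring
    rw [e]
    exact add_le_add ((k7p_group_budget T1 Γ1 _ hc1).trans (mul_le_mul' le_rfl hbud1)) ((k7p_group_budget T2 Γ2 _ hc2).trans (mul_le_mul' le_rfl hbud2))
  have hKw0 : ENNReal.ofReal (((2 * (r : ℝ) + 1) ^ m + 1) * K) ≠ 0 := by
    rw [Ne, ENNReal.ofReal_eq_zero, not_le]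
    positivity
  obtain ⟨G, hG0, hG⟩ := k7p_pigeon B _ hKw0 ENNReal.ofReal_ne_top hB hW
  refine ⟨G, hG0, fun s hs => ?_, fun s hs => ?_⟩
  · refine le_trans (mul_le_mul' le_rfl ?_) hG
    refine le_trans ?_ le_self_add
    calc ∑ i ∈ s, T1 i = ∑ i ∈ s, (if G ∈ Γ1 i then T1 i else 0) := by
          refine Finset.sum_congr rfl fun i hi => ?_
          rw [if_pos]
          rw [hΓ1]
          exact Finset.mem_image.2 ⟨G.2, (hs i hi).2, by rw [(hs i hi).1]⟩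
      _ ≤ ∑' i, (if G ∈ Γ1 i then T1 i else 0) := ENNReal.sum_le_tsum s
  · refine le_trans (mul_le_mul' le_rfl ?_) hG
    refine le_trans ?_ le_add_self
    calc ∑ j ∈ s, T2 j = ∑ j ∈ s, (if G ∈ Γ2 j then T2 j else 0) := by
          refine Finset.sum_congr rfl fun j hj => ?_
          rw [if_pos]
          rw [hΓ2]
          exact Finset.mem_singleton.2 (by rw [(hs j hj).1, (hs j hj).2])
      _ ≤ ∑' j, (if G ∈ Γ2 j then T2 j else 0) := ENNReal.sum_le_tsum s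

/-- step 2: the index set of one colour in a group is finite -/
theorem k7p_C6_fin {Z : K7pBs} {c : K7pCol Z} {S : Set (ℝ → ℝ → ℝ)} {K d a0 a ϑ K1 η : ℝ} (hZ : Z.Ok K d a0 ϑ) (hc : c.Ok S K d a ϑ) (hK : 1 ≤ K) (hK1 : 0 < K1)
    (hη : a ≤ η) (ha : a0 ≤ a) {fs : ℝ → ℝ → ℝ} (hfs : k7pLip fs K) (κ : Z.Bx) (hA0 : Z.A κ ≠ 0) (hA1 : Z.A κ ≠ ⊤) (E : Set Z.Ω) (hE : E ⊆ Z.Sp)
    (hbx : ∀ ω ∈ E, Z.bx ω = κ) (hhv : ∀ ω ∈ E, c.ix ω ∈ c.hv K1) (hcl : ∀ ω ∈ E, k7pClose (c.f (c.ix ω)) fs η) :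
    ∃ Sf : Finset c.I, (∀ i, i ∈ Sf ↔ ∃ ω ∈ E, c.ix ω = i) ∧ (Sf.card : ℝ) * a ^ d ≤ K * K1 * (2 * (K * a + η)) ^ d := by
  have ha0 := hc.a_pos
  have had : 0 < a ^ d := Real.rpow_pos_of_pos ha0 d
  have hLg : 2 * K * ϑ ≤ K * a + η := by
    have := hc.tiny
    nlinarith
  have h1 : ∀ Js : Finset c.I, (↑Js : Set c.I) ⊆ {i | ∃ ω ∈ E, c.ix ω = i} → (Js.card : ℝ) ≤ K * K1 * (2 * (K * a + η)) ^ d / a ^ d := by
    intro Js hJs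
    rw [le_div_iff₀ had]
    refine k7p_count hZ hc hK hK1 (ha0.le.trans hη) ha hfs hLg κ hA0 hA1 Js ?_ ?_ ?_
    · intro i hi
      obtain ⟨ω, hω, hi'⟩ := hJs (Finset.mem_coe.2 hi)
      exact ⟨ω, hE hω, hi', hbx ω hω⟩
    · intro i hi
      obtain ⟨ω, hω, hi'⟩ := hJs (Finset.mem_coe.2 hi)
      exact hi' ▸ hhv ω hω
    · intro i hi
      obtain ⟨ω, hω, hi'⟩ := hJs (Finset.mem_coe.2 hi)
      exact hi' ▸ hcl ω hω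
  obtain ⟨Sf, hSf, hcard⟩ := k7p_finite_of_card _ _ h1
  refine ⟨Sf, fun i => ?_, ?_⟩
  · rw [← Finset.mem_coe, hSf]
    rfl
  · rwa [le_div_iff₀ had] at hcard

/-- step 3: the two graphs of an incidence on its tiny square -/
theorem k7p_C6_val {Z : K7pBs} {c1 c2 : K7pCol Z} {S1 S2 : Set (ℝ → ℝ → ℝ)} {K d a0 a1 a2 ϑ : ℝ} (hZ : Z.Ok K d a0 ϑ) (h1 : c1.Ok S1 K d a1 ϑ) (h2 : c2.Ok S2 K d a2 ϑ)
    (hK : 1 ≤ K) {ω : Z.Ω} (hω : ω ∈ Z.Sp) {z : ℝ × ℝ} (hz : z ∈ k7pSq ϑ (Z.cl ϑ ω)) :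
    |c1.f (c1.ix ω) z.1 z.2 - c2.f (c2.ix ω) z.1 z.2| ≤ (K + 2) * a1 + (K + 2) * a2 := by
  obtain ⟨k, hk⟩ := hZ.mesh
  have hϑ : 0 < ϑ := by
    rw [hk]
    positivity
  have hu := hZ.u_mem ω hω
  have hzU : z ∈ Set.Icc (0 : ℝ) 1 ×ˢ Set.Icc (0 : ℝ) 1 :=
    (k7p_jit_supp hZ (F := {ω}) (Set.singleton_subset_iff.2 hω)).1 ω rfl hz
  have hu' : Z.u ω ∈ k7pSq ϑ (Z.cl ϑ ω) := ((k7p_sq ϑ hϑ _).2.2 (Z.u ω)).2 rfl
  have d1 : |z.1 - (Z.u ω).1| ≤ ϑ := by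
    have a1 := hz.1
    have a2 := hu'.1
    rw [abs_le]
    constructor <;> nlinarith [a1.1, a1.2, a2.1, a2.2]
  have d2 : |z.2 - (Z.u ω).2| ≤ ϑ := by
    have a1 := hz.2
    have a2 := hu'.2
    rw [abs_le]
    constructor <;> nlinarith [a1.1, a1.2, a2.1, a2.2]
  have hu1 : (Z.u ω).1 ∈ Set.Icc (0 : ℝ) 1 := ⟨hu.1.1, hu.1.2.le⟩
  have hu2 : (Z.u ω).2 ∈ Set.Icc (0 : ℝ) 1 := ⟨hu.2.1, hu.2.2.le⟩
  have l1 := h1.lip ω hω z.1 hzU.1 z.2 hzU.2 _ hu1 _ hu2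
  have l2 := h2.lip ω hω z.1 hzU.1 z.2 hzU.2 _ hu1 _ hu2
  have f1 := h1.fit ω hω
  have f2 := h2.fit ω hω
  have t1 := h1.tiny
  have t2 := h2.tiny
  have l1' : |c1.f (c1.ix ω) z.1 z.2 - c1.f (c1.ix ω) (Z.u ω).1 (Z.u ω).2| ≤ 2 * a1 := by
    refine l1.trans ?_
    nlinarith
  have l2' : |c2.f (c2.ix ω) z.1 z.2 - c2.f (c2.ix ω) (Z.u ω).1 (Z.u ω).2| ≤ 2 * a2 := by
    refine l2.trans ?_
    nlinarith
  rw [abs_le] at l1' l2' f1 f2 ⊢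
  constructor <;> linarith [l1'.1, l1'.2, l2'.1, l2'.2, f1.1, f1.2, f2.1, f2.2]

/-- step 3: one marginal of the normalised jittered pair law -/
theorem k7p_C6_marg {Z : K7pBs} {c : K7pCol Z} {S : Set (ℝ → ℝ → ℝ)} {K d a0 a ϑ : ℝ} (hZ : Z.Ok K d a0 ϑ) (hc : c.Ok S K d a ϑ) (hK : 1 ≤ K) (ha : a0 ≤ a)
    {ι : Type} [Fintype ι] {ω₀ : Z.Ω} (hω₀ : ω₀ ∈ Z.Sp) (Fs : ι → Set Z.Ω) (hm : ∀ j, MeasurableSet (Fs j)) (hdis : Pairwise fun j j' => Disjoint (Fs j) (Fs j'))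
    (hsub : ∀ j, Fs j ⊆ Z.Sp ∩ c.ix ⁻¹' {c.ix ω₀}) {β W cR : ℝ≥0∞} (hβ0 : β ≠ 0) (hβ1 : β ≠ ⊤) (hTW : c.T (c.ix ω₀) ≤ W) (hW1 : W ≠ ⊤)
    (hkey : ENNReal.ofReal (K * (4 * K) ^ d) * W ≤ cR * β) :
    ∑ j, β⁻¹ • k7pJit Z ϑ (Fs j) ≤ (cR * (c.T (c.ix ω₀) / W)) • volume := by
  rw [← Finset.smul_sum]
  have h1 := (k7p_jit_sum hZ Fs _ hm hdis hsub).trans (k7p_jit_marg hZ hc hK ha hω₀ (le_refl _))
  have hco : β⁻¹ * (ENNReal.ofReal (K * (4 * K) ^ d) * c.T (c.ix ω₀)) ≤ cR * (c.T (c.ix ω₀) / W) := by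
    by_cases hT : c.T (c.ix ω₀) = 0
    · rw [hT]
      simp
    have hW0 : W ≠ 0 := fun h => hT (le_antisymm (h ▸ hTW) (zero_le))
    have e : c.T (c.ix ω₀) = W * (c.T (c.ix ω₀) / W) := (ENNReal.mul_div_cancel hW0 hW1).symm
    calc β⁻¹ * (ENNReal.ofReal (K * (4 * K) ^ d) * c.T (c.ix ω₀))
        = β⁻¹ * (ENNReal.ofReal (K * (4 * K) ^ d) * (W * (c.T (c.ix ω₀) / W))) := by rw [← e]
      _ = β⁻¹ * (ENNReal.ofReal (K * (4 * K) ^ d) * W) * (c.T (c.ix ω₀) / W) := by ring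
      _ ≤ β⁻¹ * (cR * β) * (c.T (c.ix ω₀) / W) := by gcongr
      _ = (β⁻¹ * β) * (cR * (c.T (c.ix ω₀) / W)) := by ring
      _ = cR * (c.T (c.ix ω₀) / W) := by rw [ENNReal.inv_mul_cancel hβ0 hβ1, one_mul]
  refine Measure.le_iff.2 fun s hs => ?_
  have h2 := Measure.le_iff.1 h1 s hs
  rw [Measure.smul_apply, smul_eq_mul] at h2
  rw [Measure.smul_apply, Measure.smul_apply, smul_eq_mul, smul_eq_mul]
  calc β⁻¹ * (∑ j, k7pJit Z ϑ (Fs j)) s ≤ β⁻¹ * (ENNReal.ofReal (K * (4 * K) ^ d) * c.T (c.ix ω₀) * volume s) := by gcongr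
    _ = β⁻¹ * (ENNReal.ofReal (K * (4 * K) ^ d) * c.T (c.ix ω₀)) * volume s := by ring
    _ ≤ cR * (c.T (c.ix ω₀) / W) * volume s := by gcongr

theorem k7p_C6_key {c' δ Kw X : ℝ} {W β : ℝ≥0∞} (hc : 0 ≤ c') (hδ : 0 < δ) (h : c' * Kw / δ ≤ X) (hb : ENNReal.ofReal δ * W ≤ ENNReal.ofReal Kw * β) :
    ENNReal.ofReal c' * W ≤ ENNReal.ofReal X * β := by
  have e : ENNReal.ofReal c' = ENNReal.ofReal (c' / δ) * ENNReal.ofReal δ := by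
    rw [← ENNReal.ofReal_mul (by positivity)]
    congr 1
    field_simp
  calc ENNReal.ofReal c' * W = ENNReal.ofReal (c' / δ) * (ENNReal.ofReal δ * W) := by rw [e, mul_assoc]
    _ ≤ ENNReal.ofReal (c' / δ) * (ENNReal.ofReal Kw * β) := by gcongr
    _ = ENNReal.ofReal (c' * Kw / δ) * β := by
        rw [← mul_assoc, ← ENNReal.ofReal_mul (by positivity)]
        congr 2
        ring
    _ ≤ ENNReal.ofReal X * β := by gcongr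

/-- steps 2 and 3: one group contradicts the hub -/
theorem k7p_C6_core {Z : K7pBs} {c1 c2 : K7pCol Z} {S1 S2 : Set (ℝ → ℝ → ℝ)} {K d a0 a1 a2 ϑ : ℝ} (hZ : Z.Ok K d a0 ϑ) (h1 : c1.Ok S1 K d a1 ϑ) (h2 : c2.Ok S2 K d a2 ϑ)
    {C0 d0 ε R Δ M K1 δ Kw : ℝ} (hub : K7pMatchAt S1 S2 d0 ε R) (hC0 : 1 ≤ C0)
    (hK : 1 ≤ K) (hd : 0 ≤ d) (hd1 : d ≤ 1) (ha0 : a0 ≤ min a1 a2) (hΔ : Δ = max a1 a2) (hM : M = R * Δ) (hR : 1 ≤ R) (hε : 0 < ε) (hK1 : 1 ≤ K1) (hδ : 0 < δ)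
    (hex1 : (R * Δ / a1) ^ d ≤ R ^ d0) (hex2 : (R * Δ / a2) ^ d ≤ R ^ d0)
    (s1 : 2 * K * K1 * (K + C0 + 2) ≤ R ^ ε) (s2 : 2 + C0 ≤ R ^ ε) (s3 : 2 * K + 4 ≤ R ^ ε) (s4 : K * (4 * K) ^ d * Kw / δ ≤ R ^ ε)
    (E : Set Z.Ω) (hEm : MeasurableSet E) (hE0 : Z.μ E ≠ 0) (hE : E ⊆ Z.Sp) (κ : Z.Bx) (hA0 : Z.A κ ≠ 0)
    (hbx : ∀ ω ∈ E, Z.bx ω = κ) (hv1 : ∀ ω ∈ E, c1.ix ω ∈ c1.hv K1) (hv2 : ∀ ω ∈ E, c2.ix ω ∈ c2.hv K1)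
    (fs : ℝ → ℝ → ℝ) (hfs : fs ∈ S2) (hfsL : k7pLip fs K)
    (cl1 : ∀ ω ∈ E, k7pClose (c1.f (c1.ix ω)) fs ((2 + C0) * M)) (cl2 : ∀ ω ∈ E, k7pClose (c2.f (c2.ix ω)) fs ((2 + C0) * M))
    (gap : ∀ ω ∈ E, ¬ k7pClose (c1.f (c1.ix ω)) (c2.f (c2.ix ω)) M)
    (bud1 : ∀ s : Finset c1.I, (∀ i ∈ s, ∃ ω ∈ E, c1.ix ω = i) → ENNReal.ofReal δ * ∑ i ∈ s, c1.T i ≤ ENNReal.ofReal Kw * Z.μ E)
    (bud2 : ∀ s : Finset c2.I, (∀ j ∈ s, ∃ ω ∈ E, c2.ix ω = j) → ENNReal.ofReal δ * ∑ j ∈ s, c2.T j ≤ ENNReal.ofReal Kw * Z.μ E) : False := by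
  have hfin := hZ.fin
  have ha1 := h1.a_pos
  have ha2 := h2.a_pos
  have hΔ1 : a1 ≤ Δ := hΔ ▸ le_max_left _ _
  have hΔ2 : a2 ≤ Δ := hΔ ▸ le_max_right _ _
  have hΔ0 : 0 < Δ := lt_of_lt_of_le ha1 hΔ1
  have hΔM : Δ ≤ M := by
    rw [hM]
    nlinarith
  have hM0 : 0 < M := lt_of_lt_of_le hΔ0 hΔM
  have hϑ : 0 < ϑ := by
    obtain ⟨k, hk⟩ := hZ.mesh
    rw [hk]
    positivity
  have hRε : 0 < R ^ ε := Real.rpow_pos_of_pos (by linarith) ε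
  obtain ⟨ω', hω'⟩ : E.Nonempty := by
    by_contra h
    rw [Set.not_nonempty_iff_eq_empty] at h
    exact hE0 (by rw [h, measure_empty])
  have hA1 : Z.A κ ≠ ⊤ := hbx ω' hω' ▸ k7p_A_fin h1 (hE hω')
  obtain ⟨T1, hT1, hcard1⟩ := k7p_C6_fin hZ h1 hK (by linarith) (η := (2 + C0) * M) (by nlinarith) (ha0.trans (min_le_left _ _)) hfsL κ hA0 hA1 E hE hbx hv1 cl1
  obtain ⟨T2, hT2, hcard2⟩ := k7p_C6_fin hZ h2 hK (by linarith) (η := (2 + C0) * M) (by nlinarith) (ha0.trans (min_le_right _ _)) hfsL κ hA0 hA1 E hE hbx hv2 cl2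
  have hn1 : (T1.card : ℝ) ≤ R ^ (d0 + ε) := k7p_C6_num hK hd hd1 ha1 (hΔ1.trans hΔM) hC0 hK1 hR (hM ▸ hex1) s1 hcard1
  have hn2 : (T2.card : ℝ) ≤ R ^ (d0 + ε) := k7p_C6_num hK hd hd1 ha2 (hΔ2.trans hΔM) hC0 hK1 hR (hM ▸ hex2) s1 hcard2
  obtain ⟨β, hβ⟩ : ∃ β, β = Z.μ E := ⟨_, rfl⟩
  have hβ0 : β ≠ 0 := hβ ▸ hE0
  have hβ1 : β ≠ ⊤ := hβ ▸ measure_ne_top _ _
  obtain ⟨W1, hW1⟩ : ∃ W1, W1 = ∑ i ∈ T1, c1.T i := ⟨_, rfl⟩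
  obtain ⟨W2, hW2⟩ : ∃ W2, W2 = ∑ j ∈ T2, c2.T j := ⟨_, rfl⟩
  have hW1t : W1 ≠ ⊤ := ne_top_of_le_ne_top ENNReal.ofReal_ne_top (hW1 ▸ (ENNReal.sum_le_tsum T1).trans h1.bud)
  have hW2t : W2 ≠ ⊤ := ne_top_of_le_ne_top ENNReal.ofReal_ne_top (hW2 ▸ (ENNReal.sum_le_tsum T2).trans h2.bud)
  have hc' : 0 ≤ K * (4 * K) ^ d := by positivity
  have hk1 : ENNReal.ofReal (K * (4 * K) ^ d) * W1 ≤ ENNReal.ofReal (R ^ ε) * β :=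
    k7p_C6_key hc' hδ s4 (hW1 ▸ hβ ▸ bud1 T1 fun i hi => (hT1 i).1 hi)
  have hk2 : ENNReal.ofReal (K * (4 * K) ^ d) * W2 ≤ ENNReal.ofReal (R ^ ε) * β :=
    k7p_C6_key hc' hδ s4 (hW2 ▸ hβ ▸ bud2 T2 fun j hj => (hT2 j).1 hj)
  obtain ⟨F, hF⟩ : ∃ F : c1.I → c2.I → Set Z.Ω, F = fun i j => E ∩ c1.ix ⁻¹' {i} ∩ c2.ix ⁻¹' {j} := ⟨_, rfl⟩
  have hFm : ∀ i j, MeasurableSet (F i j) := fun i j => by
    rw [hF]
    exact (hEm.inter (h1.m_ix i)).inter (h2.m_ix j)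
  have hFmem : ∀ i j ω, ω ∈ F i j ↔ ω ∈ E ∧ c1.ix ω = i ∧ c2.ix ω = j := fun i j ω => by
    rw [hF]
    simp only [Set.mem_inter_iff, Set.mem_preimage, Set.mem_singleton_iff, and_assoc]
  have hFS : ∀ i j, F i j ⊆ Z.Sp := fun i j ω hω => hE ((hFmem i j ω).1 hω).1
  have p1 : ∀ i : T1, c1.f i ∈ S1 := fun i => by
    obtain ⟨ω, hω, hi⟩ := (hT1 i).1 i.2
    rw [← hi]
    exact h1.cls ω (hE hω)
  have p2 : ∀ j : T2, c2.f j ∈ S2 := fun j => by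
    obtain ⟨ω, hω, hj⟩ := (hT2 j).1 j.2
    rw [← hj]
    exact h2.cls ω (hE hω)
  have hMR : (2 + C0) * M ≤ M * R ^ ε := by
    rw [mul_comm]
    exact mul_le_mul_of_nonneg_left s2 hM0.le
  have p3 : ∀ i : T1, ∀ t ∈ Set.Icc (0 : ℝ) 1, ∀ y ∈ Set.Icc (0 : ℝ) 1, |c1.f i t y - fs t y| ≤ M * R ^ ε := fun i t ht y hy => by
    obtain ⟨ω, hω, hi⟩ := (hT1 i).1 i.2
    rw [← hi]
    exact (cl1 ω hω t ht y hy).trans hMR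
  have p4 : ∀ j : T2, ∀ t ∈ Set.Icc (0 : ℝ) 1, ∀ y ∈ Set.Icc (0 : ℝ) 1, |c2.f j t y - fs t y| ≤ M * R ^ ε := fun j t ht y hy => by
    obtain ⟨ω, hω, hj⟩ := (hT2 j).1 j.2
    rw [← hj]
    exact (cl2 ω hω t ht y hy).trans hMR
  have p5 : ∑ i : T1, c1.T i / W1 ≤ 1 := by
    simp only [div_eq_mul_inv]
    rw [← Finset.sum_mul, Finset.sum_coe_sort T1 c1.T, ← hW1, ← div_eq_mul_inv]
    exact ENNReal.div_self_le_one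
  have p6 : ∑ j : T2, c2.T j / W2 ≤ 1 := by
    simp only [div_eq_mul_inv]
    rw [← Finset.sum_mul, Finset.sum_coe_sort T2 c2.T, ← hW2, ← div_eq_mul_inv]
    exact ENNReal.div_self_le_one
  have p7 : ∀ (i : T1) (j : T2), (β⁻¹ • k7pJit Z ϑ (F i j)) (Set.Icc (0 : ℝ) 1 ×ˢ Set.Icc (0 : ℝ) 1)ᶜ = 0 := fun i j => by
    rw [Measure.smul_apply, (k7p_jit_supp hZ (hFS i j)).2, smul_zero]
  have p8 : ∀ i : T1, ∑ j : T2, β⁻¹ • k7pJit Z ϑ (F i j) ≤ (ENNReal.ofReal (R ^ ε) * (c1.T i / W1)) • volume := fun i => by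
    obtain ⟨ω, hω, hi⟩ := (hT1 i).1 i.2
    have := k7p_C6_marg hZ h1 hK (ha0.trans (min_le_left _ _)) (hE hω) (fun j : T2 => F i j) (fun j => hFm i j)
      (fun j j' hne => Set.disjoint_left.2 fun x hx hx' => hne (Subtype.ext (((hFmem _ _ _).1 hx).2.2.symm.trans ((hFmem _ _ _).1 hx').2.2)))
      (fun j x hx => ⟨hFS _ _ hx, ((hFmem _ _ _).1 hx).2.1.trans hi.symm⟩) hβ0 hβ1
      (W := W1) (by rw [hi, hW1]; exact Finset.single_le_sum (f := c1.T) (fun _ _ => zero_le) i.2) hW1t hk1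
    rwa [hi] at this
  have p9 : ∀ j : T2, ∑ i : T1, β⁻¹ • k7pJit Z ϑ (F i j) ≤ (ENNReal.ofReal (R ^ ε) * (c2.T j / W2)) • volume := fun j => by
    obtain ⟨ω, hω, hj⟩ := (hT2 j).1 j.2
    have := k7p_C6_marg hZ h2 hK (ha0.trans (min_le_right _ _)) (hE hω) (fun i : T1 => F i j) (fun i => hFm i j)
      (fun i i' hne => Set.disjoint_left.2 fun x hx hx' => hne (Subtype.ext (((hFmem _ _ _).1 hx).2.1.symm.trans ((hFmem _ _ _).1 hx').2.1)))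
      (fun i x hx => ⟨hFS _ _ hx, ((hFmem _ _ _).1 hx).2.2.trans hj.symm⟩) hβ0 hβ1
      (W := W2) (by rw [hj, hW2]; exact Finset.single_le_sum (f := c2.T) (fun _ _ => zero_le) j.2) hW2t hk2
    rwa [hj] at this
  have p10 : ∀ (i : T1) (j : T2), ∀ᵐ z ∂(β⁻¹ • k7pJit Z ϑ (F i j)), |c1.f i z.1 z.2 - c2.f j z.1 z.2| ≤ Δ * R ^ ε := fun i j => by
    refine Measure.ae_smul_measure (k7p_jit_ae hϑ fun ω hω z hz => ?_) _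
    obtain ⟨hωE, hi, hj⟩ := (hFmem _ _ _).1 hω
    have h := k7p_C6_val hZ h1 h2 hK (hE hωE) hz
    rw [hi, hj] at h
    refine h.trans ?_
    have : (2 * K + 4) * Δ ≤ R ^ ε * Δ := mul_le_mul_of_nonneg_right s3 hΔ0.le
    nlinarith
  have p11 : ∀ (i : T1) (j : T2), β⁻¹ • k7pJit Z ϑ (F i j) ≠ 0 →
      ∃ t ∈ Set.Icc (0 : ℝ) 1, ∃ y ∈ Set.Icc (0 : ℝ) 1, M * R ^ (-ε) ≤ |c1.f i t y - c2.f j t y| := fun i j hne => by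
    obtain ⟨ω, hω⟩ : (F i j).Nonempty := by
      by_contra h
      rw [Set.not_nonempty_iff_eq_empty] at h
      apply hne
      have : k7pJit Z ϑ (∅ : Set Z.Ω) = 0 := Measure.measure_univ_eq_zero.1 (by rw [k7p_jit_univ hZ MeasurableSet.empty, measure_empty])
      rw [h, this, smul_zero]
    obtain ⟨hωE, hi, hj⟩ := (hFmem _ _ _).1 hω
    have h := gap ω hωE
    rw [hi, hj] at h
    unfold k7pClose at h
    push Not at h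
    obtain ⟨t, ht, y, hy, hlt⟩ := h
    refine ⟨t, ht, y, hy, le_trans ?_ hlt.le⟩
    have : R ^ (-ε) ≤ 1 := Real.rpow_le_one_of_one_le_of_nonpos hR (by linarith)
    nlinarith
  have key := hub M Δ hΔ0 hM T1 T2 (fun i => c1.f i) (fun j => c2.f j) fs (fun i => c1.T i / W1) (fun j => c2.T j / W2)
    (fun i j => β⁻¹ • k7pJit Z ϑ (F i j)) p1 p2 hfs (by rw [Fintype.card_coe]; exact hn1) (by rw [Fintype.card_coe]; exact hn2) p3 p4 p5 p6 p7 p8 p9 p10 p11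
  have hcov : Z.μ E ≤ ∑ i : T1, ∑ j : T2, Z.μ (F i j) := by
    calc Z.μ E ≤ Z.μ (⋃ i : T1, ⋃ j : T2, F i j) := by
          refine measure_mono fun ω hω => ?_
          simp only [Set.mem_iUnion]
          exact ⟨⟨c1.ix ω, (hT1 _).2 ⟨ω, hω, rfl⟩⟩, ⟨c2.ix ω, (hT2 _).2 ⟨ω, hω, rfl⟩⟩, (hFmem _ _ _).2 ⟨hω, rfl, rfl⟩⟩
      _ ≤ ∑ i : T1, Z.μ (⋃ j : T2, F i j) := measure_iUnion_fintype_le _ _
      _ ≤ ∑ i : T1, ∑ j : T2, Z.μ (F i j) := Finset.sum_le_sum fun i _ => measure_iUnion_fintype_le _ _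
  have hone : 1 ≤ ∑ i : T1, ∑ j : T2, (β⁻¹ • k7pJit Z ϑ (F i j)) Set.univ := by
    have e : ∀ (i : T1) (j : T2), (β⁻¹ • k7pJit Z ϑ (F i j)) Set.univ = β⁻¹ * Z.μ (F i j) := fun i j => by
      rw [Measure.smul_apply, k7p_jit_univ hZ (hFm i j), smul_eq_mul]
    simp only [e]
    simp only [← Finset.mul_sum]
    calc (1 : ℝ≥0∞) = β⁻¹ * β := (ENNReal.inv_mul_cancel hβ0 hβ1).symm
      _ ≤ _ := mul_le_mul' le_rfl (hβ ▸ hcov)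
  have hle : ENNReal.ofReal (R ^ (-ε)) ≤ 1 := ENNReal.ofReal_le_one.2 (Real.rpow_le_one_of_one_le_of_nonpos hR (by linarith))
  exact absurd (lt_of_lt_of_le key hle) (not_lt.2 hone)

theorem k7p_C6_meas {Ω A B C : Type} [MeasurableSpace Ω] [Countable A] [Countable B] [Countable C] {a : Ω → A} {b : Ω → B} {c : Ω → C}
    (ha : KsLab a) (hb : KsLab b) (hc : KsLab c) (P : A → B → C → Prop) : MeasurableSet {ω | P (a ω) (b ω) (c ω)} := by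
  have e : {ω | P (a ω) (b ω) (c ω)} = ⋃ x : A, ⋃ y : B, ⋃ z : C, ⋃ (_ : P x y z), (a ⁻¹' {x} ∩ b ⁻¹' {y} ∩ c ⁻¹' {z}) := by
    ext ω
    simp only [Set.mem_ofPred_eq, Set.mem_iUnion, Set.mem_inter_iff, Set.mem_preimage, Set.mem_singleton_iff, exists_prop]
    constructor
    · intro h
      exact ⟨_, _, _, h, ⟨rfl, rfl⟩, rfl⟩
    · rintro ⟨x, y, z, h, ⟨rfl, rfl⟩, rfl⟩
      exact h
  rw [e]
  exact MeasurableSet.iUnion fun x => .iUnion fun y => .iUnion fun z => .iUnion fun _ => ((ha x).inter (hb y)).inter (hc z)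

/-- **L-252-S7p-C6** (07 l.497-540) **the bad pairs of one dyadic discrepancy scale** `M = R Δ`.
PROOF (by contradiction; `Bad` := the set of the statement; it is measurable: preimage of a subset of the countable type `I₁ × I₂ × Bx` under a `KsLab`, intersected with `Sp`).   Assume `δ < μ Bad`.
 1. GROUPS `G = (κ, b) ∈ Bx × (Fin m → ℤ)`; `grp ω := (bx ω, k4eBin M (J (f₂ (ix₂ ω))))`; `B G := μ (Bad ∩ grp⁻¹{G})`, `∑' B = μ Bad`.   `r := ⌈2 C0⌉₊ + 1`.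
    `Γ₂ j := {(bxI₂ j, k4eBin M (J (f₂ j)))}`, `Γ₁ i := (k4eNbr r (k4eBin M (J (f₁ i)))).image (bxI₁ i, ·)`, `Wt G := ∑' i, [G ∈ Γ₁ i] T₁ i + ∑' j, [G ∈ Γ₂ j] T₂ j`;   `∑' Wt ≤ ((2r+1)^m + 1) K =: Kw` (`k7p_group_budget`, `k4e_nbr_card`, budgets).
    `k7p_pigeon`: a group `G = (κ, b)` with `B G ≠ 0`, `δ Wt G ≤ Kw B G`.
 2. INDEX SETS `I_c := {i | ∃ ω ∈ Bad ∩ grp⁻¹{G}, ix_c ω = i}`.   Fix `ω* ∈ Bad ∩ grp⁻¹{G}`, `fs := f₂ (ix₂ ω*) ∈ S2`.   `j ∈ I₂`: same bin, `k4e_bin_same`, code ⟹ `k7pClose (f₂ j) fs (C0 M)`.   `i ∈ I₁`: `k7pClose (f₁ i) (f₂ j) (2M)` for its partner, so `k7pClose (f₁ i) fs ((2 + C0) M)`;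
    code ⟹ `|J f₁ i - J f₂ j| ≤ 2 C0 M ≤ (r - 1) M`... `k4e_bin_close`: `b ∈ k4eNbr r (bin (f₁ i))` (symmetry of the neighbour relation: apply it with the roles exchanged), i.e. `G ∈ Γ₁ i`.
    `k7p_count` (`g = fs`, `Lg = K`, `η = (2 + C0) M`) + `k7p_finite_of_card`: `I_c` finite, `card I_c ≤ K K₁ (2 (K + 2 + C0))^d (M / a_c)^d ≤ R^ε R^{d₀}` (`a_c ≤ Δ ≤ M`, `hex`, `hsm`, `d ≤ 1`).
 3. PAIR LAW on the subtypes `I₁, I₂` : `F i j := Bad ∩ grp⁻¹{G} ∩ ix₁⁻¹{i} ∩ ix₂⁻¹{j}`, `Pr i j := (B G)⁻¹ • k7pJit Z ϑ (F i j)`; `π_c i := T_c i / W_c`, `W_c := ∑_{i ∈ I_c} T_c i ≤ Wt G` (`W_c ≠ 0, ⊤` : `T = A κ a^d`).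
    support `k7p_jit_supp`; marginals `k7p_jit_sum` + `k7p_jit_marg`: `∑_j Pr i j ≤ (B G)⁻¹ K (4K)^d T₁ i vol = K (4K)^d (W₁ / B G) π₁ i vol ≤ K (4K)^d (Kw / δ) π₁ i vol`;
    values `k7p_jit_ae`: on an occupied square `|f₁ i z - f₂ j z| ≤ K a₁ + K a₂ + 2 · K · 2ϑ ≤ 6 K Δ` (`fit`, `lip`, `tiny`); gap: `Pr i j ≠ 0` ⟹ `F i j ≠ ∅` ⟹ `¬ k7pClose .. M`;
    total mass `∑ ∑ Pr i j univ = (B G)⁻¹ ∑ ∑ μ (F i j) = 1` (`k7p_jit_univ`), but the hub gives `< R^{-ε} ≤ 1`. -/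
theorem k7p_bad_scale {Z : K7pBs} {c1 c2 : K7pCol Z} {S1 S2 : Set (ℝ → ℝ → ℝ)} {K d a0 a1 a2 ϑ : ℝ} (hZ : Z.Ok K d a0 ϑ) (h1 : c1.Ok S1 K d a1 ϑ) (h2 : c2.Ok S2 K d a2 ϑ)
    {m : ℕ} {C0 : ℝ} {J : (ℝ → ℝ → ℝ) → Fin m → ℝ} (hJ : K7pCodeOf S1 S2 J C0) (hC0 : 1 ≤ C0) {d0 ε R Δ M K1 δ : ℝ} (hub : K7pMatchAt S1 S2 d0 ε R)
    (hK : 1 ≤ K) (hd : 0 ≤ d) (hd1 : d ≤ 1) (ha0 : a0 ≤ min a1 a2) (hΔ : Δ = max a1 a2) (hM : M = R * Δ) (hR : 1 ≤ R) (hε : 0 < ε) (hK1 : 1 ≤ K1) (hδ : 0 < δ) (hδ1 : δ ≤ 1)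
    (hex1 : (R * Δ / a1) ^ d ≤ R ^ d0) (hex2 : (R * Δ / a2) ^ d ≤ R ^ d0) (hsm : 64 * (4 * C0 + 8) ^ m * (K + C0 + 2) ^ 4 * K1 / δ ≤ R ^ ε) :
    Z.μ (k7pRet c1 c2 K1 ∩ {ω | ¬ k7pClose (c1.f (c1.ix ω)) (c2.f (c2.ix ω)) M ∧ k7pClose (c1.f (c1.ix ω)) (c2.f (c2.ix ω)) (2 * M)}) ≤ ENNReal.ofReal δ := by
  by_contra hcon
  rw [not_le] at hcon
  obtain ⟨Bad, hBad⟩ : ∃ Bad, Bad = k7pRet c1 c2 K1 ∩ {ω | ¬ k7pClose (c1.f (c1.ix ω)) (c2.f (c2.ix ω)) M ∧ k7pClose (c1.f (c1.ix ω)) (c2.f (c2.ix ω)) (2 * M)} := ⟨_, rfl⟩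
  rw [← hBad] at hcon
  have cI1 := h1.cI
  have cI2 := h2.cI
  have cBx := hZ.cBx
  have hM0 : 0 < M := by
    have : 0 < Δ := hΔ ▸ lt_of_lt_of_le h1.a_pos (le_max_left _ _)
    rw [hM]
    positivity
  have hBmem : ∀ ω, ω ∈ Bad ↔ ω ∈ Z.Sp ∧ (c1.ix ω ∈ c1.hv K1 ∧ c2.ix ω ∈ c2.hv K1 ∧ Z.A (Z.bx ω) ≠ 0) ∧
      ¬ k7pClose (c1.f (c1.ix ω)) (c2.f (c2.ix ω)) M ∧ k7pClose (c1.f (c1.ix ω)) (c2.f (c2.ix ω)) (2 * M) := fun ω => by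
    rw [hBad]
    simp only [k7pRet, Set.mem_inter_iff, Set.mem_ofPred_eq, and_assoc]
  have hBm : MeasurableSet Bad := by
    have e : Bad = Z.Sp ∩ {ω | (fun i j κ => (i ∈ c1.hv K1 ∧ j ∈ c2.hv K1 ∧ Z.A κ ≠ 0) ∧ ¬ k7pClose (c1.f i) (c2.f j) M ∧ k7pClose (c1.f i) (c2.f j) (2 * M))
        (c1.ix ω) (c2.ix ω) (Z.bx ω)} := by
      ext ω
      rw [hBmem]
      rfl
    rw [e]
    exact hZ.m_Sp.inter (k7p_C6_meas h1.m_ix h2.m_ix hZ.m_bx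
      (fun i j κ => (i ∈ c1.hv K1 ∧ j ∈ c2.hv K1 ∧ Z.A κ ≠ 0) ∧ ¬ k7pClose (c1.f i) (c2.f j) M ∧ k7pClose (c1.f i) (c2.f j) (2 * M)))
  obtain ⟨grp, hgrp⟩ : ∃ grp : Z.Ω → Z.Bx × (Fin m → ℤ), grp = fun ω => (Z.bx ω, k4eBin M (J (c2.f (c2.ix ω)))) := ⟨_, rfl⟩
  have hgm : ∀ G, MeasurableSet (grp ⁻¹' {G}) := fun G => by
    have e : grp ⁻¹' {G} = {ω | (fun (_ : c1.I) j κ => (κ, k4eBin M (J (c2.f j))) = G) (c1.ix ω) (c2.ix ω) (Z.bx ω)} := by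
      rw [hgrp]
      rfl
    rw [e]
    exact k7p_C6_meas h1.m_ix h2.m_ix hZ.m_bx (fun (_ : c1.I) j κ => (κ, k4eBin M (J (c2.f j))) = G)
  have hB : ENNReal.ofReal δ < ∑' G, Z.μ (Bad ∩ grp ⁻¹' {G}) := by
    refine lt_of_lt_of_le hcon ?_
    refine le_trans (measure_mono fun ω hω => ?_) (measure_iUnion_le _)
    exact Set.mem_iUnion.2 ⟨grp ω, hω, rfl⟩
  obtain ⟨G, hG0, hb1, hb2⟩ := k7p_C6_group c1.T c2.T c1.bxI c2.bxI (fun i => k4eBin M (J (c1.f i))) (fun j => k4eBin M (J (c2.f j))) (⌈2 * C0⌉₊ + 1)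
    (K := K) (δ := δ) (by linarith) h1.bud h2.bud (fun G => Z.μ (Bad ∩ grp ⁻¹' {G})) hB
  obtain ⟨s1, s2, s3, s4⟩ := k7p_C6_small hK hd1 hC0 hK1 hδ hδ1 hsm
  have hgG : ∀ ω ∈ Bad ∩ grp ⁻¹' {G}, Z.bx ω = G.1 ∧ k4eBin M (J (c2.f (c2.ix ω))) = G.2 := fun ω hω => by
    have h : grp ω = G := hω.2
    rw [hgrp] at h
    rw [← h]
    exact ⟨rfl, rfl⟩
  obtain ⟨ωs, hωs⟩ : (Bad ∩ grp ⁻¹' {G}).Nonempty := by
    by_contra h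
    rw [Set.not_nonempty_iff_eq_empty] at h
    exact hG0 (by simp only [h, measure_empty])
  have hs := (hBmem ωs).1 hωs.1
  have hfs : c2.f (c2.ix ωs) ∈ S2 := h2.cls ωs hs.1
  have cl2' : ∀ ω ∈ Bad ∩ grp ⁻¹' {G}, k7pClose (c2.f (c2.ix ω)) (c2.f (c2.ix ωs)) (C0 * M) := fun ω hω => by
    have hb := (hBmem ω).1 hω.1
    refine (hJ _ (Or.inr (h2.cls ω hb.1)) _ hfs M).2 fun k => ?_
    exact k4e_bin_same M hM0 _ _ ((hgG ω hω).2.trans (hgG ωs hωs).2.symm) k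
  refine k7p_C6_core hZ h1 h2 hub hC0 hK hd hd1 ha0 hΔ hM hR hε hK1 hδ hex1 hex2 s1 s2 s3 s4 (Bad ∩ grp ⁻¹' {G}) (hBm.inter (hgm G)) hG0
    (fun ω hω => ((hBmem ω).1 hω.1).1) G.1 ((hgG ωs hωs).1 ▸ hs.2.1.2.2) (fun ω hω => (hgG ω hω).1) (fun ω hω => ((hBmem ω).1 hω.1).2.1.1)
    (fun ω hω => ((hBmem ω).1 hω.1).2.1.2.1) (c2.f (c2.ix ωs)) hfs (h2.lip ωs hs.1) ?_ ?_ (fun ω hω => ((hBmem ω).1 hω.1).2.2.1) ?_ ?_
  · intro ω hω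
    have h := k7p_close_trans ((hBmem ω).1 hω.1).2.2.2 (cl2' ω hω)
    have e : 2 * M + C0 * M = (2 + C0) * M := by ring
    rwa [e] at h
  · intro ω hω
    exact k7p_close_mono (cl2' ω hω) (by nlinarith)
  · intro s hs'
    refine hb1 s fun i hi => ?_
    obtain ⟨ω, hω, hi'⟩ := hs' i hi
    have hb := (hBmem ω).1 hω.1
    subst hi'
    refine ⟨(h1.box ω hb.1).trans (hgG ω hω).1, ?_⟩
    rw [← (hgG ω hω).2]
    refine k4e_bin_close M hM0 ⌈2 * C0⌉₊ _ _ fun k => ?_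
    refine ((hJ _ (Or.inl (h1.cls ω hb.1)) _ (h2.cls ω hb.1) (2 * M)).1 hb.2.2.2 k).trans ?_
    have := Nat.le_ceil (2 * C0)
    nlinarith
  · intro s hs'
    refine hb2 s fun j hj => ?_
    obtain ⟨ω, hω, hj'⟩ := hs' j hj
    have hb := (hBmem ω).1 hω.1
    subst hj'
    exact ⟨(h2.box ω hb.1).trans (hgG ω hω).1, (hgG ω hω).2⟩

/-! ## C7. All scales -/

/-- **L-252-S7p-C7** (07 l.499, l.508).  PROOF.  For `ω` in the set, `k7pClose .. (2K)` (`nrm` of both colours), hence `k7pClose .. (2^Lg Θ Δ)`.  Let `k` be the least natural number with `k7pClose .. (2^(k+1) Θ Δ)` (`Nat.find`; `k < Lg`); then `¬ k7pClose .. (2^k Θ Δ)`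
(`k = 0`: hypothesis; otherwise minimality).  So the set is covered by the `Lg` sets of `k7p_bad_scale` with `R = 2^k Θ ≥ Θ`, `M = 2^k Θ Δ` (`R^ε ≥ Θ^ε`: `Real.rpow_le_rpow`).  `measure_biUnion_finset_le`, `Finset.sum_const`. -/
theorem k7p_bad_all {Z : K7pBs} {c1 c2 : K7pCol Z} {S1 S2 : Set (ℝ → ℝ → ℝ)} {K d a0 a1 a2 ϑ : ℝ} (hZ : Z.Ok K d a0 ϑ) (h1 : c1.Ok S1 K d a1 ϑ) (h2 : c2.Ok S2 K d a2 ϑ)
    {m : ℕ} {C0 : ℝ} {J : (ℝ → ℝ → ℝ) → Fin m → ℝ} (hJ : K7pCodeOf S1 S2 J C0) (hC0 : 1 ≤ C0) {d0 ε Θ Δ K1 δ : ℝ} (hub : ∀ R, Θ ≤ R → K7pMatchAt S1 S2 d0 ε R)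
    (hK : 1 ≤ K) (hd : 0 ≤ d) (hd1 : d ≤ 1) (ha0 : a0 ≤ min a1 a2) (hΔ : Δ = max a1 a2) (hΘ : 1 ≤ Θ) (hε : 0 < ε) (hK1 : 1 ≤ K1) (hδ : 0 < δ) (hδ1 : δ ≤ 1)
    (hex : ∀ x, Θ ≤ x → (x * Δ / a1) ^ d ≤ x ^ d0 ∧ (x * Δ / a2) ^ d ≤ x ^ d0) (hsm : 64 * (4 * C0 + 8) ^ m * (K + C0 + 2) ^ 4 * K1 / δ ≤ Θ ^ ε)
    (Lg : ℕ) (hLg : 2 * K ≤ 2 ^ Lg * (Θ * Δ)) :
    Z.μ (k7pRet c1 c2 K1 ∩ {ω | ¬ k7pClose (c1.f (c1.ix ω)) (c2.f (c2.ix ω)) (Θ * Δ)}) ≤ ENNReal.ofReal (Lg * δ) := by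
  have hΘ0 : 0 < Θ := by linarith
  have hsub : k7pRet c1 c2 K1 ∩ {ω | ¬ k7pClose (c1.f (c1.ix ω)) (c2.f (c2.ix ω)) (Θ * Δ)}
      ⊆ ⋃ k ∈ Finset.range Lg, k7pRet c1 c2 K1 ∩ {ω | ¬ k7pClose (c1.f (c1.ix ω)) (c2.f (c2.ix ω)) (2 ^ k * Θ * Δ) ∧
          k7pClose (c1.f (c1.ix ω)) (c2.f (c2.ix ω)) (2 * (2 ^ k * Θ * Δ))} := by
    rintro ω ⟨hret, hnot⟩
    have hS : ω ∈ Z.Sp := hret.1
    have hnot' : ¬ k7pClose (c1.f (c1.ix ω)) (c2.f (c2.ix ω)) (Θ * Δ) := hnot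
    have hbig : k7pClose (c1.f (c1.ix ω)) (c2.f (c2.ix ω)) (2 ^ Lg * (Θ * Δ)) := fun t ht y hy => by
      have e1 := h1.nrm ω hS t ht y hy
      have e2 := h2.nrm ω hS t ht y hy
      have := abs_sub (c1.f (c1.ix ω) t y) (c2.f (c2.ix ω) t y)
      linarith
    have hex' : ∃ k : ℕ, k7pClose (c1.f (c1.ix ω)) (c2.f (c2.ix ω)) (2 ^ k * (Θ * Δ)) := ⟨Lg, hbig⟩
    classical
    have hspec := Nat.find_spec hex'
    have hle : Nat.find hex' ≤ Lg := Nat.find_min' hex' hbig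
    have hne : Nat.find hex' ≠ 0 := by
      intro h0
      rw [h0, pow_zero, one_mul] at hspec
      exact hnot' hspec
    obtain ⟨k, hk⟩ := Nat.exists_eq_succ_of_ne_zero hne
    have hmin : ¬ k7pClose (c1.f (c1.ix ω)) (c2.f (c2.ix ω)) (2 ^ k * (Θ * Δ)) := Nat.find_min hex' (by omega)
    refine Set.mem_biUnion (x := k) (by rw [Finset.mem_coe, Finset.mem_range]; omega) ⟨hret, ?_, ?_⟩
    · rw [mul_assoc]
      exact hmin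
    · rw [hk] at hspec
      have e : (2 : ℝ) * (2 ^ k * Θ * Δ) = 2 ^ (Nat.succ k) * (Θ * Δ) := by
        rw [pow_succ]
        ring
      rw [e]
      exact hspec
  have hone : ∀ k : ℕ, Z.μ (k7pRet c1 c2 K1 ∩ {ω | ¬ k7pClose (c1.f (c1.ix ω)) (c2.f (c2.ix ω)) (2 ^ k * Θ * Δ) ∧
          k7pClose (c1.f (c1.ix ω)) (c2.f (c2.ix ω)) (2 * (2 ^ k * Θ * Δ))}) ≤ ENNReal.ofReal δ := fun k => by
    have h2k : (1 : ℝ) ≤ 2 ^ k := one_le_pow₀ (by norm_num)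
    have hR : Θ ≤ 2 ^ k * Θ := le_mul_of_one_le_left hΘ0.le h2k
    exact k7p_bad_scale hZ h1 h2 hJ hC0 (hub _ hR) hK hd hd1 ha0 hΔ rfl (hΘ.trans hR) hε hK1 hδ hδ1 (hex _ hR).1 (hex _ hR).2
      (hsm.trans (Real.rpow_le_rpow hΘ0.le hR hε.le))
  calc Z.μ (k7pRet c1 c2 K1 ∩ {ω | ¬ k7pClose (c1.f (c1.ix ω)) (c2.f (c2.ix ω)) (Θ * Δ)})
      ≤ Z.μ (⋃ k ∈ Finset.range Lg, k7pRet c1 c2 K1 ∩ {ω | ¬ k7pClose (c1.f (c1.ix ω)) (c2.f (c2.ix ω)) (2 ^ k * Θ * Δ) ∧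
          k7pClose (c1.f (c1.ix ω)) (c2.f (c2.ix ω)) (2 * (2 ^ k * Θ * Δ))}) := measure_mono hsub
    _ ≤ ∑ k ∈ Finset.range Lg, Z.μ (k7pRet c1 c2 K1 ∩ {ω | ¬ k7pClose (c1.f (c1.ix ω)) (c2.f (c2.ix ω)) (2 ^ k * Θ * Δ) ∧
          k7pClose (c1.f (c1.ix ω)) (c2.f (c2.ix ω)) (2 * (2 ^ k * Θ * Δ))}) := measure_biUnion_finset_le _ _
    _ ≤ ∑ _k ∈ Finset.range Lg, ENNReal.ofReal δ := Finset.sum_le_sum fun k _ => hone k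
    _ = ENNReal.ofReal (Lg * δ) := by
      rw [Finset.sum_const, Finset.card_range, nsmul_eq_mul, ENNReal.ofReal_mul (Nat.cast_nonneg _), ENNReal.ofReal_natCast]

/-! ## C8. The lists -/

/-- **L-252-S7p-C8** (07 l.541-549).  `c` = the colour of the fixed index, `c'` = the counted colour.
PROOF.  `s := {j | ∃ ω ∈ Gd, c.ix ω = i ∧ c'.ix ω = j}`.  If `s = ∅` take `S = ∅`.  Otherwise fix `ω₀ ∈ Gd` with `c.ix ω₀ = i`, `κ := bx ω₀` (`A κ ≠ 0` by `hGd`, `≠ ⊤` by `k7p_A_fin`); every `ω ∈ Gd` with `c.ix ω = i` has `bx ω = bxI i = κ` (`hc.box`).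
`k7p_count` for the colour `c'` with `g := c.f i` (`Lg = K`, `hc.lip ω₀`; `2 K ϑ ≤ 2 a' ≤ ..` needs `hc'.tiny` and `1 ≤ K`: `2 K ϑ ≤ 2 a'`; use `hη2 : 2 a' ≤ K a' + η`), closeness `k7p_close_symm`.  Then `k7p_finite_of_card` with `B := K K₁ (2 (K a' + η))^d / a'^d`. -/
theorem k7p_list {Z : K7pBs} {c c' : K7pCol Z} {S S' : Set (ℝ → ℝ → ℝ)} {K d a0 a a' ϑ K1 η : ℝ} (hZ : Z.Ok K d a0 ϑ) (hc : c.Ok S K d a ϑ) (hc' : c'.Ok S' K d a' ϑ)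
    (hK : 1 ≤ K) (hK1 : 0 < K1) (hη : 0 ≤ η) (hη2 : 2 * a' ≤ K * a' + η) (ha : a0 ≤ a') (Gd : Set Z.Ω)
    (hGd : ∀ ω ∈ Gd, ω ∈ Z.Sp ∧ c'.ix ω ∈ c'.hv K1 ∧ Z.A (Z.bx ω) ≠ 0 ∧ k7pClose (c.f (c.ix ω)) (c'.f (c'.ix ω)) η) (i : c.I) :
    ∃ Sf : Finset c'.I, (Sf.card : ℝ) * a' ^ d ≤ K * K1 * (2 * (K * a' + η)) ^ d ∧ ∀ ω ∈ Gd, c.ix ω = i → c'.ix ω ∈ Sf := by
  have ha' : 0 < a' := hc'.a_pos
  have had : 0 < a' ^ d := Real.rpow_pos_of_pos ha' d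
  by_cases hne : ∃ ω ∈ Gd, c.ix ω = i
  · obtain ⟨ω₀, hω₀, hi₀⟩ := hne
    obtain ⟨hS₀, -, hA0, -⟩ := hGd ω₀ hω₀
    have hA1 : Z.A (Z.bx ω₀) ≠ ⊤ := k7p_A_fin hc hS₀
    have hlip : k7pLip (c.f i) K := hi₀ ▸ hc.lip ω₀ hS₀
    have hLg : 2 * K * ϑ ≤ K * a' + η := by
      have := hc'.tiny
      linarith
    obtain ⟨Sf, hSf, hcard⟩ := k7p_finite_of_card {j | ∃ ω ∈ Gd, c.ix ω = i ∧ c'.ix ω = j} (K * K1 * (2 * (K * a' + η)) ^ d / a' ^ d) (fun Js hJs => by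
      rw [le_div_iff₀ had]
      refine k7p_count hZ hc' hK hK1 hη ha hlip hLg (Z.bx ω₀) hA0 hA1 Js (fun j hj => ?_) (fun j hj => ?_) (fun j hj => ?_)
      · obtain ⟨ω, hω, h1, h2⟩ := hJs hj
        refine ⟨ω, (hGd ω hω).1, h2, ?_⟩
        rw [← hc.box ω (hGd ω hω).1, h1, ← hi₀, hc.box ω₀ hS₀]
      · obtain ⟨ω, hω, h1, h2⟩ := hJs hj
        exact h2 ▸ (hGd ω hω).2.1
      · obtain ⟨ω, hω, h1, h2⟩ := hJs hj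
        have := (hGd ω hω).2.2.2
        rw [h1, h2] at this
        exact k7p_close_symm this)
    refine ⟨Sf, (le_div_iff₀ had).1 hcard, fun ω hω h1 => ?_⟩
    have : c'.ix ω ∈ (↑Sf : Set c'.I) := by
      rw [hSf]
      exact ⟨ω, hω, h1, rfl⟩
    exact this
  · refine ⟨∅, ?_, fun ω hω h1 => absurd ⟨ω, hω, h1⟩ hne⟩
    have : 0 ≤ K * a' + η := by positivity
    simp only [Finset.card_empty, Nat.cast_zero, zero_mul]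
    positivity

/-! ## C9. The core -/

/-- **L-252-S7p-C9** **the two-colour comparison**.
PROOF.  `k7p_match_at hM d0 hd0` gives `ε, R0`; `hC` gives `J`; `C := max (64 (4 C0 + 8)^m (C0 + 3)^4) (max R0 1 ^ ε)` (so that `C (K⁴ K₁ / δ) ≤ Θ^ε` implies `hsm` (as `K + C0 + 2 ≤ K (C0 + 3)`) and `R0 ≤ Θ` (`Real.rpow_le_rpow_iff`)).
`Zx := Spᶜ ∪ ix₁⁻¹ hv₁ᶜ ∪ ix₂⁻¹ hv₂ᶜ ∪ {A (bx) = 0} ∪ (k7pRet ∩ {¬ close (Θ Δ)})`; measurable (`k7p_light`, `k7p_A_zero`; the last set is `Sp ∩` a preimage of a subset of the countable `I₁ × I₂ × Bx`);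
mass `≤ 0 + K/K₁ + K/K₁ + 0 + Lg δ` (`k7p_light`: divide by `K₁`; `k7p_bad_all`).   On `Sp \ Zx` : `ω ∈ k7pRet` and close.  Lists: `k7p_list` twice with `Gd := Sp \ Zx`, `η := Θ Δ` (`2 a' ≤ K a' + Θ Δ` since `a' ≤ Δ ≤ Θ Δ`, `1 ≤ K`). -/
theorem k7p_core (S1 S2 : Set (ℝ → ℝ → ℝ)) (hM : K7pMatch S1 S2) (m : ℕ) (C0 : ℝ) (hC0 : 1 ≤ C0) (hC : K7pCode S1 S2 m C0) (d0 : ℝ) (hd0 : d0 < 1) :
    ∃ (ε C : ℝ), 0 < ε ∧ 1 ≤ C ∧ ∀ (Z : K7pBs) (c1 c2 : K7pCol Z) (K d a0 a1 a2 ϑ Θ K1 δ : ℝ) (Lg : ℕ),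
      Z.Ok K d a0 ϑ → c1.Ok S1 K d a1 ϑ → c2.Ok S2 K d a2 ϑ → 1 ≤ K → 0 ≤ d → d ≤ 1 → a0 ≤ min a1 a2 → 1 ≤ K1 → 0 < δ → δ ≤ 1 → 1 ≤ Θ →
      2 * K ≤ 2 ^ Lg * (Θ * max a1 a2) → (∀ x, Θ ≤ x → (x * max a1 a2 / a1) ^ d ≤ x ^ d0 ∧ (x * max a1 a2 / a2) ^ d ≤ x ^ d0) →
      C * (K ^ 4 * K1 / δ) ≤ Θ ^ ε →
      ∃ Zx : Set Z.Ω, MeasurableSet Zx ∧ Z.μ Zx ≤ ENNReal.ofReal (2 * K / K1 + Lg * δ) ∧
        (∀ ω ∈ Z.Sp \ Zx, k7pClose (c1.f (c1.ix ω)) (c2.f (c2.ix ω)) (Θ * max a1 a2)) ∧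
        (∀ i, ∃ Sf : Finset c2.I, (Sf.card : ℝ) * a2 ^ d ≤ K * K1 * (2 * (K * a2 + Θ * max a1 a2)) ^ d ∧ ∀ ω ∈ Z.Sp \ Zx, c1.ix ω = i → c2.ix ω ∈ Sf) ∧
        (∀ j, ∃ Sf : Finset c1.I, (Sf.card : ℝ) * a1 ^ d ≤ K * K1 * (2 * (K * a1 + Θ * max a1 a2)) ^ d ∧ ∀ ω ∈ Z.Sp \ Zx, c2.ix ω = j → c1.ix ω ∈ Sf) := by
  obtain ⟨ε, hε, R0, hR0⟩ := k7p_match_at hM d0 hd0
  obtain ⟨J, hJ'⟩ := hC
  have hJ : K7pCodeOf S1 S2 J C0 := hJ'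
  have hc1 : (1 : ℝ) ≤ 64 * (4 * C0 + 8) ^ m * (C0 + 3) ^ 4 := by
    have e1 : (1 : ℝ) ≤ (4 * C0 + 8) ^ m := one_le_pow₀ (by linarith)
    have e2 : (1 : ℝ) ≤ (C0 + 3) ^ 4 := one_le_pow₀ (by linarith)
    nlinarith [mul_le_mul e1 e2 zero_le_one (by linarith)]
  refine ⟨ε, max (64 * (4 * C0 + 8) ^ m * (C0 + 3) ^ 4) ((max R0 1) ^ ε), hε, hc1.trans (le_max_left _ _), ?_⟩
  intro Z c1 c2 K d a0 a1 a2 ϑ Θ K1 δ Lg hZ h1 h2 hK hd hd1 ha0 hK1 hδ hδ1 hΘ hLg hex hsmC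
  set Δ : ℝ := max a1 a2 with hΔ
  have hΘ0 : 0 < Θ := by linarith
  have hK10 : 0 < K1 := by linarith
  have ha1 : 0 < a1 := h1.a_pos
  have ha2 : 0 < a2 := h2.a_pos
  have hΔ1 : a1 ≤ Δ := le_max_left _ _
  have hΔ2 : a2 ≤ Δ := le_max_right _ _
  have hΔ0 : 0 < Δ := lt_of_lt_of_le ha1 hΔ1
  have hΔΘ : Δ ≤ Θ * Δ := le_mul_of_one_le_left hΔ0.le hΘ
  have hq : 1 ≤ K ^ 4 * K1 / δ := by
    rw [le_div_iff₀ hδ, one_mul]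
    have e1 : (1 : ℝ) ≤ K ^ 4 := one_le_pow₀ hK
    nlinarith
  -- the two consequences of the smallness
  have hsm : 64 * (4 * C0 + 8) ^ m * (K + C0 + 2) ^ 4 * K1 / δ ≤ Θ ^ ε := by
    refine le_trans ?_ hsmC
    have e1 : (K + C0 + 2) ^ 4 ≤ (K * (C0 + 3)) ^ 4 := by
      refine pow_le_pow_left₀ (by linarith) ?_ 4
      nlinarith
    have e2 : 64 * (4 * C0 + 8) ^ m * (K + C0 + 2) ^ 4 * K1 / δ ≤ 64 * (4 * C0 + 8) ^ m * (K * (C0 + 3)) ^ 4 * K1 / δ := by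
      have e3 : (0 : ℝ) ≤ 64 * (4 * C0 + 8) ^ m := by positivity
      gcongr
    refine e2.trans ?_
    have e4 : 64 * (4 * C0 + 8) ^ m * (K * (C0 + 3)) ^ 4 * K1 / δ = (64 * (4 * C0 + 8) ^ m * (C0 + 3) ^ 4) * (K ^ 4 * K1 / δ) := by
      rw [mul_pow]
      ring
    rw [e4]
    exact mul_le_mul_of_nonneg_right (le_max_left _ _) (by linarith)
  have hRΘ : R0 ≤ Θ := by
    have e1 : (max R0 1) ^ ε ≤ Θ ^ ε := by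
      refine le_trans ?_ hsmC
      have e2 : (max R0 1) ^ ε ≤ max (64 * (4 * C0 + 8) ^ m * (C0 + 3) ^ 4) ((max R0 1) ^ ε) := le_max_right _ _
      have e3 : 0 ≤ max (64 * (4 * C0 + 8) ^ m * (C0 + 3) ^ 4) ((max R0 1) ^ ε) := by linarith [hc1.trans (le_max_left _ ((max R0 1) ^ ε))]
      nlinarith
    have e4 : (0 : ℝ) ≤ max R0 1 := le_trans zero_le_one (le_max_right _ _)
    exact (le_max_left _ _).trans ((Real.rpow_le_rpow_iff e4 hΘ0.le hε).1 e1)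
  have hbad := k7p_bad_all hZ h1 h2 hJ hC0 (fun R hR => hR0 R (hRΘ.trans hR)) hK hd hd1 ha0 hΔ hΘ hε hK1 hδ hδ1 hex hsm Lg hLg
  obtain ⟨mL1, lL1⟩ := k7p_light h1 K1
  obtain ⟨mL2, lL2⟩ := k7p_light h2 K1
  obtain ⟨mA, lA⟩ := k7p_A_zero hZ
  have hdiv : ∀ x : ℝ≥0∞, ENNReal.ofReal K1 * x ≤ ENNReal.ofReal K → x ≤ ENNReal.ofReal (K / K1) := fun x hx => by
    rw [ENNReal.ofReal_div_of_pos hK10, ENNReal.le_div_iff_mul_le (Or.inl (by simpa using hK10)) (Or.inl ENNReal.ofReal_ne_top), mul_comm]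
    exact hx
  have := h1.cI
  have := h2.cI
  have mBad : MeasurableSet (k7pRet c1 c2 K1 ∩ {ω | ¬ k7pClose (c1.f (c1.ix ω)) (c2.f (c2.ix ω)) (Θ * Δ)}) := by
    have e : k7pRet c1 c2 K1 ∩ {ω | ¬ k7pClose (c1.f (c1.ix ω)) (c2.f (c2.ix ω)) (Θ * Δ)}
        = (Z.Sp ∩ ((c1.ix ⁻¹' (c1.hv K1)ᶜ)ᶜ ∩ ((c2.ix ⁻¹' (c2.hv K1)ᶜ)ᶜ ∩ {ω | Z.A (Z.bx ω) = 0}ᶜ))) ∩
          (ksPair c1.ix c2.ix ⁻¹' {x | ¬ k7pClose (c1.f x.1) (c2.f x.2) (Θ * Δ)}) := by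
      ext ω
      simp only [k7pRet, Set.mem_inter_iff, Set.mem_ofPred_eq, Set.mem_compl_iff, Set.mem_preimage, not_not, ksPair]
    rw [e]
    exact (hZ.m_Sp.inter (mL1.compl.inter (mL2.compl.inter mA.compl))).inter (ksc_lab_preimage (ks_lab_pair h1.m_ix h2.m_ix) _)
  set Zx : Set Z.Ω := Z.Spᶜ ∪ c1.ix ⁻¹' (c1.hv K1)ᶜ ∪ c2.ix ⁻¹' (c2.hv K1)ᶜ ∪ {ω | Z.A (Z.bx ω) = 0} ∪
    (k7pRet c1 c2 K1 ∩ {ω | ¬ k7pClose (c1.f (c1.ix ω)) (c2.f (c2.ix ω)) (Θ * Δ)}) with hZx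
  have hgood : ∀ ω ∈ Z.Sp \ Zx, ω ∈ Z.Sp ∧ c1.ix ω ∈ c1.hv K1 ∧ c2.ix ω ∈ c2.hv K1 ∧ Z.A (Z.bx ω) ≠ 0 ∧
      k7pClose (c1.f (c1.ix ω)) (c2.f (c2.ix ω)) (Θ * Δ) := by
    rintro ω ⟨hS, hn⟩
    simp only [hZx, Set.mem_union, not_or] at hn
    obtain ⟨⟨⟨⟨-, n1⟩, n2⟩, n3⟩, n4⟩ := hn
    have g1 : c1.ix ω ∈ c1.hv K1 := by
      by_contra h
      exact n1 h
    have g2 : c2.ix ω ∈ c2.hv K1 := by
      by_contra h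
      exact n2 h
    have g3 : Z.A (Z.bx ω) ≠ 0 := fun h => n3 h
    refine ⟨hS, g1, g2, g3, ?_⟩
    by_contra h
    exact n4 ⟨⟨hS, g1, g2, g3⟩, h⟩
  refine ⟨Zx, (((hZ.m_Sp.compl.union mL1).union mL2).union mA).union mBad, ?_, fun ω hω => (hgood ω hω).2.2.2.2, fun i => ?_, fun j => ?_⟩
  · calc Z.μ Zx ≤ Z.μ Z.Spᶜ + Z.μ (c1.ix ⁻¹' (c1.hv K1)ᶜ) + Z.μ (c2.ix ⁻¹' (c2.hv K1)ᶜ) + Z.μ {ω | Z.A (Z.bx ω) = 0} +
          Z.μ (k7pRet c1 c2 K1 ∩ {ω | ¬ k7pClose (c1.f (c1.ix ω)) (c2.f (c2.ix ω)) (Θ * Δ)}) := by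
          refine (measure_union_le _ _).trans (add_le_add ?_ le_rfl)
          refine (measure_union_le _ _).trans (add_le_add ?_ le_rfl)
          refine (measure_union_le _ _).trans (add_le_add ?_ le_rfl)
          exact measure_union_le _ _
      _ ≤ 0 + ENNReal.ofReal (K / K1) + ENNReal.ofReal (K / K1) + 0 + ENNReal.ofReal (Lg * δ) := by
          refine add_le_add (add_le_add (add_le_add (add_le_add hZ.full.le (hdiv _ lL1)) (hdiv _ lL2)) lA.le) hbad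
      _ = ENNReal.ofReal (2 * K / K1 + Lg * δ) := by
          have e1 : 0 ≤ K / K1 := by positivity
          rw [zero_add, add_zero, ← ENNReal.ofReal_add e1 e1, ← ENNReal.ofReal_add (by positivity) (by positivity)]
          congr 1
          ring
  · refine k7p_list hZ h1 h2 hK hK10 (by positivity) ?_ (ha0.trans (min_le_right _ _)) (Z.Sp \ Zx) (fun ω hω => ?_) i
    · have : a2 ≤ K * a2 := le_mul_of_one_le_left ha2.le hK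
      linarith
    · obtain ⟨g0, g1, g2, g3, g4⟩ := hgood ω hω
      exact ⟨g0, g2, g3, g4⟩
  · refine k7p_list hZ h2 h1 hK hK10 (by positivity) ?_ (ha0.trans (min_le_left _ _)) (Z.Sp \ Zx) (fun ω hω => ?_) j
    · have : a1 ≤ K * a1 := le_mul_of_one_le_left ha1.le hK
      linarith
    · obtain ⟨g0, g1, g2, g3, g4⟩ := hgood ω hω
      exact ⟨g0, g1, g3, k7p_close_symm g4⟩

theorem k7p_core_eqns_cite : True := by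
  have := @k7pCell.eq_1
  have := @k7pSq.eq_1
  have := @k7pLip.eq_1
  have := @K7pBs.cl.eq_1
  have := @K7pCol.hv.eq_1
  have := @K7pMatchAt.eq_1
  have := @K7pCodeOf.eq_1
  have := @k7pJit.eq_1
  have := @k7pRet.eq_1
  trivial

end

end Claimed.Agent.R252
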