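import Claimed.Agent.R252.S7a.WideDefs

/-!
# ROW 252 (S0492), unit S7p (post BP-252-S7p, sub-architect helper97, under helper26), file 1: VOCABULARY AND EXITS OF  07 l.296-550
(Sec 7.2 "Projection of a finite-narrowness parent" and Lemma 7.2 `a06:projected-comparison`).      Definitions only, no `sorry`.

Everything lives on the abstract record `K7aW` (lines + tilted true labels of ONE depth) of `S7a/WideDefs.lean`.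
* `k7pPk W h g Q`      packet coordinates of a true label: `((t - t_Q)/h, (Z - Zc)/h, (Y - Y_Q(t,Z))/(h g))`   (07 l.309-313; sup metric of `ℝ × ℝ × ℝ`).
* `Γ : K7pGr W`        THE GRAPH ENTRIES of the true labels (DATA): entry of an incidence, its label, its prediction `eF e (t, Z, Y)` of the observable.
* `Γ.Ok Sh K a h g ρ`  `≤ K` entries per label; fit `K a` at the prepared incidences; on the STABLE NEIGHBOURHOOD (radius `ρ ≥ 1/K` in packet coordinates) of every prepared incidence the prediction is `K`-Lipschitz and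
                       every affine plane section which maps the square `[-1,2]²` into the neighbourhood belongs to the class `Sh` ("algebraic sheets with fixed margins"; `Sh` is a PARAMETER, consumed only through the two hubs).
* comparison domains `W.sdom qd g m` and lists `K7aLists W P E K χ qd g m` : those of `S7a/WideDefs` (v4: general domains, dyadic groups `kbBin χ`).
* HUBS (exits of unit S3): `K7pMatch S1 S2` = Cor 3.4 `a02:local-graph-matching` for two classes of graphs on the unit square (`k7a_Match = K7pMatch Quad Quad`, `k7p_match_quad`);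
                       `K7pCode S1 S2 m C` = L3.1 `lem:algebraic-norm` in the only form used: a code (scaled centre jets) which is bi-Lipschitz for the sup norm of the differences `f - g`, `f ∈ S1 ∪ S2`, `g ∈ S2`.
* EXITS:  `k7p_P72` (Sec 7.2 at finite scale), `k7p_L72 Sh` (Lemma 7.2 at finite scale).   NO dynamic state: L7.2 produces ONE exceptional set `Zx` of prepared mass `≤ N^{-κ}`; the lists hold on `Ev0 \ Zx`, hence on every selection inside it.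
-/

set_option autoImplicit false

namespace Claimed.Agent.R252

open MeasureTheory
open scoped ENNReal BigOperators

noncomputable section

/-- packet coordinates of a true label -/
def k7pPk (W : K7aW) (h g : ℝ) (Q : W.Q) (z : ℝ × ℝ × ℝ) : ℝ × ℝ × ℝ :=
  ((z.1 - (W.iv Q : ℝ) * W.q) / h, (z.2.1 - W.Zc Q) / h, (z.2.2 - W.YQ Q z.1 z.2.1) / (h * g))

/-- an affine map of the plane into the base `(t, Z, Y)` -/
def k7pAff (c A B : ℝ × ℝ × ℝ) (t y : ℝ) : ℝ × ℝ × ℝ := c + t • A + y • B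

/-- **the graph entries of the true labels** (data only) -/
structure K7pGr (W : K7aW) where
  Ent : Type
  fEnt : Fintype Ent
  /-- the label of an entry -/
  eQ : Ent → W.Q
  /-- THE entry of an incidence (stable ball + branch) -/
  ent : W.L × ℝ → Ent
  /-- the prediction of the observable, as a function of the parent base `(t, Z, Y)` -/
  eF : Ent → ℝ × ℝ × ℝ → ℝ

attribute [instance] K7pGr.fEnt

/-- the stable neighbourhood of an incidence, in parent base coordinates -/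
def k7pNb (W : K7aW) (h g ρ : ℝ) (p : W.L × ℝ) : Set (ℝ × ℝ × ℝ) := {z | dist (k7pPk W h g (W.labQ p) z) (k7pPk W h g (W.labQ p) (W.base p)) ≤ ρ}

namespace K7pGr

variable {W : K7aW} (Γ : K7pGr W)

/-- **stable graph lists of the true labels**, slack `K`, stable radius `ρ`, class `Sh` -/
structure Ok (Sh : Set (ℝ → ℝ → ℝ)) (K a h g ρ : ℝ) : Prop where
  m_ent : KsLab Γ.ent
  m_eF : ∀ e, Measurable (Γ.eF e)
  ρ_pos : 0 < ρ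
  ρ_le : ρ ≤ 1
  ρ_lo : 1 ≤ K * ρ
  lab : ∀ p ∈ W.Ev0, Γ.eQ (Γ.ent p) = W.labQ p
  card : ∀ Q, (Set.ncard {e | Γ.eQ e = Q} : ℝ) ≤ K
  fit : ∀ p ∈ W.Ev0, |W.X p.1 p.2 - Γ.eF (Γ.ent p) (W.base p)| ≤ K * a
  lip : ∀ p ∈ W.Ev0, ∀ z ∈ k7pNb W h g ρ p, ∀ z' ∈ k7pNb W h g ρ p,
    |Γ.eF (Γ.ent p) z - Γ.eF (Γ.ent p) z'| ≤ K * dist (k7pPk W h g (W.labQ p) z) (k7pPk W h g (W.labQ p) z')
  sheet : ∀ p ∈ W.Ev0, ∀ c A B : ℝ × ℝ × ℝ, (∀ t ∈ Set.Icc (-1 : ℝ) 2, ∀ y ∈ Set.Icc (-1 : ℝ) 2, k7pAff c A B t y ∈ k7pNb W h g ρ p) →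
    (fun t y => Γ.eF (Γ.ent p) (k7pAff c A B t y)) ∈ Sh

end K7pGr

/-! ## The hubs consumed from Sec. 3 -/

/-- `|f - g| ≤ η` on the unit square -/
def k7pClose (f g : ℝ → ℝ → ℝ) (η : ℝ) : Prop := ∀ t ∈ Set.Icc (0 : ℝ) 1, ∀ y ∈ Set.Icc (0 : ℝ) 1, |f t y - g t y| ≤ η

/-- the class of quadratic polynomials -/
def k7pQuad : Set (ℝ → ℝ → ℝ) := {F | K7aQuad F}

/-- **HUB (Cor 3.4, `a02:local-graph-matching`)** for two classes of graphs on the unit square; the common reference graph belongs to the SECOND class. -/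
def K7pMatch (S1 S2 : Set (ℝ → ℝ → ℝ)) : Prop :=
  ∀ d0 : ℝ, d0 < 1 → ∃ ε : ℝ, 0 < ε ∧ ∃ R0 : ℝ, ∀ R M Δ : ℝ, R0 ≤ R → 0 < Δ → M = R * Δ →
    ∀ (I1 I2 : Type) [Fintype I1] [Fintype I2] (f1 : I1 → ℝ → ℝ → ℝ) (f2 : I2 → ℝ → ℝ → ℝ) (fs : ℝ → ℝ → ℝ)
      (π1 : I1 → ℝ≥0∞) (π2 : I2 → ℝ≥0∞) (Pr : I1 → I2 → Measure (ℝ × ℝ)),
      (∀ i, f1 i ∈ S1) → (∀ j, f2 j ∈ S2) → fs ∈ S2 →
      (Fintype.card I1 : ℝ) ≤ R ^ (d0 + ε) → (Fintype.card I2 : ℝ) ≤ R ^ (d0 + ε) →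
      (∀ i, ∀ t ∈ Set.Icc (0 : ℝ) 1, ∀ y ∈ Set.Icc (0 : ℝ) 1, |f1 i t y - fs t y| ≤ M * R ^ ε) →
      (∀ j, ∀ t ∈ Set.Icc (0 : ℝ) 1, ∀ y ∈ Set.Icc (0 : ℝ) 1, |f2 j t y - fs t y| ≤ M * R ^ ε) →
      ∑ i, π1 i ≤ 1 → ∑ j, π2 j ≤ 1 →
      (∀ i j, Pr i j (Set.Icc (0 : ℝ) 1 ×ˢ Set.Icc (0 : ℝ) 1)ᶜ = 0) →
      (∀ i, ∑ j, Pr i j ≤ (ENNReal.ofReal (R ^ ε) * π1 i) • volume) →
      (∀ j, ∑ i, Pr i j ≤ (ENNReal.ofReal (R ^ ε) * π2 j) • volume) →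
      (∀ i j, ∀ᵐ z ∂Pr i j, |f1 i z.1 z.2 - f2 j z.1 z.2| ≤ Δ * R ^ ε) →
      (∀ i j, Pr i j ≠ 0 → ∃ t ∈ Set.Icc (0 : ℝ) 1, ∃ y ∈ Set.Icc (0 : ℝ) 1, M * R ^ (-ε) ≤ |f1 i t y - f2 j t y|) →
      ∑ i, ∑ j, Pr i j Set.univ < ENNReal.ofReal (R ^ (-ε))

/-- the hub of `S7a/WideDefs` is the case of two lists of quadratic polynomials -/
theorem k7p_match_quad : k7a_Match ↔ K7pMatch k7pQuad k7pQuad := Iff.rfl

/-- **HUB (L3.1, `lem:algebraic-norm`)**: a code `J f ∈ ℝ^m` (scaled centre jets through a fixed order), bi-Lipschitz for the norm of the differences with a member of the second class -/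
def K7pCode (S1 S2 : Set (ℝ → ℝ → ℝ)) (m : ℕ) (C : ℝ) : Prop :=
  ∃ J : (ℝ → ℝ → ℝ) → Fin m → ℝ, ∀ f ∈ S1 ∪ S2, ∀ g ∈ S2, ∀ η : ℝ,
    (k7pClose f g η → ∀ k, |J f k - J g k| ≤ C * η) ∧ ((∀ k, |J f k - J g k| ≤ η) → k7pClose f g (C * η))

/-! ## The two exits -/

/-- **Sec 7.2 (projection of a finite-narrowness parent), finite-scale form.**
Exponents: `a = N^{-s}`, `h = N^{-eh}`, `g = N^{-eg}`, mesh of Thm 7.1 `σ ∼ N^{-M}`, `M > s + eh + eg`; groups of mesh `χ = N^{-Mχ}` (any `Mχ` beyond a threshold).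
Output: ONE layer of projected labels of thickness `a` on a dense part `E'` of the given dense selection `E`; common interval scale `g σ / K ≤ β ≤ K g`.
(The floors of `K7aLayer.Ok` are witness floors under `lam0`: they persist, so the statement can be applied successively at finitely many depths, with records `W` which share `W.toK7aLn`.) -/
def k7p_P72 : Prop :=
  ∀ (d S s eh eg M : ℝ), 0 ≤ d → d < 1 → 0 < S → 0 < s → 0 < eh → 0 < eg → s + eh + eg < M →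
    ∃ Mχ0 : ℝ, ∀ Mχ : ℝ, Mχ0 ≤ Mχ → ∀ τ' : ℝ, 0 < τ' → ∃ (τ N1 : ℝ) (Ms Ws : Finset ℝ), 0 < τ ∧
      (∀ M' ∈ Ms, 0 ≤ M') ∧ (∀ r ∈ Ws, 0 ≤ r) ∧ ∀ N : ℝ, N1 ≤ N →
      ∀ (W : K7aW) (Γ : K7pGr W) (Sh : Set (ℝ → ℝ → ℝ)) (ρ : ℝ) (E : Set (W.L × ℝ)),
        W.Ok N (N ^ τ) d S (N ^ (-s)) (N ^ (-eh)) (N ^ (-eg)) Ms Ws → W.χ0 ≤ N ^ (-Mχ) →
        Γ.Ok Sh (N ^ τ) (N ^ (-s)) (N ^ (-eh)) (N ^ (-eg)) ρ →
        MeasurableSet E → E ⊆ W.Ev0 → 1 ≤ ENNReal.ofReal (N ^ τ) * W.prior E →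
        ∃ (P : K7aLayer W.toK7aLn) (β : ℝ) (E' : Set (W.L × ℝ)), MeasurableSet E' ∧ E' ⊆ E ∧ (∀ p ∈ E', P.lab p.1 ≠ none) ∧
          1 ≤ ENNReal.ofReal (N ^ τ') * W.prior E' ∧ P.Ok (N ^ τ') (N ^ (-Mχ)) (N ^ (-s)) β d ∧
          N ^ (-eg - M - τ') ≤ β ∧ β ≤ N ^ (-eg + τ')

/-- **Lemma 7.2 (comparison on common stable domains), finite-scale form.**   UNIFORM in the interval scale: `N^{-Bmax} ≤ β ≤ N^{-eg+τ}`.
Domains of time length `qd = 2^{-n} ∼ min (h, β/g)` which subdivide the true blocks, position width `m = qd g`.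
Output: ONE exceptional set of prepared mass `≤ N^{-κ}` (`κ` depends only on the exponents and on `τ'`) off which both lists have size `≤ N^{τ'}`. -/
def k7p_L72 (Sh : Set (ℝ → ℝ → ℝ)) : Prop :=
  ∀ (d S s eh eg Bmax : ℝ), 0 ≤ d → d < 1 → 0 < S → 0 < s → 0 < eh → 0 < eg → eg ≤ Bmax →
    ∃ Mχ0 : ℝ, ∀ Mχ : ℝ, Mχ0 ≤ Mχ → ∀ τ' : ℝ, 0 < τ' → ∃ (κ τ N1 : ℝ) (Ms Ws : Finset ℝ), 0 < κ ∧ 0 < τ ∧
      (∀ M' ∈ Ms, 0 ≤ M') ∧ (∀ r ∈ Ws, 0 ≤ r) ∧ ∀ N : ℝ, N1 ≤ N →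
      ∀ (W : K7aW) (Γ : K7pGr W) (ρ : ℝ) (P : K7aLayer W.toK7aLn) (β : ℝ) (n : ℕ),
        W.Ok N (N ^ τ) d S (N ^ (-s)) (N ^ (-eh)) (N ^ (-eg)) Ms Ws → W.χ0 ≤ N ^ (-Mχ) →
        Γ.Ok Sh (N ^ τ) (N ^ (-s)) (N ^ (-eh)) (N ^ (-eg)) ρ →
        P.Ok (N ^ τ) (N ^ (-Mχ)) (N ^ (-s)) β d → N ^ (-Bmax) ≤ β → β ≤ N ^ (-eg + τ) →
        W.lev ≤ n → N ^ (-τ) * min (N ^ (-eh)) (β / N ^ (-eg)) ≤ (1 / 2 : ℝ) ^ n → (1 / 2 : ℝ) ^ n ≤ N ^ τ * min (N ^ (-eh)) (β / N ^ (-eg)) →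
        ∃ Zx : Set (W.L × ℝ), MeasurableSet Zx ∧ W.lam0 Zx ≤ ENNReal.ofReal (N ^ (-κ)) ∧
          K7aLists W P (W.Ev0 \ Zx) (N ^ τ') (N ^ (-Mχ)) ((1 / 2 : ℝ) ^ n) (N ^ (-eg)) ((1 / 2 : ℝ) ^ n * N ^ (-eg))

/-- **Sec 7.2, finite-scale form, with the required exponents bounded BEFORE `τ'`** (asked by helper17; shape of `k7a_P73` v4).   Same inner part as `k7p_P72`. -/
def k7p_P72B : Prop :=
  ∀ (d S s eh eg M : ℝ), 0 ≤ d → d < 1 → 0 < S → 0 < s → 0 < eh → 0 < eg → s + eh + eg < M →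
    ∃ Mχ0 : ℝ, ∀ Mχ : ℝ, Mχ0 ≤ Mχ → ∃ M0 : ℝ, ∀ τ' : ℝ, 0 < τ' → ∃ (τ N1 : ℝ) (Ms Ws : Finset ℝ), 0 < τ ∧
      (∀ M' ∈ Ms, 0 ≤ M' ∧ M' ≤ M0) ∧ (∀ r ∈ Ws, 0 ≤ r ∧ r ≤ M0) ∧ ∀ N : ℝ, N1 ≤ N →
      ∀ (W : K7aW) (Γ : K7pGr W) (Sh : Set (ℝ → ℝ → ℝ)) (ρ : ℝ) (E : Set (W.L × ℝ)),
        W.Ok N (N ^ τ) d S (N ^ (-s)) (N ^ (-eh)) (N ^ (-eg)) Ms Ws → W.χ0 ≤ N ^ (-Mχ) →
        Γ.Ok Sh (N ^ τ) (N ^ (-s)) (N ^ (-eh)) (N ^ (-eg)) ρ →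
        MeasurableSet E → E ⊆ W.Ev0 → 1 ≤ ENNReal.ofReal (N ^ τ) * W.prior E →
        ∃ (P : K7aLayer W.toK7aLn) (β : ℝ) (E' : Set (W.L × ℝ)), MeasurableSet E' ∧ E' ⊆ E ∧ (∀ p ∈ E', P.lab p.1 ≠ none) ∧
          1 ≤ ENNReal.ofReal (N ^ τ') * W.prior E' ∧ P.Ok (N ^ τ') (N ^ (-Mχ)) (N ^ (-s)) β d ∧
          N ^ (-eg - M - τ') ≤ β ∧ β ≤ N ^ (-eg + τ')

theorem k7p_P72_of_B (h : k7p_P72B) : k7p_P72 := by
  intro d S s eh eg M h1 h2 h3 h4 h5 h6 h7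
  obtain ⟨Mχ0, hM⟩ := h d S s eh eg M h1 h2 h3 h4 h5 h6 h7
  refine ⟨Mχ0, fun Mχ hMχ τ' hτ' => ?_⟩
  obtain ⟨M0, h0⟩ := hM Mχ hMχ
  obtain ⟨τ, N1, Ms, Ws, a2, a3, a4, a5⟩ := h0 τ' hτ'
  exact ⟨τ, N1, Ms, Ws, a2, fun M' hM' => (a3 M' hM').1, fun r hr => (a4 r hr).1, a5⟩

/-- **Lemma 7.2, finite-scale form, with the required exponents bounded BEFORE `τ'`** (asked by helper17; shape of `k7a_P73` v4).   Same inner part as `k7p_L72`. -/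
def k7p_L72B (Sh : Set (ℝ → ℝ → ℝ)) : Prop :=
  ∀ (d S s eh eg Bmax : ℝ), 0 ≤ d → d < 1 → 0 < S → 0 < s → 0 < eh → 0 < eg → eg ≤ Bmax →
    ∃ Mχ0 : ℝ, ∀ Mχ : ℝ, Mχ0 ≤ Mχ → ∃ M0 : ℝ, ∀ τ' : ℝ, 0 < τ' → ∃ (κ τ N1 : ℝ) (Ms Ws : Finset ℝ), 0 < κ ∧ 0 < τ ∧
      (∀ M' ∈ Ms, 0 ≤ M' ∧ M' ≤ M0) ∧ (∀ r ∈ Ws, 0 ≤ r ∧ r ≤ M0) ∧ ∀ N : ℝ, N1 ≤ N →
      ∀ (W : K7aW) (Γ : K7pGr W) (ρ : ℝ) (P : K7aLayer W.toK7aLn) (β : ℝ) (n : ℕ),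
        W.Ok N (N ^ τ) d S (N ^ (-s)) (N ^ (-eh)) (N ^ (-eg)) Ms Ws → W.χ0 ≤ N ^ (-Mχ) →
        Γ.Ok Sh (N ^ τ) (N ^ (-s)) (N ^ (-eh)) (N ^ (-eg)) ρ →
        P.Ok (N ^ τ) (N ^ (-Mχ)) (N ^ (-s)) β d → N ^ (-Bmax) ≤ β → β ≤ N ^ (-eg + τ) →
        W.lev ≤ n → N ^ (-τ) * min (N ^ (-eh)) (β / N ^ (-eg)) ≤ (1 / 2 : ℝ) ^ n → (1 / 2 : ℝ) ^ n ≤ N ^ τ * min (N ^ (-eh)) (β / N ^ (-eg)) →
        ∃ Zx : Set (W.L × ℝ), MeasurableSet Zx ∧ W.lam0 Zx ≤ ENNReal.ofReal (N ^ (-κ)) ∧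
          K7aLists W P (W.Ev0 \ Zx) (N ^ τ') (N ^ (-Mχ)) ((1 / 2 : ℝ) ^ n) (N ^ (-eg)) ((1 / 2 : ℝ) ^ n * N ^ (-eg))

theorem k7p_L72_of_B {Sh : Set (ℝ → ℝ → ℝ)} (h : k7p_L72B Sh) : k7p_L72 Sh := by
  intro d S s eh eg Bmax h1 h2 h3 h4 h5 h6 h7
  obtain ⟨Mχ0, hM⟩ := h d S s eh eg Bmax h1 h2 h3 h4 h5 h6 h7
  refine ⟨Mχ0, fun Mχ hMχ τ' hτ' => ?_⟩
  obtain ⟨M0, h0⟩ := hM Mχ hMχ
  obtain ⟨κ, τ, N1, Ms, Ws, a1, a2, a3, a4, a5⟩ := h0 τ' hτ'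
  exact ⟨κ, τ, N1, Ms, Ws, a1, a2, fun M' hM' => (a3 M' hM').1, fun r hr => (a4 r hr).1, a5⟩

theorem k7p_defs_eqns_cite : True := by
  have := @k7p_P72B.eq_1
  have := @k7p_L72B.eq_1
  have := @k7pPk.eq_1
  have := @k7pAff.eq_1
  have := @k7pNb.eq_1
  have := @k7pClose.eq_1
  have := @k7pQuad.eq_1
  have := @K7pMatch.eq_1
  have := @K7pCode.eq_1
  have := @k7p_P72.eq_1
  have := @k7p_L72.eq_1
  trivial

end

end Claimed.Agent.R252
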