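import Claimed.Agent.R252.S7p.Defs
import Claimed.Agent.R252.S7a.WideContract

/-!
# ROW 252 (S0492), unit S7p (sub-architect helper97), file 4: SEC 7.2, PROJECTION OF A FINITE-NARROWNESS PARENT (07 l.296-416).      CONTRACT file: every `sorry` is a leaf `L-252-S7p-P*`.

PAPER-FREE: `S7a/Defs` (Thm 7.1: `K7aData`, `Adm`, `Cap`, `Supp`, `Out`), `S7a/WideDefs` (`K7aLn`, `K7aW`, `K7aLayer`), `S7a/WideCapContract` (BAND `k7wc_band`, dyadic bins), `S7p/Defs` (`K7pGr`).   ONE scale, explicit slack `K ≥ 1`.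
Notation: `χ' = kbDy χ ∈ [χ, 2χ)`; group of a line `G = (mv, zz, γ0, γ1) = (kbBin χ v, kbBin χ Z0, ⌊Y0/g⌋, ⌊Y1/g⌋)`; `Gs G` = the lines of the group inside `Sp`; `p_G = ν (Gs G)`; `w = χ π([v]_χ = mv)`; `c_G = w g / p_G`.
`k7pData W E χ g G` = the conditioned model of Thm 7.1: `nu = ν|Gs / p_G`, `mu = law E|Gs / p_G`, `y = (Y - γ0 g - γ1 g t)/g` (coefficients in `[0,1)`), `x = X`.
## The chain
 P1 `k7p_data_adm`     admissibility.                 P2 `k7p_data_cap`   first hypothesis of Thm 7.1 from BAND (07 l.353-362).                 P3 `k7p_data_supp`  second hypothesis from a list of occupied cells.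
 P4 `k7p_loc_grp`, `k7p_loc_ij`, `k7p_loc_k`, `k7p_occ_Q`     a true label and a velocity bin: `≤ K' (h/χ)(h/σ)²` occupied (group, cell) pairs (07 l.364-383).
 P5 `k7p_Q_card`       `#Qa · q a^d h b ≤ K`.         P6 `k7p_supp_total` total weighted support `≤ K' a^{-d}` (07 l.383-390).                 P7 `k7p_good`       discarding of groups (07 l.392-397).
 P8 `k7p_c_lo`, `k7p_c_hi`   fixed-power bounds of `c_G`.                 P9 `k7p_out_back`   the output of Thm 7.1 in parent coordinates.                 P10 `k7p_class`     dyadic choice of the common scale.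
 P11 `k7p_assemble`    the layer.                     P12 `k7p_proj_one`  Sec 7.2 at one scale from Thm 7.1 at one scale.                 P13 `k7p_P72_pf`    exponents.
-/

set_option autoImplicit false

namespace Claimed.Agent.R252

open MeasureTheory
open scoped ENNReal BigOperators

noncomputable section

/-! ## 0. Groups and the conditioned model -/

/-- the group of a line -/
def k7pGrp (W : K7aLn) (χ g : ℝ) (l : W.L) : ℤ × ℤ × ℤ × ℤ := (kbBin χ (W.v l), kbBin χ (W.Z0 l), ⌊W.Y0 l / g⌋, ⌊W.Y1 l / g⌋)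

/-- the lines of a group, inside the full set -/
def k7pGs (W : K7aLn) (χ g : ℝ) (G : ℤ × ℤ × ℤ × ℤ) : Set W.L := W.Sp ∩ k7pGrp W χ g ⁻¹' {G}

/-- the prior mass of a group -/
def k7pPG (W : K7aLn) (χ g : ℝ) (G : ℤ × ℤ × ℤ × ℤ) : ℝ≥0∞ := W.ν (k7pGs W χ g G)

/-- the active mass of a group in the selection `E` -/
def k7pMG (W : K7aLn) (E : Set (W.L × ℝ)) (χ g : ℝ) (G : ℤ × ℤ × ℤ × ℤ) : ℝ≥0∞ := W.prior (E ∩ k7pGs W χ g G ×ˢ Set.univ)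

/-- the constant `c = w_α g / p_{αγ}` of Thm 7.1 -/
def k7pC (W : K7aLn) (χ g : ℝ) (G : ℤ × ℤ × ℤ × ℤ) : ℝ := χ * g * (W.palχ χ G.1).toReal / (k7pPG W χ g G).toReal

open Classical in
/-- **the conditioned model of a group** -/
def k7pData (W : K7aLn) (E : Set (W.L × ℝ)) (χ g : ℝ) (G : ℤ × ℤ × ℤ × ℤ) : K7aData W.L where
  nu := (k7pPG W χ g G)⁻¹ • W.ν.restrict (k7pGs W χ g G)
  mu := (k7pPG W χ g G)⁻¹ • (W.law E).restrict (k7pGs W χ g G ×ˢ Set.univ)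
  y0 := fun l => if l ∈ k7pGs W χ g G then W.Y0 l / g - G.2.2.1 else 0
  y1 := fun l => if l ∈ k7pGs W χ g G then W.Y1 l / g - G.2.2.2 else 0
  x0 := fun l => if l ∈ k7pGs W χ g G then W.x0 l else 0
  x1 := fun l => if l ∈ k7pGs W χ g G then W.x1 l else 0
  x2 := fun l => if l ∈ k7pGs W χ g G then W.x2 l else 0

/-- the projected cell of an incidence: `(σ, σ, a)`-bins of `(t, y, X)`, `y` = normalised `Y` in the group of the line -/
def k7pPc (W : K7aLn) (g σ a : ℝ) (p : W.L × ℝ) : ℤ × ℤ × ℤ :=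
  (⌊p.2 / σ⌋, ⌊((W.Y0 p.1 / g - ⌊W.Y0 p.1 / g⌋) + (W.Y1 p.1 / g - ⌊W.Y1 p.1 / g⌋) * p.2) / σ⌋, ⌊W.X p.1 p.2 / a⌋)

/-- **L-252-S7p-P0** measurability of the groups (`kbBin χ x = ⌊x / kbDy χ⌋`; `Measurable.floor`/`Int.measurable_floor`, `hW.m_co`, `hW.m_Sp`; `measurableSet_singleton`, `Measurable.prodMk`). -/
theorem k7p_gs_meas (W : K7aLn) {N K d S : ℝ} {Ms Ws : Finset ℝ} (hW : W.Ok N K d S Ms Ws) (χ g : ℝ) (G : ℤ × ℤ × ℤ × ℤ) : MeasurableSet (k7pGs W χ g G) := by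
  obtain ⟨mZ0, mv, mY0, mY1, -, -, -⟩ := hW.m_co
  have hm : Measurable (k7pGrp W χ g) := by
    unfold k7pGrp kbBin
    exact ((mv.div_const _).floor).prodMk (((mZ0.div_const _).floor).prodMk (((mY0.div_const _).floor).prodMk ((mY1.div_const _).floor)))
  exact hW.m_Sp.inter (hm (measurableSet_singleton G))

/-- **L-252-S7p-P0** the groups partition the prior and every selection.
(`Sp_full`; the sets `Gs G` are measurable, pairwise disjoint, with union `Sp`; `measure_iUnion`; for the second: `E ⊆ Ev0 ⊆ Sp ×ˢ Icc 0 1`, so `E = ⋃ G, E ∩ Gs G ×ˢ univ`; third: `prior (A ×ˢ univ) = ν A * k7aTm univ = ν A`.) -/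
theorem k7p_gs_sum (W : K7aLn) {N K d S : ℝ} {Ms Ws : Finset ℝ} (hW : W.Ok N K d S Ms Ws) (χ g : ℝ) {E : Set (W.L × ℝ)} (hE : MeasurableSet E) (hEs : E ⊆ W.Ev0) :
    ∑' G, k7pPG W χ g G = 1 ∧ ∑' G, k7pMG W E χ g G = W.prior E ∧ ∀ G, k7pMG W E χ g G ≤ k7pPG W χ g G := by
  have := hW.prob
  have hTm : IsProbabilityMeasure k7aTm := by
    refine ⟨?_⟩
    unfold k7aTm
    rw [Measure.restrict_apply MeasurableSet.univ, Set.univ_inter, Real.volume_Icc]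
    norm_num
  have hdis : Pairwise (Function.onFun Disjoint (k7pGs W χ g)) := by
    intro G G' hne
    refine Set.disjoint_left.2 fun l h1 h2 => hne ?_
    have e1 : k7pGrp W χ g l = G := h1.2
    have e2 : k7pGrp W χ g l = G' := h2.2
    rw [← e1, e2]
  have hU : ⋃ G, k7pGs W χ g G = W.Sp := by
    ext l
    simp only [Set.mem_iUnion]
    constructor
    · rintro ⟨G, hG⟩
      exact hG.1
    · intro hl
      exact ⟨k7pGrp W χ g l, hl, rfl⟩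
  refine ⟨?_, ?_, fun G => ?_⟩
  · unfold k7pPG
    rw [← measure_iUnion hdis (fun G => k7p_gs_meas W hW χ g G), hU]
    exact (prob_compl_eq_zero_iff hW.m_Sp).1 hW.Sp_full
  · unfold k7pMG
    rw [← measure_iUnion (fun G G' hne => ?_) (fun G => hE.inter ((k7p_gs_meas W hW χ g G).prod MeasurableSet.univ))]
    · congr 1
      ext z
      simp only [Set.mem_iUnion, Set.mem_inter_iff, Set.mem_prod, Set.mem_univ, and_true]
      constructor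
      · rintro ⟨G, hz, -⟩
        exact hz
      · intro hz
        exact ⟨k7pGrp W χ g z.1, hz, (hW.Ev0_sub (hEs hz)).1, rfl⟩
    · refine Set.disjoint_left.2 fun z h1 h2 => ?_
      exact Set.disjoint_left.1 (hdis hne) h1.2.1 h2.2.1
  · unfold k7pMG k7pPG
    refine (measure_mono Set.inter_subset_right).trans ?_
    unfold K7aLn.prior
    rw [Measure.prod_prod, measure_univ, mul_one]

/-! ## P1-P3. The hypotheses of Thm 7.1 for one group -/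

/-- **L-252-S7p-P1**.  PROOF.  `p := k7pPG .. G ≠ 0, ≠ ⊤` (probability).  `prob`: `p⁻¹ * ν (Gs) = 1`.  `meas`: each coefficient is `Set.piecewise`/`ite` of measurable functions on the measurable set `Gs` (`Measurable.ite`, `k7p_gs_meas`), `Measurable.prodMk`.
`bd`: off `Gs` all are `0`; on `Gs`: `y0 = Y0/g - ⌊Y0/g⌋ ∈ [0,1)` (`G.2.2.1 = ⌊Y0/g⌋`), the same for `y1`; `|X l t| ≤ K` at `t = 0, 1/2, 1` gives `|x0| ≤ K`, `x2 = 2 X(1) - 4 X(1/2) + 2 X(0)`, `x1 = 4 X(1/2) - X(1) - 3 X(0)`: `≤ 8 K`.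
`dom`: `(law E).restrict (Gs ×ˢ univ) ≤ prior.restrict (Gs ×ˢ univ) = (ν.restrict Gs).prod k7aTm` (`Measure.prod_restrict`, `Measure.restrict_univ`), `Measure.prod_smul_left`; constant `≥ 1`.   `mass`: `mu univ = p⁻¹ * k7pMG`, `hs`. -/
theorem k7p_data_adm (W : K7aLn) {N K d S : ℝ} {Ms Ws : Finset ℝ} (hW : W.Ok N K d S Ms Ws) (hK : 1 ≤ K) {χ g : ℝ} (hg : 0 < g) {E : Set (W.L × ℝ)} (hE : MeasurableSet E)
    (G : ℤ × ℤ × ℤ × ℤ) {K0 : ℝ} (hp : k7pPG W χ g G ≠ 0) (hs : k7pPG W χ g G ≤ ENNReal.ofReal K0 * k7pMG W E χ g G) :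
    (k7pData W E χ g G).Adm (max (8 * K) K0) := by
  have := hW.prob
  have hTm : SFinite k7aTm := by
    unfold k7aTm
    infer_instance
  have mGs := k7p_gs_meas W hW χ g G
  have hpt : k7pPG W χ g G ≠ ⊤ := measure_ne_top _ _
  obtain ⟨-, -, mY0, mY1, mx0, mx1, mx2⟩ := hW.m_co
  have hKm : 8 * K ≤ max (8 * K) K0 := le_max_left _ _
  have hone : (1 : ℝ≥0∞) ≤ ENNReal.ofReal (max (8 * K) K0) := by
    rw [← ENNReal.ofReal_one]
    exact ENNReal.ofReal_le_ofReal (by linarith)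
  refine ⟨?_, ?_, fun l => ?_, ?_, ?_⟩
  · exact ProbabilityTheory.cond_isProbabilityMeasure hp
  · unfold K7aData.co k7pData
    exact (Measurable.ite mGs ((mY0.div_const _).sub_const _) measurable_const).prodMk
      ((Measurable.ite mGs ((mY1.div_const _).sub_const _) measurable_const).prodMk
        ((Measurable.ite mGs mx0 measurable_const).prodMk
          ((Measurable.ite mGs mx1 measurable_const).prodMk (Measurable.ite mGs mx2 measurable_const))))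
  · by_cases hl : l ∈ k7pGs W χ g G
    · simp only [k7pData, if_pos hl]
      have hgr : k7pGrp W χ g l = G := hl.2
      have e1 : G.2.2.1 = ⌊W.Y0 l / g⌋ := by rw [← hgr]; rfl
      have e2 : G.2.2.2 = ⌊W.Y1 l / g⌋ := by rw [← hgr]; rfl
      obtain ⟨-, -, -, -, hX⟩ := hW.bd l hl.1
      have X0 := abs_le.1 (hX 0 ⟨le_rfl, zero_le_one⟩)
      have X1 := abs_le.1 (hX 1 ⟨zero_le_one, le_rfl⟩)
      have Xh := abs_le.1 (hX (1 / 2) ⟨by norm_num, by norm_num⟩)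
      unfold K7aLn.X at X0 X1 Xh
      rw [e1, e2]
      have f1 := Int.floor_le (W.Y0 l / g)
      have f2 := Int.lt_floor_add_one (W.Y0 l / g)
      have f3 := Int.floor_le (W.Y1 l / g)
      have f4 := Int.lt_floor_add_one (W.Y1 l / g)
      refine ⟨?_, ?_, ?_, ?_, ?_⟩ <;> rw [abs_le] <;> constructor <;> linarith [X0.1, X0.2, X1.1, X1.2, Xh.1, Xh.2]
    · simp only [k7pData, if_neg hl, abs_zero]
      have : 0 ≤ max (8 * K) K0 := by linarith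
      exact ⟨this, this, this, this, this⟩
  · have h1 : (k7pData W E χ g G).mu ≤ (k7pData W E χ g G).nu.prod k7aTm := by
      simp only [k7pData]
      rw [Measure.prod_smul_left]
      have h2 : (W.law E).restrict (k7pGs W χ g G ×ˢ Set.univ) ≤ (W.ν.restrict (k7pGs W χ g G)).prod k7aTm := by
        have e : (W.ν.restrict (k7pGs W χ g G)).prod k7aTm = W.prior.restrict (k7pGs W χ g G ×ˢ Set.univ) := by
          unfold K7aLn.prior
          rw [← Measure.prod_restrict, Measure.restrict_univ]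
        rw [e]
        exact Measure.restrict_mono le_rfl Measure.restrict_le_self
      intro s
      simp only [Measure.smul_apply, smul_eq_mul]
      exact mul_le_mul_right (h2 s) _
    refine h1.trans ?_
    intro s
    simp only [Measure.smul_apply, smul_eq_mul]
    exact le_mul_of_one_le_left zero_le hone
  · have e : (k7pData W E χ g G).mu Set.univ = (k7pPG W χ g G)⁻¹ * k7pMG W E χ g G := by
      simp only [k7pData, Measure.smul_apply, smul_eq_mul]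
      rw [Measure.restrict_apply MeasurableSet.univ, Set.univ_inter]
      unfold K7aLn.law k7pMG
      rw [Measure.restrict_apply (mGs.prod MeasurableSet.univ), Set.inter_comm]
    rw [e]
    calc (1 : ℝ≥0∞) = (k7pPG W χ g G)⁻¹ * k7pPG W χ g G := (ENNReal.inv_mul_cancel hp hpt).symm
      _ ≤ (k7pPG W χ g G)⁻¹ * (ENNReal.ofReal K0 * k7pMG W E χ g G) := mul_le_mul_right hs _
      _ = ENNReal.ofReal K0 * ((k7pPG W χ g G)⁻¹ * k7pMG W E χ g G) := by ring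
      _ ≤ ENNReal.ofReal (max (8 * K) K0) * ((k7pPG W χ g G)⁻¹ * k7pMG W E χ g G) :=
        mul_le_mul_left (ENNReal.ofReal_le_ofReal (le_max_right _ _)) _

/-- **L-252-S7p-P2** (07 l.353-362).  `Kn` = ratio of the net of widths.
PROOF.  Fix `i j p xs`.  `hnet p` gives `r ∈ Ws`, `N^{-r} ≤ p ≤ Kn N^{-r}`.   `mu (..) = p_G⁻¹ * law E (.. ∩ Gs ×ˢ univ) ≤ p_G⁻¹ * lam0 (Bd)` (`E ⊆ Ev0`: `Measure.restrict_mono`), `Bd` := the set of `k7wc_band` with `mv = G.1`, `zz = G.2.1`, `t0 = i σ`, `ρ = σ`,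
`sc = G.2.2.2 * g`, `yc = G.2.2.1 * g + (j + 1/2) σ g + sc * t0`, `mw = σ g / 2`, `F = fun _ _ _ => xs + p/2`, `κ = p / (2 N^{-r}) ≤ Kn/2`:  on `Gs`, `D.y l t = (Y l t - γ0 g - γ1 g t)/g`, so `⌊D.y/σ⌋ = j` means `Y - γ0 g - γ1 g t ∈ [jσg, (j+1)σg)`.
`|sc| ≤ K + 1` (a line of `Gs` exists as `p_G ≠ 0`; `|Y1| ≤ K`, `|Y1 - γ1 g| ≤ g ≤ 1`), so `hσg` gives the hypothesis `hw` of BAND.   Result `≤ p_G⁻¹ · 192 K (Kn + 5) (N^{-r})^d χ σ (σ g/2) π ≤ 576 K Kn σ² c p^d` (`(N^{-r})^d ≤ p^d` as `0 ≤ d`; `π, p_G` finite: `ENNReal.ofReal_toReal`). -/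
theorem k7p_data_cap (W : K7aLn) {N K d S M χ g σ a Kn : ℝ} {Ms Ws : Finset ℝ} (hW : W.Ok N K d S Ms Ws) (hN : 1 < N) (hK : 1 ≤ K) (hd : 0 ≤ d) (hM : M ∈ Ms)
    (hKn : 1 ≤ Kn) (hnet : ∀ p, a ≤ p → p ≤ 1 → ∃ r ∈ Ws, N ^ (-r) ≤ p ∧ p ≤ Kn * N ^ (-r)) (ha : 0 < a) (hg : 0 < g) (hg1 : g ≤ 1) (hσ : 0 < σ)
    (hχ0 : W.χ0 ≤ χ) (hχ1 : χ ≤ 1) (hσM : 2 * N ^ (-M) ≤ σ) (hχM : 2 * K * N ^ (-M) ≤ χ) (hσg : 4 * (K + 2) * N ^ (-M) ≤ σ * g)
    {E : Set (W.L × ℝ)} (hE : MeasurableSet E) (hEs : E ⊆ W.Ev0) (G : ℤ × ℤ × ℤ × ℤ) (hp : k7pPG W χ g G ≠ 0) :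
    (k7pData W E χ g G).Cap (576 * K * Kn) σ (k7pC W χ g G) d a := by
  intro i j p xs hap hp1
  have := hW.prob
  have mGs := k7p_gs_meas W hW χ g G
  have hpt : k7pPG W χ g G ≠ ⊤ := measure_ne_top _ _
  have hP0 : 0 < (k7pPG W χ g G).toReal := ENNReal.toReal_pos hp hpt
  have hN0 : 0 < N := by linarith
  have hχ : 0 < χ := lt_of_lt_of_le hW.χ0_pos hχ0
  have hp0 : 0 < p := lt_of_lt_of_le ha hap
  obtain ⟨r, hr, hr1, hr2⟩ := hnet p hap hp1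
  have hNr : 0 < N ^ (-r) := Real.rpow_pos_of_pos hN0 _
  have hNM : 0 < N ^ (-M) := Real.rpow_pos_of_pos hN0 _
  have hπt : W.palχ χ G.1 ≠ ⊤ := by
    have : W.palχ χ G.1 ≤ 1 := (measure_mono (Set.subset_univ _)).trans hW.pal_le
    exact ne_top_of_le_ne_top ENNReal.one_ne_top this
  -- a line of the group
  have hne : (k7pGs W χ g G).Nonempty := by
    by_contra hcon
    rw [Set.not_nonempty_iff_eq_empty] at hcon
    apply hp
    unfold k7pPG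
    rw [hcon, measure_empty]
  obtain ⟨l₀, hl₀⟩ := hne
  have hsc : |(G.2.2.2 : ℝ) * g| ≤ K + 1 := by
    have hgr : k7pGrp W χ g l₀ = G := hl₀.2
    have e2 : G.2.2.2 = ⌊W.Y1 l₀ / g⌋ := by rw [← hgr]; rfl
    obtain ⟨-, -, -, hY1, -⟩ := hW.bd l₀ hl₀.1
    have f3 := Int.floor_le (W.Y1 l₀ / g)
    have f4 := Int.lt_floor_add_one (W.Y1 l₀ / g)
    rw [le_div_iff₀ hg] at f3
    rw [div_lt_iff₀ hg] at f4
    have := abs_le.1 hY1
    rw [e2, abs_le]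
    constructor <;> nlinarith [this.1, this.2]
  set κ : ℝ := p / (2 * N ^ (-r)) with hκ
  have hκ0 : 0 ≤ κ := by positivity
  have hκN : κ * N ^ (-r) = p / 2 := by
    rw [hκ]
    field_simp
  have h2κ : 2 * κ ≤ Kn := by
    rw [hκ]
    have : 2 * (p / (2 * N ^ (-r))) = p / N ^ (-r) := by field_simp
    rw [this, div_le_iff₀ hNr]
    exact hr2
  have hband := k7wc_band W (κ := κ) (ρ := σ) (mw := σ * g / 2) (t0 := i * σ)
    (yc := G.2.2.1 * g + ((j : ℝ) + 1 / 2) * σ * g + G.2.2.2 * g * (i * σ)) (sc := G.2.2.2 * g) hW hN hK hM hr hκ0 hχ0 hχ1 hσM hχM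
    (by nlinarith) G.1 G.2.1 (fun _ _ _ => xs + p / 2)
    (fun _ _ _ _ _ _ _ _ _ _ _ _ _ _ _ _ _ => by simpa using hNr.le)
  -- the measure
  have hmu : (k7pData W E χ g G).mu ((k7pData W E χ g G).cell σ i j ∩ {z | (k7pData W E χ g G).x z.1 z.2 ∈ Set.Ico xs (xs + p)})
      ≤ (k7pPG W χ g G)⁻¹ * (ENNReal.ofReal (192 * K * (2 * κ + 5) * (N ^ (-r)) ^ d * (χ * σ * (σ * g / 2))) * W.palχ χ G.1) := by
    have e : (k7pData W E χ g G).mu = (k7pPG W χ g G)⁻¹ • (W.law E).restrict (k7pGs W χ g G ×ˢ Set.univ) := rfl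
    rw [e, Measure.smul_apply, smul_eq_mul]
    refine mul_le_mul_right ?_ _
    rw [Measure.restrict_apply' (mGs.prod MeasurableSet.univ)]
    refine le_trans ?_ hband
    refine le_trans (Measure.restrict_mono hEs le_rfl _) ?_
    refine measure_mono ?_
    rintro ⟨l, t⟩ ⟨⟨⟨hi, hj⟩, hx⟩, hG⟩
    have hl : l ∈ k7pGs W χ g G := hG.1
    have hgr : k7pGrp W χ g l = G := hl.2
    have e1 : G.2.2.1 = ⌊W.Y0 l / g⌋ := by rw [← hgr]; rfl
    have e2 : G.2.2.2 = ⌊W.Y1 l / g⌋ := by rw [← hgr]; rfl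
    have hi' : ⌊t / σ⌋ = i := hi
    have hj' : ⌊((W.Y0 l / g - G.2.2.1) + (W.Y1 l / g - G.2.2.2) * t) / σ⌋ = j := by
      have : ⌊(k7pData W E χ g G).y l t / σ⌋ = j := hj
      simpa only [K7aData.y, k7pData, if_pos hl] using this
    have hx' : W.X l t ∈ Set.Ico xs (xs + p) := by
      have : (k7pData W E χ g G).x l t ∈ Set.Ico xs (xs + p) := hx
      simpa only [K7aData.x, k7pData, if_pos hl, K7aLn.X] using this
    rw [Int.floor_eq_iff, le_div_iff₀ hσ, div_lt_iff₀ hσ] at hi' hj'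
    refine ⟨by rw [← hgr]; rfl, by rw [← hgr]; rfl, ⟨hi'.1, by have := hi'.2; linarith⟩, ?_, ?_⟩
    · have ey : W.Y l t - (G.2.2.1 * g + ((j : ℝ) + 1 / 2) * σ * g + G.2.2.2 * g * (i * σ) + G.2.2.2 * g * (t - i * σ))
          = g * (((W.Y0 l / g - G.2.2.1) + (W.Y1 l / g - G.2.2.2) * t) - ((j : ℝ) + 1 / 2) * σ) := by
        unfold K7aLn.Y
        field_simp
        ring
      show |W.Y l t - (G.2.2.1 * g + ((j : ℝ) + 1 / 2) * σ * g + G.2.2.2 * g * (i * σ) + G.2.2.2 * g * (t - i * σ))| ≤ σ * g / 2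
      rw [ey, abs_mul, abs_of_pos hg]
      have : |((W.Y0 l / g - G.2.2.1) + (W.Y1 l / g - G.2.2.2) * t) - ((j : ℝ) + 1 / 2) * σ| ≤ σ / 2 := by
        rw [abs_le]
        constructor <;> linarith [hj'.1, hj'.2]
      nlinarith
    · show |W.X l t - (xs + p / 2)| ≤ κ * N ^ (-r)
      rw [hκN, abs_le]
      constructor <;> linarith [hx'.1, hx'.2]
  refine hmu.trans ?_
  rw [← ENNReal.ofReal_toReal hπt, ← ENNReal.ofReal_toReal (ENNReal.inv_ne_top.2 hp), ENNReal.toReal_inv,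
    ← ENNReal.ofReal_mul (by positivity), ← ENNReal.ofReal_mul (by positivity)]
  refine ENNReal.ofReal_le_ofReal ?_
  unfold k7pC
  have hπ0 : 0 ≤ (W.palχ χ G.1).toReal := ENNReal.toReal_nonneg
  have hpd : (N ^ (-r)) ^ d ≤ p ^ d := Real.rpow_le_rpow hNr.le hr1 hd
  have hpd0 : 0 ≤ (N ^ (-r)) ^ d := by positivity
  have h6 : 2 * κ + 5 ≤ 6 * Kn := by linarith
  calc (k7pPG W χ g G).toReal⁻¹ * (192 * K * (2 * κ + 5) * (N ^ (-r)) ^ d * (χ * σ * (σ * g / 2)) * (W.palχ χ G.1).toReal)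
      = (96 * K * σ ^ 2 * (χ * g * (W.palχ χ G.1).toReal / (k7pPG W χ g G).toReal)) * ((2 * κ + 5) * (N ^ (-r)) ^ d) := by
        field_simp
        ring
    _ ≤ (96 * K * σ ^ 2 * (χ * g * (W.palχ χ G.1).toReal / (k7pPG W χ g G).toReal)) * ((6 * Kn) * p ^ d) := by
        refine mul_le_mul_of_nonneg_left ?_ (by positivity)
        exact mul_le_mul h6 hpd hpd0 (by linarith)
    _ = 576 * K * Kn * σ ^ 2 * (χ * g * (W.palχ χ G.1).toReal / (k7pPG W χ g G).toReal) * p ^ d := by ring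

/-- **L-252-S7p-P3**.  PROOF.  `S := Sf`.  a.e.: `mu` is carried by `E ∩ Gs ×ˢ univ` (`Measure.ae_smul_measure`, `ae_restrict_iff'`/`ae_restrict_mem`; `law E = prior.restrict E`), and there `(⌊t/σ⌋, ⌊D.y/σ⌋, ⌊D.x/a⌋) = k7pPc W g σ a z` (unfold; `if_pos`; `G.2.2.1 = ⌊Y0/g⌋`).
The inequality is `hcard` divided by `p_G.toReal > 0` (`k7pC`). -/
theorem k7p_data_supp (W : K7aLn) {N K d S χ g σ a K1 : ℝ} {Ms Ws : Finset ℝ} (hW : W.Ok N K d S Ms Ws) {E : Set (W.L × ℝ)} (hE : MeasurableSet E) (hEs : E ⊆ W.Ev0)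
    (G : ℤ × ℤ × ℤ × ℤ) (hp : k7pPG W χ g G ≠ 0) (Sf : Finset (ℤ × ℤ × ℤ)) (hSf : ∀ z ∈ W.Ev0, k7pGrp W χ g z.1 = G → k7pPc W g σ a z ∈ Sf)
    (hcard : (Sf.card : ℝ) * σ ^ 2 * (χ * g * (W.palχ χ G.1).toReal * a ^ d) ≤ K1 * (k7pPG W χ g G).toReal) :
    (k7pData W E χ g G).Supp K1 σ (k7pC W χ g G) d a := by
  have := hW.prob
  have mGs := k7p_gs_meas W hW χ g G
  have hpt : k7pPG W χ g G ≠ ⊤ := measure_ne_top _ _
  have hp0 : 0 < (k7pPG W χ g G).toReal := ENNReal.toReal_pos hp hpt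
  refine ⟨Sf, ?_, ?_⟩
  · simp only [k7pData]
    refine Measure.ae_smul_measure ?_ _
    rw [ae_restrict_iff' (mGs.prod MeasurableSet.univ)]
    unfold K7aLn.law
    rw [ae_restrict_iff' hE]
    refine Filter.Eventually.of_forall fun z hzE hzG => ?_
    have hl : z.1 ∈ k7pGs W χ g G := hzG.1
    have hgr : k7pGrp W χ g z.1 = G := hl.2
    have h1 := hSf z (hEs hzE) hgr
    have e1 : G.2.2.1 = ⌊W.Y0 z.1 / g⌋ := by rw [← hgr]; rfl
    have e2 : G.2.2.2 = ⌊W.Y1 z.1 / g⌋ := by rw [← hgr]; rfl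
    simp only [K7aData.y, K7aData.x, if_pos hl]
    rw [e1, e2]
    exact h1
  · unfold k7pC
    have e : (Sf.card : ℝ) * σ ^ 2 * (χ * g * (W.palχ χ G.1).toReal / (k7pPG W χ g G).toReal * a ^ d)
        = (Sf.card : ℝ) * σ ^ 2 * (χ * g * (W.palχ χ G.1).toReal * a ^ d) / (k7pPG W χ g G).toReal := by ring
    rw [e, div_le_iff₀ hp0]
    exact hcard

/-! ## P4. The occupied cells of one true label and one velocity bin -/

/-- the standing smallness of the meshes of Sec 7.2 -/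
structure K7pSm (K a h g χ σ : ℝ) : Prop where
  K_ge : 1 ≤ K
  a_pos : 0 < a
  a_le : a ≤ 1
  h_pos : 0 < h
  h_le : h ≤ 1
  g_pos : 0 < g
  g_le : g ≤ 1
  σ_pos : 0 < σ
  χ_pos : 0 < χ
  σ_sm : 8 * K ^ 2 * σ ≤ a * h
  χ_sm : 8 * K ^ 2 * χ ≤ a * h * g * σ

/-- the integer interval of the bins of width `w` which meet `[c - r, c + r]` -/
def k7pIv (w c r : ℝ) : Finset ℤ := Finset.Icc ⌊(c - r) / w⌋ ⌊(c + r) / w⌋

theorem k7p_iv_card (w c r : ℝ) (hw : 0 < w) (hr : 0 ≤ r) : ((k7pIv w c r).card : ℝ) ≤ 2 * r / w + 2 := by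
  unfold k7pIv
  rw [Int.card_Icc]
  have hle : ⌊(c - r) / w⌋ ≤ ⌊(c + r) / w⌋ := by
    apply Int.floor_le_floor
    apply div_le_div_of_nonneg_right _ hw.le
    linarith
  have hnn : 0 ≤ ⌊(c + r) / w⌋ + 1 - ⌊(c - r) / w⌋ := by omega
  have e : (((⌊(c + r) / w⌋ + 1 - ⌊(c - r) / w⌋).toNat : ℕ) : ℝ) = ((⌊(c + r) / w⌋ + 1 - ⌊(c - r) / w⌋ : ℤ) : ℝ) := by
    have := Int.toNat_of_nonneg hnn
    exact_mod_cast this
  rw [e]
  push_cast
  have a1 := Int.floor_le ((c + r) / w)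
  have a2 := Int.lt_floor_add_one ((c - r) / w)
  have e2 : (c + r) / w - (c - r) / w = 2 * r / w := by ring
  linarith

theorem k7p_iv_mem {w c r x : ℝ} (hw : 0 < w) (hx : |x - c| ≤ r) : ⌊x / w⌋ ∈ k7pIv w c r := by
  unfold k7pIv
  rw [abs_le] at hx
  rw [Finset.mem_Icc]
  constructor <;> apply Int.floor_le_floor <;> apply div_le_div_of_nonneg_right _ hw.le <;> linarith

theorem k7p_card_biUnion {α β : Type} [DecidableEq β] (s : Finset α) (t : α → Finset β) {n m : ℝ} (hs : (s.card : ℝ) ≤ n)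
    (ht : ∀ a ∈ s, ((t a).card : ℝ) ≤ m) (hm : 0 ≤ m) : ((s.biUnion t).card : ℝ) ≤ n * m := by
  calc ((s.biUnion t).card : ℝ) ≤ ((∑ a ∈ s, (t a).card : ℕ) : ℝ) := by exact_mod_cast Finset.card_biUnion_le
    _ = ∑ a ∈ s, ((t a).card : ℝ) := by push_cast; rfl
    _ ≤ ∑ _a ∈ s, m := Finset.sum_le_sum ht
    _ = (s.card : ℝ) * m := by rw [Finset.sum_const, nsmul_eq_mul]
    _ ≤ n * m := mul_le_mul_of_nonneg_right hs hm

theorem k7p_card_image {α β : Type} [DecidableEq β] (s : Finset α) (f : α → β) {n : ℝ} (hs : (s.card : ℝ) ≤ n) : ((s.image f).card : ℝ) ≤ n := by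
  refine le_trans ?_ hs
  exact_mod_cast Finset.card_image_le

theorem k7p_pt_facts {W : K7aW} {N K d S a h g : ℝ} {Ms Ws : Finset ℝ} (hW : W.Ok N K d S a h g Ms Ws) {p : W.L × ℝ} (hp : p ∈ W.Ev0) :
    W.labQ p ∈ W.Qa ∧ p.1 ∈ W.asg (W.labQ p) ∧ p.2 ∈ W.blk (W.labQ p) ∧ p.1 ∈ W.Sp ∧ p.2 ∈ Set.Icc (0 : ℝ) 1 := by
  obtain ⟨h1, h2⟩ := hW.lab p hp
  have h3 := hW.ln.Ev0_sub hp
  exact ⟨h1, h2.1, h2.2, h3.1, h3.2⟩

theorem k7p_tQ_facts {W : K7aW} {N K d S a h g : ℝ} {Ms Ws : Finset ℝ} (hW : W.Ok N K d S a h g Ms Ws) {Q : W.Q} (hQ : Q ∈ W.Qa) :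
    0 < W.q ∧ (W.iv Q : ℝ) * W.q ∈ W.blk Q ∧ 0 ≤ (W.iv Q : ℝ) * W.q ∧ (W.iv Q : ℝ) * W.q ≤ 1 := by
  have hq : 0 < W.q := by
    unfold K7aW.q
    positivity
  have hq2 : W.q * 2 ^ W.lev = 1 := by
    unfold K7aW.q
    rw [← mul_pow]
    norm_num
  have hiv : (W.iv Q : ℝ) < 2 ^ W.lev := by exact_mod_cast hW.iv_lt Q hQ
  refine ⟨hq, ⟨le_rfl, ?_⟩, by positivity, ?_⟩
  · nlinarith
  · nlinarith

theorem k7p_bin_facts {χ x : ℝ} {m : ℤ} (h : kbBin χ x = m) : 0 ≤ x - m * kbDy χ ∧ x - m * kbDy χ < kbDy χ := by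
  have := (k7wc_bin_iff χ x m).mp h
  unfold k7aBinI at this
  obtain ⟨h1, h2⟩ := this
  constructor <;> linarith

theorem k7p_fl_facts {g : ℝ} (hg : 0 < g) (x : ℝ) : 0 ≤ x - ⌊x / g⌋ * g ∧ x - ⌊x / g⌋ * g < g := by
  have h1 := Int.floor_le (x / g)
  have h2 := Int.lt_floor_add_one (x / g)
  rw [le_div_iff₀ hg] at h1
  rw [div_lt_iff₀ hg] at h2
  constructor <;> linarith

theorem k7p_mul_unit {x t b : ℝ} (hx0 : 0 ≤ x) (hxb : x ≤ b) (ht1 : t ≤ 1) : x * t ≤ b :=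
  (mul_le_of_le_one_right hx0 ht1).trans hxb

/-- consequences of the standing smallness -/
theorem k7p_sm_facts {K a h g χ σ : ℝ} (hs : K7pSm K a h g χ σ) :
    0 < K ∧ 8 * K * σ ≤ a * h ∧ a * h ≤ h ∧ σ ≤ h ∧ σ ≤ 1 ∧ 8 * K * χ ≤ a * h * g * σ ∧ a * h * g * σ ≤ a * h * g ∧ a * h * g ≤ h * g ∧ h * g ≤ g ∧ h * g ≤ h := by
  obtain ⟨hK, ha0, ha1, hh0, hh1, hg0, hg1, hσ0, hχ0, hσs, hχs⟩ := hs
  have hK0 : 0 < K := by linarith
  have hKK : K ≤ K ^ 2 := by nlinarith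
  have h1 : 8 * K * σ ≤ a * h := by
    have := mul_le_mul_of_nonneg_right hKK hσ0.le
    linarith
  have h2 : a * h ≤ h := mul_le_of_le_one_left hh0.le ha1
  have h3 : σ ≤ K * σ := le_mul_of_one_le_left hσ0.le hK
  have h4 : σ ≤ h := by linarith
  have h5 : σ ≤ 1 := by linarith
  have h6 : 8 * K * χ ≤ a * h * g * σ := by
    have := mul_le_mul_of_nonneg_right hKK hχ0.le
    linarith
  have h7 : a * h * g * σ ≤ a * h * g := mul_le_of_le_one_right (by positivity) h5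
  have h8 : a * h * g ≤ h * g := mul_le_mul_of_nonneg_right h2 hg0.le
  have h9 : h * g ≤ g := mul_le_of_le_one_left hg0.le hh1
  have h10 : h * g ≤ h := mul_le_of_le_one_right hh0.le hg1
  exact ⟨hK0, h1, h2, h4, h5, h6, h7, h8, h9, h10⟩

theorem k7p_abs_mul_le {x y a b : ℝ} (hx : |x| ≤ a) (hy : |y| ≤ b) : |x * y| ≤ a * b := by
  rw [abs_mul]
  exact mul_le_mul hx hy (abs_nonneg _) ((abs_nonneg _).trans hx)

/-- **L-252-S7p-P4a** (07 l.365-371).  The groups compatible with `(Q, mv)`.   `tQ = iv Q * q`, `χ' = kbDy χ`.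
PROOF.  Let `p = (l,t) ∈ Ev0`, `labQ p = Q`, `kbBin χ v = mv`; then `l ∈ asg Q`, `t ∈ blk Q = [tQ, tQ + q)` (`hW.lab`), `tQ ∈ blk Q`, `0 ≤ tQ ≤ 1`, `q ≤ K h`, `l ∈ Sp`: all coefficients `≤ K`; `0 ≤ v - mv χ' < χ' < 2χ`.
 (z)  `Z0 = Z(tQ) - v tQ`, `|Z(tQ) - Zc| ≤ K h` (`hW.box` at `tQ`), `|v tQ - mv χ' tQ| ≤ 2χ` : `|Z0 - (Zc - mv χ' tQ)| ≤ K h + 2χ ≤ 2 K h`: `kbBin χ Z0` takes `≤ 4 K h/χ' + 2 ≤ 6 K h/χ` values.
 (γ1) `|Y1 - (r1 + r2 mv χ')| ≤ K g + 2 K χ ≤ (K+1) g` (`hW.slope`, `row_bd`): `≤ 2K + 4` values.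
 (γ0) `Y0 = Y(tQ) - Y1 tQ`; `|Y(tQ) - YQ(tQ, Z(tQ))| ≤ K h g`; `|Z(tQ) - (zz χ' + mv χ' tQ)| ≤ 2χ' ≤ 4χ`; `|Y1 tQ - γ1 g tQ| ≤ g` : `|Y0 - (YQ Q tQ (zz χ' + mv χ' tQ) - γ1 g tQ)| ≤ K g + 4Kχ + g ≤ (K+2) g`: `≤ 2K + 6` values for each `(zz, γ1)`.
`T := (Icc ..).biUnion fun zz => (Icc ..).biUnion fun γ1 => (Icc ..).image fun γ0 => (zz, γ0, γ1)`; `Finset.card_biUnion_le`, `Int.card_Icc`. -/
theorem k7p_loc_grp : ∃ (C : ℝ) (c : ℕ), 1 ≤ C ∧ ∀ (W : K7aW) (N K d S a h g χ σ : ℝ) (Ms Ws : Finset ℝ), W.Ok N K d S a h g Ms Ws → K7pSm K a h g χ σ →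
    ∀ Q ∈ W.Qa, ∀ mv : ℤ, ∃ T : Finset (ℤ × ℤ × ℤ), (T.card : ℝ) ≤ C * K ^ c * (h / χ) ∧
      ∀ p ∈ W.Ev0, W.labQ p = Q → kbBin χ (W.v p.1) = mv → (k7pGrp W.toK7aLn χ g p.1).2 ∈ T := by
  refine ⟨280, 3, by norm_num, ?_⟩
  intro W N K d S a h g χ σ Ms Ws hW hs Q hQ mv
  classical
  obtain ⟨hK0, f1, f2, f3, f4, f5, f6, f7, f8, f9⟩ := k7p_sm_facts hs
  obtain ⟨hK, ha0, ha1, hh0, hh1, hg0, hg1, hσ0, hχ0, hσs, hχs⟩ := hs
  obtain ⟨hD0, hD1, hD2⟩ := k7wc_dy hχ0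
  obtain ⟨hq0, htQb, htQ0, htQ1⟩ := k7p_tQ_facts hW hQ
  generalize hDdef : kbDy χ = D at hD0 hD1 hD2
  generalize htQdef : (W.iv Q : ℝ) * W.q = tQ at htQb htQ0 htQ1
  have h8 : 8 * K * χ ≤ g := by linarith
  have hχK : χ ≤ K * χ := le_mul_of_one_le_left hχ0.le hK
  have hχh : χ ≤ h := by linarith
  have hhχ : 1 ≤ h / χ := by rwa [le_div_iff₀ hχ0, one_mul]
  refine ⟨(k7pIv D (W.Zc Q - mv * D * tQ) (K * h + 2 * χ)).biUnion fun zz =>
      (k7pIv g (W.r1 Q + W.r2 Q * (mv * D)) (K * g + 2 * K * χ)).biUnion fun γ1 =>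
        (k7pIv g (W.YQ Q tQ (zz * D + mv * D * tQ) - γ1 * g * tQ) (K * (h * g) + 4 * K * χ + g)).image fun γ0 => (zz, γ0, γ1), ?_, ?_⟩
  · have c1 : ((k7pIv D (W.Zc Q - mv * D * tQ) (K * h + 2 * χ)).card : ℝ) ≤ 8 * K * (h / χ) := by
      refine (k7p_iv_card _ _ _ hD0 (by positivity)).trans ?_
      have e1 : 2 * (K * h + 2 * χ) / D ≤ 2 * (K * h + 2 * χ) / χ := by gcongr
      have e2 : 2 * (K * h + 2 * χ) / χ = 2 * K * (h / χ) + 4 := by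
        field_simp
        ring
      have e3 : 1 ≤ K * (h / χ) := one_le_mul_of_one_le_of_one_le hK hhχ
      linarith
    have c2 : ((k7pIv g (W.r1 Q + W.r2 Q * (mv * D)) (K * g + 2 * K * χ)).card : ℝ) ≤ 5 * K := by
      refine (k7p_iv_card _ _ _ hg0 (by positivity)).trans ?_
      have e2 : 2 * (K * g + 2 * K * χ) / g = 2 * K + 4 * K * χ / g := by
        field_simp
        ring
      have e3 : 4 * K * χ / g ≤ 1 := by
        rw [div_le_one hg0]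
        have : 0 ≤ K * χ := by positivity
        linarith
      linarith
    have c3 : ∀ zz γ1 : ℤ, ((k7pIv g (W.YQ Q tQ (zz * D + mv * D * tQ) - γ1 * g * tQ) (K * (h * g) + 4 * K * χ + g)).card : ℝ) ≤ 7 * K := by
      intro zz γ1
      refine (k7p_iv_card _ _ _ hg0 (by positivity)).trans ?_
      have e2 : 2 * (K * (h * g) + 4 * K * χ + g) / g = 2 * K * h + 8 * K * χ / g + 2 := by
        field_simp
        ring
      have e3 : 8 * K * χ / g ≤ 1 := by rwa [div_le_one hg0]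
      have e4 : K * h ≤ K := mul_le_of_le_one_right hK0.le hh1
      linarith
    have := k7p_card_biUnion _ (fun zz : ℤ =>
      (k7pIv g (W.r1 Q + W.r2 Q * (mv * D)) (K * g + 2 * K * χ)).biUnion fun γ1 =>
        (k7pIv g (W.YQ Q tQ (zz * D + mv * D * tQ) - γ1 * g * tQ) (K * (h * g) + 4 * K * χ + g)).image fun γ0 => (zz, γ0, γ1)) c1
      (fun zz _ => k7p_card_biUnion _ _ c2 (fun γ1 _ => k7p_card_image _ _ (c3 zz γ1)) (by positivity)) (by positivity)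
    refine this.trans (le_of_eq ?_)
    ring
  · intro p hp hlab hv
    obtain ⟨_, hl, ht, hSp, ht01⟩ := k7p_pt_facts hW hp
    rw [hlab] at hl ht
    obtain ⟨bZ0, bv, bY0, bY1, _⟩ := hW.ln.bd p.1 hSp
    obtain ⟨bZc, br0, br1, br2⟩ := hW.row_bd Q hQ
    obtain ⟨hbox1, hbox2⟩ := hW.box Q hQ p.1 hl tQ htQb
    have hslope := hW.slope Q hQ p.1 hl
    obtain ⟨hδ0, hδ1⟩ := k7p_bin_facts hv
    obtain ⟨hζ0, hζ1⟩ := k7p_bin_facts (rfl : kbBin χ (W.Z0 p.1) = kbBin χ (W.Z0 p.1))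
    obtain ⟨hy0, hy1⟩ := k7p_fl_facts hg0 (W.Y1 p.1)
    rw [hDdef] at hδ0 hδ1 hζ0 hζ1
    unfold K7aLn.Z at hbox1 hbox2
    unfold K7aLn.Y K7aW.YQ at hbox2
    show (kbBin χ (W.Z0 p.1), ⌊W.Y0 p.1 / g⌋, ⌊W.Y1 p.1 / g⌋) ∈ _
    have hbz : kbBin χ (W.Z0 p.1) = ⌊W.Z0 p.1 / D⌋ := by
      unfold kbBin
      rw [hDdef]
    generalize W.Z0 p.1 = Z0 at *
    generalize W.v p.1 = v at *
    generalize W.Y0 p.1 = Y0 at *
    generalize W.Y1 p.1 = Y1 at *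
    have hδt0 : 0 ≤ (v - mv * D) * tQ := mul_nonneg hδ0 htQ0
    have hδt1 : (v - mv * D) * tQ ≤ D := k7p_mul_unit hδ0 hδ1.le htQ1
    have hKD : K * D ≤ 2 * K * χ := by
      have := mul_le_mul_of_nonneg_left hD2.le hK0.le
      linarith
    refine Finset.mem_biUnion.mpr ⟨kbBin χ Z0, ?_, Finset.mem_biUnion.mpr ⟨⌊Y1 / g⌋, ?_, Finset.mem_image.mpr ⟨⌊Y0 / g⌋, ?_, rfl⟩⟩⟩
    · rw [hbz]
      apply k7p_iv_mem hD0
      rw [abs_le] at hbox1 ⊢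
      constructor <;> linarith [hbox1.1, hbox1.2]
    · apply k7p_iv_mem hg0
      have h1 : |W.r2 Q * (v - mv * D)| ≤ K * D := k7p_abs_mul_le br2 (abs_le.mpr ⟨by linarith, hδ1.le⟩)
      rw [abs_le] at hslope h1 ⊢
      constructor <;> linarith [hslope.1, hslope.2, h1.1, h1.2]
    · apply k7p_iv_mem hg0
      unfold K7aW.YQ
      have h1 : |W.r2 Q * ((Z0 - kbBin χ Z0 * D) + (v - mv * D) * tQ)| ≤ K * (2 * D) :=
        k7p_abs_mul_le br2 (abs_le.mpr ⟨by linarith, by linarith⟩)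
      have h2 : 0 ≤ (Y1 - ⌊Y1 / g⌋ * g) * tQ := mul_nonneg hy0 htQ0
      have h3 : (Y1 - ⌊Y1 / g⌋ * g) * tQ ≤ g := k7p_mul_unit hy0 hy1.le htQ1
      rw [abs_le] at hbox2 h1 ⊢
      constructor <;> linarith [hbox2.1, hbox2.2, h1.1, h1.2]

/-- **L-252-S7p-P4b** (07 l.371-374).  The `(t, y)`-cells of one label in one group.
PROOF.  `p = (l,t)` as in P4a with `k7pGrp l = G = (mv, zz, γ0, γ1)`.   `i = ⌊t/σ⌋ ∈ Icc ⌊tQ/σ⌋ ⌊(tQ+q)/σ⌋`: `≤ q/σ + 2 ≤ 3 K h/σ` values.   For fixed `i`: `g y(t) = Y(t) - γ0 g - γ1 g t`, `|Y(t) - YQ(t, Z(t))| ≤ K h g`, `|Z(t) - (zz χ' + mv χ' t)| ≤ 4χ`, so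
`|g y(t) - (e0 + e1 t)| ≤ K h g + 4 K χ` with `e0 = r0 + r2 zz χ' - γ0 g`, `e1 = r1 + r2 mv χ' - γ1 g`, `|e1| ≤ K g + 2Kχ + g ≤ (K+2) g`; `|t - iσ| ≤ σ`: `|y(t) - (e0 + e1 iσ)/g| ≤ K h + 4Kχ/g + (K+2)σ ≤ (2K+3) h`... `≤ 2(2K+3)h/σ + 2` values of `j`. -/
theorem k7p_loc_ij : ∃ (C : ℝ) (c : ℕ), 1 ≤ C ∧ ∀ (W : K7aW) (N K d S a h g χ σ : ℝ) (Ms Ws : Finset ℝ), W.Ok N K d S a h g Ms Ws → K7pSm K a h g χ σ →
    ∀ Q ∈ W.Qa, ∀ G : ℤ × ℤ × ℤ × ℤ, ∃ T : Finset (ℤ × ℤ), (T.card : ℝ) ≤ C * K ^ c * (h / σ) ^ 2 ∧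
      ∀ p ∈ W.Ev0, W.labQ p = Q → k7pGrp W.toK7aLn χ g p.1 = G → ((k7pPc W.toK7aLn g σ a p).1, (k7pPc W.toK7aLn g σ a p).2.1) ∈ T := by
  refine ⟨24, 2, by norm_num, ?_⟩
  intro W N K d S a h g χ σ Ms Ws hW hs Q hQ G
  classical
  obtain ⟨mv, zz, γ0, γ1⟩ := G
  obtain ⟨hK0, f1, f2, f3, f4, f5, f6, f7, f8, f9⟩ := k7p_sm_facts hs
  obtain ⟨hK, ha0, ha1, hh0, hh1, hg0, hg1, hσ0, hχ0, hσs, hχs⟩ := hs
  obtain ⟨hD0, hD1, hD2⟩ := k7wc_dy hχ0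
  obtain ⟨hq0, htQb, htQ0, htQ1⟩ := k7p_tQ_facts hW hQ
  have hqh := hW.q_hi
  generalize hDdef : kbDy χ = D at hD0 hD1 hD2
  have h8 : 8 * K * χ ≤ h * g := by linarith
  have hhσ : 1 ≤ h / σ := by rwa [le_div_iff₀ hσ0, one_mul]
  have hKσ : 8 * K * σ ≤ h := by linarith
  have hKhσ : 1 ≤ K * (h / σ) := one_le_mul_of_one_le_of_one_le hK hhσ
  refine ⟨(k7pIv σ ((W.iv Q : ℝ) * W.q + W.q / 2) (W.q / 2)).biUnion fun i =>
      (k7pIv σ (((W.r0 Q + W.r2 Q * (zz * D) - γ0 * g) + (W.r1 Q + W.r2 Q * (mv * D) - γ1 * g) * (i * σ)) / g) (3 * K * h)).image fun j => (i, j), ?_, ?_⟩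
  · have c1 : ((k7pIv σ ((W.iv Q : ℝ) * W.q + W.q / 2) (W.q / 2)).card : ℝ) ≤ 3 * K * (h / σ) := by
      refine (k7p_iv_card _ _ _ hσ0 (by positivity)).trans ?_
      have e1 : 2 * (W.q / 2) / σ = W.q / σ := by ring
      have e2 : W.q / σ ≤ K * h / σ := by gcongr
      have e3 : K * h / σ = K * (h / σ) := by ring
      linarith
    have c2 : ∀ i : ℤ, ((k7pIv σ (((W.r0 Q + W.r2 Q * (zz * D) - γ0 * g) + (W.r1 Q + W.r2 Q * (mv * D) - γ1 * g) * (i * σ)) / g) (3 * K * h)).card : ℝ)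
        ≤ 8 * K * (h / σ) := by
      intro i
      refine (k7p_iv_card _ _ _ hσ0 (by positivity)).trans ?_
      have e1 : 2 * (3 * K * h) / σ = 6 * K * (h / σ) := by ring
      linarith
    have := k7p_card_biUnion _ (fun i : ℤ =>
      (k7pIv σ (((W.r0 Q + W.r2 Q * (zz * D) - γ0 * g) + (W.r1 Q + W.r2 Q * (mv * D) - γ1 * g) * (i * σ)) / g) (3 * K * h)).image fun j => (i, j)) c1
      (fun i _ => k7p_card_image _ _ (c2 i)) (by positivity)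
    refine this.trans (le_of_eq ?_)
    ring
  · intro p hp hlab hG
    obtain ⟨_, hl, ht, hSp, ht01⟩ := k7p_pt_facts hW hp
    rw [hlab] at hl ht
    obtain ⟨bZc, br0, br1, br2⟩ := hW.row_bd Q hQ
    obtain ⟨hbox1, hbox2⟩ := hW.box Q hQ p.1 hl p.2 ht
    have hslope := hW.slope Q hQ p.1 hl
    have hv : kbBin χ (W.v p.1) = mv := congrArg Prod.fst hG
    have hz : kbBin χ (W.Z0 p.1) = zz := congrArg (fun x => x.2.1) hG
    have h0 : ⌊W.Y0 p.1 / g⌋ = γ0 := congrArg (fun x => x.2.2.1) hG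
    have h1 : ⌊W.Y1 p.1 / g⌋ = γ1 := congrArg (fun x => x.2.2.2) hG
    obtain ⟨hδ0, hδ1⟩ := k7p_bin_facts hv
    obtain ⟨hζ0, hζ1⟩ := k7p_bin_facts hz
    obtain ⟨hy0, hy1⟩ := k7p_fl_facts hg0 (W.Y1 p.1)
    obtain ⟨hs0, hs1⟩ := k7p_fl_facts hσ0 p.2
    rw [hDdef] at hδ0 hδ1 hζ0 hζ1
    rw [h1] at hy0 hy1
    unfold K7aLn.Z at hbox2
    unfold K7aLn.Y K7aW.YQ at hbox2
    unfold K7aW.blk at ht
    show (⌊p.2 / σ⌋, ⌊((W.Y0 p.1 / g - ⌊W.Y0 p.1 / g⌋) + (W.Y1 p.1 / g - ⌊W.Y1 p.1 / g⌋) * p.2) / σ⌋) ∈ _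
    rw [h0, h1]
    obtain ⟨ht0, ht1⟩ := ht01
    generalize W.Z0 p.1 = Z0 at *
    generalize W.v p.1 = v at *
    generalize W.Y0 p.1 = Y0 at *
    generalize W.Y1 p.1 = Y1 at *
    generalize p.2 = t at *
    refine Finset.mem_biUnion.mpr ⟨⌊t / σ⌋, ?_, Finset.mem_image.mpr ⟨_, ?_, rfl⟩⟩
    · apply k7p_iv_mem hσ0
      rw [abs_le]
      constructor <;> linarith [ht.1, ht.2]
    · apply k7p_iv_mem hσ0
      have hδt0 : 0 ≤ (v - mv * D) * t := mul_nonneg hδ0 ht0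
      have hδt1 : (v - mv * D) * t ≤ D := k7p_mul_unit hδ0 hδ1.le ht1
      have hKD : K * D ≤ 2 * K * χ := by
        have := mul_le_mul_of_nonneg_left hD2.le hK0.le
        linarith
      have g1 : |W.r2 Q * ((Z0 - zz * D) + (v - mv * D) * t)| ≤ K * (2 * D) :=
        k7p_abs_mul_le br2 (abs_le.mpr ⟨by linarith, by linarith⟩)
      have g2 : |W.r2 Q * (v - mv * D)| ≤ K * D := k7p_abs_mul_le br2 (abs_le.mpr ⟨by linarith, hδ1.le⟩)
      have g3 : |W.r1 Q + W.r2 Q * (mv * D) - γ1 * g| ≤ K * g + K * D + g := by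
        rw [abs_le] at hslope g2 ⊢
        constructor <;> linarith [hslope.1, hslope.2, g2.1, g2.2]
      have g4 : |(W.r1 Q + W.r2 Q * (mv * D) - γ1 * g) * (t - ⌊t / σ⌋ * σ)| ≤ (K * g + K * D + g) * σ :=
        k7p_abs_mul_le g3 (abs_le.mpr ⟨by linarith, hs1.le⟩)
      have hgK : g ≤ K * g := le_mul_of_one_le_left hg0.le hK
      have hhgK : h * g ≤ K * (h * g) := le_mul_of_one_le_left (by positivity) hK
      have g5 : (K * g + K * D + g) * σ ≤ K * (h * g) := by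
        have e1 : K * g + K * D + g ≤ 3 * K * g := by linarith
        have e2 : (K * g + K * D + g) * σ ≤ 3 * K * g * σ := mul_le_mul_of_nonneg_right e1 hσ0.le
        have e3 : 8 * K * σ * g ≤ h * g := mul_le_mul_of_nonneg_right hKσ hg0.le
        have e4 : 0 ≤ K * g * σ := by positivity
        linarith
      have hhg0 : 0 ≤ h * g := by positivity
      have g6 : K * (2 * D) ≤ K * (h * g) := by linarith
      have key : |((Y0 - γ0 * g) + (Y1 - γ1 * g) * t)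
          - ((W.r0 Q + W.r2 Q * (zz * D) - γ0 * g) + (W.r1 Q + W.r2 Q * (mv * D) - γ1 * g) * (⌊t / σ⌋ * σ))| ≤ 3 * K * h * g := by
        rw [abs_le] at hbox2 g1 g4 ⊢
        constructor <;> linarith [hbox2.1, hbox2.2, g1.1, g1.2, g4.1, g4.2]
      have e : (Y0 / g - γ0) + (Y1 / g - γ1) * t
          - ((W.r0 Q + W.r2 Q * (zz * D) - γ0 * g) + (W.r1 Q + W.r2 Q * (mv * D) - γ1 * g) * (⌊t / σ⌋ * σ)) / g
          = (((Y0 - γ0 * g) + (Y1 - γ1 * g) * t)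
          - ((W.r0 Q + W.r2 Q * (zz * D) - γ0 * g) + (W.r1 Q + W.r2 Q * (mv * D) - γ1 * g) * (⌊t / σ⌋ * σ))) / g := by
        field_simp
      rw [e, abs_div, abs_of_pos hg0, div_le_iff₀ hg0]
      exact key

theorem k7p_fl_close {w x x' : ℝ} (hw : 0 < w) (h : ⌊x / w⌋ = ⌊x' / w⌋) : |x - x'| ≤ w := by
  obtain ⟨h1, h2⟩ := k7p_fl_facts hw x
  obtain ⟨h1', h2'⟩ := k7p_fl_facts hw x'
  rw [← h] at h1' h2'
  rw [abs_le]
  constructor <;> linarith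

theorem k7p_osc_real {K a h g χ σ D : ℝ} (hs : K7pSm K a h g χ σ) (hD0 : 0 < D) (hD2 : D < 2 * χ)
    {t t' Z0 Z0' v v' Y0 Y0' Y1 Y1' r0 r1 r2 γ0 γ1 : ℝ}
    (ht : |t - t'| ≤ σ) (hv : |v - v'| ≤ D) (hZ : |Z0 - Z0'| ≤ D)
    (hy : |((Y0 / g - γ0) + (Y1 / g - γ1) * t) - ((Y0' / g - γ0) + (Y1' / g - γ1) * t')| ≤ σ)
    (t0 : 0 ≤ t) (t1 : t ≤ 1) (bv : |v'| ≤ K) (br : |r2| ≤ K) (hsl : |Y1' - (r1 + r2 * v')| ≤ K * g)
    (hγ0 : 0 ≤ Y1' - γ1 * g) (hγ1 : Y1' - γ1 * g < g) :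
    K * |t - t'| ≤ a * h ∧ K * |(Z0 + v * t) - (Z0' + v' * t')| ≤ a * h ∧
    K * |(Y0 + Y1 * t - (r0 + r1 * t + r2 * (Z0 + v * t))) - (Y0' + Y1' * t' - (r0 + r1 * t' + r2 * (Z0' + v' * t')))| ≤ a * (h * g) := by
  obtain ⟨hK0, f1, f2, f3, f4, f5, f6, f7, f8, f9⟩ := k7p_sm_facts hs
  obtain ⟨hK, ha0, ha1, hh0, hh1, hg0, hg1, hσ0, hχ0, hσs, hχs⟩ := hs
  have hKσ0 : 0 ≤ K * σ := by positivity
  have hKD : K * D ≤ 2 * K * χ := by
    have := mul_le_mul_of_nonneg_left hD2.le hK0.le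
    linarith
  have hahg : a * h * g ≤ a * h := mul_le_of_le_one_right (by positivity) hg1
  have habs_t : |t| ≤ 1 := abs_le.mpr ⟨by linarith, t1⟩
  have p1 : |(v - v') * t| ≤ D * 1 := k7p_abs_mul_le hv habs_t
  have hahg0 : 0 ≤ a * h * g := by positivity
  have hah0 : 0 ≤ a * h := by positivity
  refine ⟨?_, ?_, ?_⟩
  · have := mul_le_mul_of_nonneg_left ht hK0.le
    linarith
  · have p2 : |v' * (t - t')| ≤ K * σ := k7p_abs_mul_le bv ht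
    have e : (Z0 + v * t) - (Z0' + v' * t') = (Z0 - Z0') + (v - v') * t + v' * (t - t') := by ring
    have b : |(Z0 + v * t) - (Z0' + v' * t')| ≤ 2 * D + K * σ := by
      rw [e]
      rw [abs_le] at hZ p1 p2 ⊢
      constructor <;> linarith [hZ.1, hZ.2, p1.1, p1.2, p2.1, p2.2]
    have := mul_le_mul_of_nonneg_left b hK0.le
    have e2 : K * (2 * D + K * σ) = 2 * (K * D) + K ^ 2 * σ := by ring
    linarith
  · have p3 : |r2 * ((Z0 - Z0') + (v - v') * t)| ≤ K * (2 * D) := by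
      apply k7p_abs_mul_le br
      rw [abs_le] at hZ p1 ⊢
      constructor <;> linarith [hZ.1, hZ.2, p1.1, p1.2]
    have p4 : |γ1 * g - r1 - r2 * v'| ≤ g + K * g := by
      rw [abs_le] at hsl ⊢
      constructor <;> linarith [hsl.1, hsl.2]
    have p5 : |(γ1 * g - r1 - r2 * v') * (t - t')| ≤ (g + K * g) * σ := k7p_abs_mul_le p4 ht
    have p6 : |g * (((Y0 / g - γ0) + (Y1 / g - γ1) * t) - ((Y0' / g - γ0) + (Y1' / g - γ1) * t'))| ≤ g * σ :=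
      k7p_abs_mul_le (le_of_eq (abs_of_pos hg0)) hy
    have e : (Y0 + Y1 * t - (r0 + r1 * t + r2 * (Z0 + v * t))) - (Y0' + Y1' * t' - (r0 + r1 * t' + r2 * (Z0' + v' * t')))
        = g * (((Y0 / g - γ0) + (Y1 / g - γ1) * t) - ((Y0' / g - γ0) + (Y1' / g - γ1) * t'))
          + (γ1 * g - r1 - r2 * v') * (t - t') - r2 * ((Z0 - Z0') + (v - v') * t) := by
      field_simp
      ring
    have b : |(Y0 + Y1 * t - (r0 + r1 * t + r2 * (Z0 + v * t))) - (Y0' + Y1' * t' - (r0 + r1 * t' + r2 * (Z0' + v' * t')))|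
        ≤ g * σ + (g + K * g) * σ + K * (2 * D) := by
      rw [e]
      rw [abs_le] at p3 p5 p6 ⊢
      constructor <;> linarith [p3.1, p3.2, p5.1, p5.2, p6.1, p6.2]
    have := mul_le_mul_of_nonneg_left b hK0.le
    have e2 : K * (g * σ + (g + K * g) * σ + K * (2 * D)) = 2 * (K * σ * g) + K ^ 2 * σ * g + 2 * K * (K * D) := by ring
    have q1 : 8 * K * σ * g ≤ a * h * g := mul_le_mul_of_nonneg_right f1 hg0.le
    have q2 : 8 * K ^ 2 * σ * g ≤ a * h * g := mul_le_mul_of_nonneg_right hσs hg0.le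
    have q3 : K * (K * D) ≤ K * (2 * K * χ) := mul_le_mul_of_nonneg_left hKD hK0.le
    have e3 : K * (2 * K * χ) = 2 * (K ^ 2 * χ) := by ring
    have e4 : a * (h * g) = a * h * g := by ring
    linarith

/-- **L-252-S7p-P4c** (07 l.376-381).  Two prepared incidences with the same entry, group and `(t,y)`-cell have `|X - X'| ≤ (2K+1) a`.
PROOF.  `|t - t'| < σ`; same group: `|v - v'|, |Z0 - Z0'| < χ' < 2χ`; same `j`: `|y - y'| < σ`, `Y(t) = g y(t) + γ0 g + γ1 g t`.   Packet distance (sup of three):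
 `|t - t'|/h ≤ σ/h`;   `|Z - Z'| ≤ 4χ + Kσ`;   `(Y - YQ(t,Z)) - (Y' - YQ(t',Z')) = g (y - y') + (γ1 g - r1 - r2 v')(t - t') - r2 ((Z0 - Z0') + (v - v') t)`, `|γ1 g - r1 - r2 v'| ≤ g + K g` (`hW.slope` for `l'`): `≤ (K+2) g σ + 4Kχ`.
So `dist ≤ (K+2)σ/h + 4Kχ/(h g) ≤ a/K` (`K7pSm`), `≤ ρ` (`1 ≤ K ρ`, `a ≤ 1`).   `hΓ.lip p` with `z = base p` (distance `0`), `z' = base p'`;  `hΓ.fit` at `p` and `p'` (same entry; `labQ p = labQ p'` by `hΓ.lab`). -/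
theorem k7p_loc_osc {W : K7aW} {Γ : K7pGr W} {Sh : Set (ℝ → ℝ → ℝ)} {N K d S a h g χ σ ρ : ℝ} {Ms Ws : Finset ℝ} (hW : W.Ok N K d S a h g Ms Ws) (hΓ : Γ.Ok Sh K a h g ρ)
    (hs : K7pSm K a h g χ σ) {p p' : W.L × ℝ} (hp : p ∈ W.Ev0) (hp' : p' ∈ W.Ev0) (he : Γ.ent p = Γ.ent p') (hG : k7pGrp W.toK7aLn χ g p.1 = k7pGrp W.toK7aLn χ g p'.1)
    (hi : (k7pPc W.toK7aLn g σ a p).1 = (k7pPc W.toK7aLn g σ a p').1) (hj : (k7pPc W.toK7aLn g σ a p).2.1 = (k7pPc W.toK7aLn g σ a p').2.1) :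
    |W.X p.1 p.2 - W.X p'.1 p'.2| ≤ (2 * K + 1) * a := by
  have hs' := hs
  obtain ⟨hK0, f1, f2, f3, f4, f5, f6, f7, f8, f9⟩ := k7p_sm_facts hs
  obtain ⟨hK, ha0, ha1, hh0, hh1, hg0, hg1, hσ0, hχ0, hσs, hχs⟩ := hs
  obtain ⟨hD0, hD1, hD2⟩ := k7wc_dy hχ0
  obtain ⟨hQ, hl, ht, hSp, ht01⟩ := k7p_pt_facts hW hp
  obtain ⟨hQ', hl', ht', hSp', ht01'⟩ := k7p_pt_facts hW hp'
  have hlab : W.labQ p' = W.labQ p := by rw [← hΓ.lab p hp, ← hΓ.lab p' hp', he]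
  rw [hlab] at hl' ht'
  obtain ⟨_, bv', _, _, _⟩ := hW.ln.bd p'.1 hSp'
  obtain ⟨_, _, _, br2⟩ := hW.row_bd _ hQ
  have hslope := hW.slope _ hQ p'.1 hl'
  have hv : ⌊W.v p.1 / kbDy χ⌋ = ⌊W.v p'.1 / kbDy χ⌋ := congrArg Prod.fst hG
  have hz : ⌊W.Z0 p.1 / kbDy χ⌋ = ⌊W.Z0 p'.1 / kbDy χ⌋ := congrArg (fun x => x.2.1) hG
  have h0 : ⌊W.Y0 p.1 / g⌋ = ⌊W.Y0 p'.1 / g⌋ := congrArg (fun x => x.2.2.1) hG
  have h1 : ⌊W.Y1 p.1 / g⌋ = ⌊W.Y1 p'.1 / g⌋ := congrArg (fun x => x.2.2.2) hG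
  have hi' : ⌊p.2 / σ⌋ = ⌊p'.2 / σ⌋ := hi
  have hj' : ⌊((W.Y0 p.1 / g - ⌊W.Y0 p.1 / g⌋) + (W.Y1 p.1 / g - ⌊W.Y1 p.1 / g⌋) * p.2) / σ⌋
      = ⌊((W.Y0 p'.1 / g - ⌊W.Y0 p'.1 / g⌋) + (W.Y1 p'.1 / g - ⌊W.Y1 p'.1 / g⌋) * p'.2) / σ⌋ := hj
  rw [← h0, ← h1] at hj'
  obtain ⟨hy0, hy1⟩ := k7p_fl_facts hg0 (W.Y1 p'.1)
  rw [← h1] at hy0 hy1
  obtain ⟨C1, C2, C3⟩ := k7p_osc_real (r0 := W.r0 (W.labQ p)) hs' hD0 hD2 (k7p_fl_close hσ0 hi') (k7p_fl_close hD0 hv) (k7p_fl_close hD0 hz)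
    (k7p_fl_close hσ0 hj') ht01.1 ht01.2 bv' br2 hslope hy0 hy1
  have hdist : dist (k7pPk W h g (W.labQ p) (W.base p)) (k7pPk W h g (W.labQ p) (W.base p')) ≤ a / K := by
    have hhg0 : 0 < h * g := by positivity
    rw [Prod.dist_eq, Prod.dist_eq]
    refine max_le ?_ (max_le ?_ ?_)
    · show dist ((p.2 - (W.iv (W.labQ p) : ℝ) * W.q) / h) ((p'.2 - (W.iv (W.labQ p) : ℝ) * W.q) / h) ≤ a / K
      rw [Real.dist_eq, ← sub_div, abs_div, abs_of_pos hh0, div_le_div_iff₀ hh0 hK0]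
      have e : p.2 - (W.iv (W.labQ p) : ℝ) * W.q - (p'.2 - (W.iv (W.labQ p) : ℝ) * W.q) = p.2 - p'.2 := by ring
      rw [e]
      linarith
    · show dist ((W.Z p.1 p.2 - W.Zc (W.labQ p)) / h) ((W.Z p'.1 p'.2 - W.Zc (W.labQ p)) / h) ≤ a / K
      rw [Real.dist_eq, ← sub_div, abs_div, abs_of_pos hh0, div_le_div_iff₀ hh0 hK0]
      have e : W.Z p.1 p.2 - W.Zc (W.labQ p) - (W.Z p'.1 p'.2 - W.Zc (W.labQ p))
          = (W.Z0 p.1 + W.v p.1 * p.2) - (W.Z0 p'.1 + W.v p'.1 * p'.2) := by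
        unfold K7aLn.Z
        ring
      rw [e]
      linarith
    · show dist ((W.Y p.1 p.2 - W.YQ (W.labQ p) p.2 (W.Z p.1 p.2)) / (h * g)) ((W.Y p'.1 p'.2 - W.YQ (W.labQ p) p'.2 (W.Z p'.1 p'.2)) / (h * g)) ≤ a / K
      rw [Real.dist_eq, ← sub_div, abs_div, abs_of_pos hhg0, div_le_div_iff₀ hhg0 hK0]
      unfold K7aLn.Y K7aW.YQ K7aLn.Z
      linarith
  have haK : a / K ≤ ρ := by
    rw [div_le_iff₀ hK0]
    have := hΓ.ρ_lo
    linarith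
  have hmem : W.base p ∈ k7pNb W h g ρ p := by
    show dist _ _ ≤ ρ
    rw [dist_self]
    exact hΓ.ρ_pos.le
  have hmem' : W.base p' ∈ k7pNb W h g ρ p := by
    show dist _ _ ≤ ρ
    rw [dist_comm]
    exact hdist.trans haK
  have hlip := hΓ.lip p hp _ hmem _ hmem'
  have hfit := hΓ.fit p hp
  have hfit' := hΓ.fit p' hp'
  rw [← he] at hfit'
  have hKd : K * dist (k7pPk W h g (W.labQ p) (W.base p)) (k7pPk W h g (W.labQ p) (W.base p')) ≤ a := by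
    have := mul_le_mul_of_nonneg_left hdist hK0.le
    have e : K * (a / K) = a := by field_simp
    linarith
  rw [abs_le] at hlip hfit hfit' ⊢
  constructor <;> linarith [hlip.1, hlip.2, hfit.1, hfit.2, hfit'.1, hfit'.2]

/-- **L-252-S7p-P4d** (07 l.376-383).  All occupied (group, cell) pairs of `(Q, mv)`.
PROOF.  `k7p_loc_grp` (`T₁`), for each `x ∈ T₁` `k7p_loc_ij` at `G = (mv, x)` (`T₂ x`), for each `(x, ij)` and each entry `e` of `Q` (`≤ K`: `hΓ.card`, `Set.ncard`/`Finset.univ.filter`) the values `⌊X/a⌋` of the incidences with these data: by `k7p_loc_osc` they lie in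
`Icc ⌊X(p₀)/a⌋ - (2K+2) .. + (2K+2)` for any fixed such `p₀` (choose it by `Classical`; empty otherwise): `≤ 4K + 5` values.   `T` := iterated `Finset.biUnion`/`image`; `Finset.card_biUnion_le`, `Finset.card_image_le`. -/
theorem k7p_occ_Q : ∃ (C : ℝ) (c : ℕ), 1 ≤ C ∧ ∀ (W : K7aW) (Γ : K7pGr W) (Sh : Set (ℝ → ℝ → ℝ)) (N K d S a h g χ σ ρ : ℝ) (Ms Ws : Finset ℝ),
    W.Ok N K d S a h g Ms Ws → Γ.Ok Sh K a h g ρ → K7pSm K a h g χ σ →
    ∀ Q ∈ W.Qa, ∀ mv : ℤ, ∃ T : Finset ((ℤ × ℤ × ℤ) × (ℤ × ℤ × ℤ)), (T.card : ℝ) ≤ C * K ^ c * ((h / χ) * (h / σ) ^ 2) ∧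
      ∀ p ∈ W.Ev0, W.labQ p = Q → kbBin χ (W.v p.1) = mv → ((k7pGrp W.toK7aLn χ g p.1).2, k7pPc W.toK7aLn g σ a p) ∈ T := by
  obtain ⟨C₁, c₁, hC₁, H₁⟩ := k7p_loc_grp
  obtain ⟨C₂, c₂, hC₂, H₂⟩ := k7p_loc_ij
  refine ⟨8 * C₁ * C₂, c₁ + c₂ + 2, by nlinarith, ?_⟩
  intro W Γ Sh N K d S a h g χ σ ρ Ms Ws hW hΓ hs Q hQ mv
  classical
  have hK : 1 ≤ K := hs.K_ge
  have hK0 : 0 < K := by linarith
  have ha0 : 0 < a := hs.a_pos
  have hh0 := hs.h_pos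
  have hσ0 := hs.σ_pos
  have hχ0 := hs.χ_pos
  obtain ⟨T₁, hT₁c, hT₁⟩ := H₁ W N K d S a h g χ σ Ms Ws hW hs Q hQ mv
  choose T₂ hT₂c hT₂ using fun x : ℤ × ℤ × ℤ => H₂ W N K d S a h g χ σ Ms Ws hW hs Q hQ (mv, x)
  have hEc : ((Finset.univ.filter (fun e => Γ.eQ e = Q)).card : ℝ) ≤ K := by
    have h1 := hΓ.card Q
    have h2 : {e | Γ.eQ e = Q} = ((Finset.univ.filter (fun e => Γ.eQ e = Q) : Finset Γ.Ent) : Set Γ.Ent) := by
      ext e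
      simp
    rw [h2, Set.ncard_coe_finset] at h1
    exact h1
  let Pp : ℤ × ℤ × ℤ → ℤ × ℤ → Γ.Ent → Set (W.L × ℝ) := fun x ij e =>
    {p | p ∈ W.Ev0 ∧ k7pGrp W.toK7aLn χ g p.1 = (mv, x) ∧ ((k7pPc W.toK7aLn g σ a p).1, (k7pPc W.toK7aLn g σ a p).2.1) = ij ∧ Γ.ent p = e}
  let T₃ : ℤ × ℤ × ℤ → ℤ × ℤ → Γ.Ent → Finset ℤ := fun x ij e =>
    if hne : (Pp x ij e).Nonempty then k7pIv a (W.X hne.choose.1 hne.choose.2) ((2 * K + 1) * a) else ∅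
  have hT₃c : ∀ x ij e, ((T₃ x ij e).card : ℝ) ≤ 8 * K := by
    intro x ij e
    by_cases hne : (Pp x ij e).Nonempty
    · simp only [T₃, dif_pos hne]
      refine (k7p_iv_card _ _ _ ha0 (by positivity)).trans ?_
      have e1 : 2 * ((2 * K + 1) * a) / a = 4 * K + 2 := by
        field_simp
        ring
      linarith
    · simp only [T₃, dif_neg hne, Finset.card_empty, Nat.cast_zero]
      positivity
  refine ⟨T₁.biUnion fun x => (T₂ x).biUnion fun ij => (Finset.univ.filter (fun e => Γ.eQ e = Q)).biUnion fun e =>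
      (T₃ x ij e).image fun k => (x, (ij.1, ij.2, k)), ?_, ?_⟩
  · have := k7p_card_biUnion T₁ (fun x => (T₂ x).biUnion fun ij => (Finset.univ.filter (fun e => Γ.eQ e = Q)).biUnion fun e =>
      (T₃ x ij e).image fun k => (x, (ij.1, ij.2, k))) hT₁c
      (fun x _ => k7p_card_biUnion (T₂ x) _ (hT₂c x)
        (fun ij _ => k7p_card_biUnion _ _ hEc (fun e _ => k7p_card_image _ _ (hT₃c x ij e)) (by positivity)) (by positivity))
      (by positivity)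
    refine this.trans (le_of_eq ?_)
    rw [pow_add, pow_add]
    ring
  · intro p hp hlab hv
    have hgrp : k7pGrp W.toK7aLn χ g p.1 = (mv, (k7pGrp W.toK7aLn χ g p.1).2) := Prod.ext hv rfl
    have hne : (Pp (k7pGrp W.toK7aLn χ g p.1).2 ((k7pPc W.toK7aLn g σ a p).1, (k7pPc W.toK7aLn g σ a p).2.1) (Γ.ent p)).Nonempty :=
      ⟨p, hp, hgrp, rfl, rfl⟩
    refine Finset.mem_biUnion.mpr ⟨(k7pGrp W.toK7aLn χ g p.1).2, hT₁ p hp hlab hv, Finset.mem_biUnion.mpr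
      ⟨((k7pPc W.toK7aLn g σ a p).1, (k7pPc W.toK7aLn g σ a p).2.1), hT₂ _ p hp hlab hgrp, Finset.mem_biUnion.mpr
        ⟨Γ.ent p, Finset.mem_filter.mpr ⟨Finset.mem_univ _, (hΓ.lab p hp).trans hlab⟩, Finset.mem_image.mpr
          ⟨(k7pPc W.toK7aLn g σ a p).2.2, ?_, rfl⟩⟩⟩⟩
    simp only [T₃, dif_pos hne]
    obtain ⟨q1, q2, q3, q4⟩ := hne.choose_spec
    apply k7p_iv_mem ha0
    exact k7p_loc_osc hW hΓ hs hp q1 q4.symm (hgrp.trans q2.symm) (congrArg Prod.fst q3).symm (congrArg Prod.snd q3).symm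

/-! ## P5-P7. Total support, discarding of groups -/

/-- **L-252-S7p-P5** (07 l.385-389).  PROOF.  For each block index `i < 2^lev` the sets `asg Q`, `Q ∈ Qa`, `iv Q = i`, are measurable and pairwise disjoint: `∑ ν_Q ≤ 1`.  Summing over `i` (`iv_lt`): `∑_{Q ∈ Qa} ν_Q ≤ 2^lev = 1/q`.   `ν_lo`: `a^d h (h g) ≤ K ν_Q`. -/
theorem k7p_Q_card (W : K7aW) {N K d S a h g : ℝ} {Ms Ws : Finset ℝ} (hW : W.Ok N K d S a h g Ms Ws) (hK : 1 ≤ K) (ha : 0 < a) (hh : 0 < h) (hg : 0 < g) :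
    (W.Qa.ncard : ℝ) * (W.q * (a ^ d * h * (h * g))) ≤ K := by
  classical
  have hK0 : 0 ≤ K := zero_le_one.trans hK
  have := hW.ln.prob
  obtain ⟨F, hF⟩ : ∃ F : Finset W.Q, F = (Set.toFinite W.Qa).toFinset := ⟨_, rfl⟩
  have hmem : ∀ Q, Q ∈ F ↔ Q ∈ W.Qa := fun Q => by rw [hF]; exact Set.Finite.mem_toFinset _
  have hcard : W.Qa.ncard = F.card := by rw [hF]; exact Set.ncard_eq_toFinset_card _ _
  have he : 0 < a ^ d * h * (h * g) := by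
    have := Real.rpow_pos_of_pos ha d
    positivity
  -- the sum of the prior masses
  have hA : ∑ Q ∈ F, W.νQ Q ≤ (2 : ℝ≥0∞) ^ W.lev := by
    have h1 : ∑ Q ∈ F, W.νQ Q = ∑ i ∈ Finset.range (2 ^ W.lev), ∑ Q ∈ F.filter (fun Q => W.iv Q = i), W.νQ Q :=
      (Finset.sum_fiberwise_of_maps_to (fun Q hQ => Finset.mem_range.2 (hW.iv_lt Q ((hmem Q).1 hQ))) _).symm
    rw [h1]
    calc ∑ i ∈ Finset.range (2 ^ W.lev), ∑ Q ∈ F.filter (fun Q => W.iv Q = i), W.νQ Q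
        ≤ ∑ _i ∈ Finset.range (2 ^ W.lev), (1 : ℝ≥0∞) := by
          refine Finset.sum_le_sum fun i _ => ?_
          have h2 : W.ν (⋃ Q ∈ F.filter (fun Q => W.iv Q = i), W.asg Q) = ∑ Q ∈ F.filter (fun Q => W.iv Q = i), W.ν (W.asg Q) := by
            refine measure_biUnion_finset ?_ fun Q _ => hW.m_asg Q
            intro Q hQ Q' hQ' hne
            rw [Finset.mem_coe, Finset.mem_filter] at hQ hQ'
            exact hW.disj Q ((hmem Q).1 hQ.1) Q' ((hmem Q').1 hQ'.1) (hQ.2.trans hQ'.2.symm) hne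
          calc ∑ Q ∈ F.filter (fun Q => W.iv Q = i), W.νQ Q = W.ν (⋃ Q ∈ F.filter (fun Q => W.iv Q = i), W.asg Q) := h2.symm
            _ ≤ 1 := prob_le_one
      _ = (2 : ℝ≥0∞) ^ W.lev := by
          rw [Finset.sum_const, Finset.card_range, nsmul_eq_mul, mul_one]
          push_cast
          rfl
  have hB : (F.card : ℝ≥0∞) * ENNReal.ofReal (a ^ d * h * (h * g)) ≤ ENNReal.ofReal K * (2 : ℝ≥0∞) ^ W.lev := by
    calc (F.card : ℝ≥0∞) * ENNReal.ofReal (a ^ d * h * (h * g)) = ∑ _Q ∈ F, ENNReal.ofReal (a ^ d * h * (h * g)) := by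
          rw [Finset.sum_const, nsmul_eq_mul]
      _ ≤ ∑ Q ∈ F, ENNReal.ofReal K * W.νQ Q := Finset.sum_le_sum fun Q hQ => hW.ν_lo Q ((hmem Q).1 hQ)
      _ = ENNReal.ofReal K * ∑ Q ∈ F, W.νQ Q := by rw [Finset.mul_sum]
      _ ≤ _ := mul_le_mul_right hA _
  have hC : (F.card : ℝ) * (a ^ d * h * (h * g)) ≤ K * 2 ^ W.lev := by
    have e1 : (F.card : ℝ≥0∞) * ENNReal.ofReal (a ^ d * h * (h * g)) = ENNReal.ofReal ((F.card : ℝ) * (a ^ d * h * (h * g))) := by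
      rw [ENNReal.ofReal_mul (Nat.cast_nonneg _), ENNReal.ofReal_natCast]
    have e2 : ENNReal.ofReal K * (2 : ℝ≥0∞) ^ W.lev = ENNReal.ofReal (K * 2 ^ W.lev) := by
      rw [ENNReal.ofReal_mul hK0, ENNReal.ofReal_pow (by norm_num), ENNReal.ofReal_ofNat]
    rw [e1, e2, ENNReal.ofReal_le_ofReal_iff (by positivity)] at hB
    exact hB
  have hq : W.q * 2 ^ W.lev = 1 := by
    unfold K7aW.q
    rw [← mul_pow]
    norm_num
  have hq0 : 0 < W.q := by unfold K7aW.q; positivity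
  rw [hcard]
  calc (F.card : ℝ) * (W.q * (a ^ d * h * (h * g))) = W.q * ((F.card : ℝ) * (a ^ d * h * (h * g))) := by ring
    _ ≤ W.q * (K * 2 ^ W.lev) := mul_le_mul_of_nonneg_left hC hq0.le
    _ = K * (W.q * 2 ^ W.lev) := by ring
    _ = K := by rw [hq, mul_one]

theorem k7p_tsum_fib {γ α β : Type} [DecidableEq α] [DecidableEq β] (O : Finset γ) (key : γ → α) (val : γ → β) (u : α → ℝ≥0∞) :
    ∑' G, (((O.filter (fun o => key o = G)).image val).card : ℝ≥0∞) * u G ≤ ∑ o ∈ O, u (key o) := by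
  calc ∑' G, (((O.filter (fun o => key o = G)).image val).card : ℝ≥0∞) * u G
      ≤ ∑' G, ∑ o ∈ O, (if key o = G then u (key o) else 0) := by
        refine ENNReal.tsum_le_tsum fun G => ?_
        calc (((O.filter (fun o => key o = G)).image val).card : ℝ≥0∞) * u G
            ≤ ((O.filter (fun o => key o = G)).card : ℝ≥0∞) * u G := by
              gcongr
              exact Finset.card_image_le
          _ = ∑ _o ∈ O.filter (fun o => key o = G), u G := by rw [Finset.sum_const, nsmul_eq_mul]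
          _ = ∑ o ∈ O.filter (fun o => key o = G), u (key o) :=
              Finset.sum_congr rfl (fun o ho => by rw [(Finset.mem_filter.mp ho).2])
          _ = ∑ o ∈ O, (if key o = G then u (key o) else 0) := Finset.sum_filter _ _
    _ = ∑ o ∈ O, ∑' G, (if key o = G then u (key o) else 0) := Summable.tsum_finsetSum (fun _ _ => ENNReal.summable)
    _ = ∑ o ∈ O, u (key o) := by
        refine Finset.sum_congr rfl fun o _ => ?_
        rw [tsum_eq_single (key o)]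
        · simp
        · intro b hb
          simp [hb.symm]

theorem k7p_pal_sum (W : K7aLn) (χ : ℝ) (MV : Finset ℤ) : ∑ mv ∈ MV, W.palχ χ mv ≤ W.pal Set.univ := by
  unfold K7aLn.palχ
  rw [← measure_biUnion_finset]
  · exact measure_mono (Set.subset_univ _)
  · intro m _ m' _ hne
    apply Set.disjoint_left.mpr
    intro x hx hx'
    exact hne (((k7wc_bin_iff χ x m).mpr hx).symm.trans ((k7wc_bin_iff χ x m').mpr hx'))
  · intro m _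
    exact k7wc_meas_binI χ m

/-- **L-252-S7p-P6** (07 l.383-390) **the total weighted projected support**.
PROOF.  `k7p_occ_Q` gives `T Q mv`.   `MV := Finset.Icc (-n) n`, `n = ⌈K/χ⌉ + 1`, contains `kbBin χ v` for `|v| ≤ K`.   `Occ := (Qa.toFinset ×ˢ MV).biUnion fun (Q, mv) => (T Q mv).image fun x => ((mv, x.1), x.2)`;   `Sf G := (Occ.filter (·.1 = G)).image (·.2)`.
Membership: `hW.lab`, `hW.ln.Ev0_sub`, `hW.ln.bd`.   Sum: `Sf G = ∅` off the finite set `Occ.image (·.1)`, so the `tsum` is a finite sum `≤ ∑_{x ∈ Occ} ofReal (σ² χ g a^d) palχ χ x.1.1 ≤ ∑_Q ∑_{mv ∈ MV} card (T Q mv) · ofReal (..) · palχ χ mv`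
`≤ #Qa · C K^c (h/χ)(h/σ)² σ² χ g a^d · ∑_{mv} palχ χ mv`, `∑_{mv ∈ MV} palχ χ mv ≤ pal univ ≤ 1` (the dyadic bins `k7aBinI χ mv` are disjoint measurable);   `#Qa ≤ K/(q a^d h² g)` (`k7p_Q_card`), `h ≤ K q`. -/
theorem k7p_supp_total : ∃ (C : ℝ) (c : ℕ), 1 ≤ C ∧ ∀ (W : K7aW) (Γ : K7pGr W) (Sh : Set (ℝ → ℝ → ℝ)) (N K d S a h g χ σ ρ : ℝ) (Ms Ws : Finset ℝ),
    W.Ok N K d S a h g Ms Ws → Γ.Ok Sh K a h g ρ → K7pSm K a h g χ σ →
    ∃ Sf : ℤ × ℤ × ℤ × ℤ → Finset (ℤ × ℤ × ℤ), (∀ p ∈ W.Ev0, k7pPc W.toK7aLn g σ a p ∈ Sf (k7pGrp W.toK7aLn χ g p.1)) ∧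
      ∑' G, ENNReal.ofReal ((Sf G).card * σ ^ 2 * (χ * g * a ^ d)) * W.palχ χ G.1 ≤ ENNReal.ofReal (C * K ^ c) := by
  obtain ⟨C, c, hC, H⟩ := k7p_occ_Q
  refine ⟨C, c + 2, hC, ?_⟩
  intro W Γ Sh N K d S a h g χ σ ρ Ms Ws hW hΓ hs
  classical
  have hK : 1 ≤ K := hs.K_ge
  have hK0 : 0 < K := by linarith
  have ha0 : 0 < a := hs.a_pos
  have hh0 := hs.h_pos
  have hg0 := hs.g_pos
  have hσ0 := hs.σ_pos
  have hχ0 := hs.χ_pos
  have hD0 := k7wc_dy_pos χ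
  have had : 0 < a ^ d := Real.rpow_pos_of_pos ha0 d
  choose! T hTc hT using H W Γ Sh N K d S a h g χ σ ρ Ms Ws hW hΓ hs
  obtain ⟨QF, hQF⟩ : ∃ QF : Finset W.Q, QF = Finset.univ.filter (fun Q => Q ∈ W.Qa) := ⟨_, rfl⟩
  have hQFm : ∀ Q, Q ∈ QF ↔ Q ∈ W.Qa := fun Q => by rw [hQF]; simp
  have hQFc : (QF.card : ℝ) = (W.Qa.ncard : ℝ) := by
    have : W.Qa = (QF : Set W.Q) := by
      ext Q
      exact (hQFm Q).symm
    rw [this, Set.ncard_coe_finset]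
  obtain ⟨MV, hMV⟩ : ∃ MV : Finset ℤ, MV = k7pIv (kbDy χ) 0 K := ⟨_, rfl⟩
  obtain ⟨O, hO⟩ : ∃ O : Finset (Σ _ : W.Q × ℤ, (ℤ × ℤ × ℤ) × (ℤ × ℤ × ℤ)), O = (QF ×ˢ MV).sigma (fun i => T i.1 i.2) := ⟨_, rfl⟩
  refine ⟨fun G => (O.filter (fun o => ((o.1.2, o.2.1) : ℤ × ℤ × ℤ × ℤ) = G)).image (fun o => o.2.2), ?_, ?_⟩
  · intro p hp
    obtain ⟨hQ, _, _, hSp, _⟩ := k7p_pt_facts hW hp
    obtain ⟨_, bv, _, _, _⟩ := hW.ln.bd p.1 hSp
    refine Finset.mem_image.mpr ⟨⟨(W.labQ p, kbBin χ (W.v p.1)), ((k7pGrp W.toK7aLn χ g p.1).2, k7pPc W.toK7aLn g σ a p)⟩, ?_, rfl⟩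
    refine Finset.mem_filter.mpr ⟨?_, rfl⟩
    rw [hO]
    refine Finset.mem_sigma.mpr ⟨Finset.mem_product.mpr ⟨(hQFm _).mpr hQ, ?_⟩, hT _ hQ _ p hp rfl rfl⟩
    rw [hMV]
    apply k7p_iv_mem hD0
    simpa using bv
  · set w : ℝ := σ ^ 2 * (χ * g * a ^ d) with hw
    have hw0 : 0 ≤ w := by positivity
    set B : ℝ := C * K ^ c * ((h / χ) * (h / σ) ^ 2) with hB
    have hB0 : 0 ≤ B := by positivity
    have e1 : ∀ G : ℤ × ℤ × ℤ × ℤ,
        ENNReal.ofReal ((((O.filter (fun o => ((o.1.2, o.2.1) : ℤ × ℤ × ℤ × ℤ) = G)).image (fun o => o.2.2)).card : ℝ) * σ ^ 2 * (χ * g * a ^ d)) * W.palχ χ G.1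
        = (((O.filter (fun o => ((o.1.2, o.2.1) : ℤ × ℤ × ℤ × ℤ) = G)).image (fun o => o.2.2)).card : ℝ≥0∞) * (ENNReal.ofReal w * W.palχ χ G.1) := by
      intro G
      rw [mul_assoc (_ : ℝ), ← hw, ENNReal.ofReal_mul (Nat.cast_nonneg _), ENNReal.ofReal_natCast, mul_assoc]
    simp_rw [e1]
    refine (k7p_tsum_fib O (fun o => ((o.1.2, o.2.1) : ℤ × ℤ × ℤ × ℤ)) (fun o => o.2.2) (fun G => ENNReal.ofReal w * W.palχ χ G.1)).trans ?_
    rw [hO, Finset.sum_sigma]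
    have e2 : ∀ i ∈ QF ×ˢ MV, ∑ _x ∈ T i.1 i.2, ENNReal.ofReal w * W.palχ χ i.2 ≤ ENNReal.ofReal B * (ENNReal.ofReal w * W.palχ χ i.2) := by
      intro i hi
      rw [Finset.sum_const, nsmul_eq_mul]
      gcongr
      rw [← ENNReal.ofReal_natCast]
      exact ENNReal.ofReal_le_ofReal (hTc i.1 ((hQFm _).mp (Finset.mem_product.mp hi).1) i.2)
    refine (Finset.sum_le_sum e2).trans ?_
    rw [Finset.sum_product]
    have e3 : ∀ Q ∈ QF, ∑ mv ∈ MV, ENNReal.ofReal B * (ENNReal.ofReal w * W.palχ χ mv) ≤ ENNReal.ofReal (B * w) := by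
      intro Q _
      simp_rw [← mul_assoc]
      rw [← Finset.mul_sum, ← ENNReal.ofReal_mul hB0]
      calc ENNReal.ofReal (B * w) * ∑ mv ∈ MV, W.palχ χ mv ≤ ENNReal.ofReal (B * w) * 1 := by
            gcongr
            exact (k7p_pal_sum W.toK7aLn χ MV).trans hW.ln.pal_le
        _ = ENNReal.ofReal (B * w) := mul_one _
    refine (Finset.sum_le_sum e3).trans ?_
    rw [Finset.sum_const, nsmul_eq_mul, ← ENNReal.ofReal_natCast, ← ENNReal.ofReal_mul (Nat.cast_nonneg _)]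
    apply ENNReal.ofReal_le_ofReal
    rw [hQFc]
    have hcard := k7p_Q_card W hW hK ha0 hh0 hg0
    have hq0 : 0 < W.q := by
      unfold K7aW.q
      positivity
    have hqlo := hW.q_lo
    have e4 : B * w = C * K ^ c * (h * (a ^ d * h * (h * g))) := by
      rw [hB, hw]
      field_simp
    rw [e4]
    have e5 : (W.Qa.ncard : ℝ) * (h * (a ^ d * h * (h * g))) ≤ K ^ 2 := by
      have g1 : (W.Qa.ncard : ℝ) * (h * (a ^ d * h * (h * g))) ≤ (W.Qa.ncard : ℝ) * ((K * W.q) * (a ^ d * h * (h * g))) := by gcongr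
      have g2 : (W.Qa.ncard : ℝ) * ((K * W.q) * (a ^ d * h * (h * g))) = K * ((W.Qa.ncard : ℝ) * (W.q * (a ^ d * h * (h * g)))) := by ring
      have g3 : K * ((W.Qa.ncard : ℝ) * (W.q * (a ^ d * h * (h * g)))) ≤ K * K := mul_le_mul_of_nonneg_left hcard hK0.le
      nlinarith
    calc (W.Qa.ncard : ℝ) * (C * K ^ c * (h * (a ^ d * h * (h * g)))) = C * K ^ c * ((W.Qa.ncard : ℝ) * (h * (a ^ d * h * (h * g)))) := by ring
      _ ≤ C * K ^ c * K ^ 2 := by gcongr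
      _ = C * K ^ (c + 2) := by rw [pow_add]; ring

/-- **L-252-S7p-P7** (07 l.392-395).  PROOF.  `∑' mG = ∑' good + ∑' bad`, `bad ⊆ bad₁ ∪ bad₂`; `bad₁` (`K₁ pG < cost`): `mG ≤ pG ≤ cost / K₁`, sum `≤ Kc/K₁`; `bad₂` (`4 K mG < pG`): `mG ≤ pG/(4K)`, sum `≤ 1/(4K)`.   So `1 ≤ K ∑' mG ≤ K ∑' good + K Kc/K₁ + 1/4 ≤ K ∑' good + 1/2`. -/
theorem k7p_good {ι : Type} (pG mG cost : ι → ℝ≥0∞) {K Kc K1 : ℝ} (hK : 1 ≤ K) (hKc : 0 ≤ Kc) (hm : ∀ G, mG G ≤ pG G) (hp : ∑' G, pG G ≤ 1)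
    (hmass : 1 ≤ ENNReal.ofReal K * ∑' G, mG G) (hc : ∑' G, cost G ≤ ENNReal.ofReal Kc) (hK1 : 4 * K * Kc ≤ K1) (hK1p : 0 < K1) :
    1 ≤ ENNReal.ofReal (2 * K) * ∑' G, (open Classical in if cost G ≤ ENNReal.ofReal K1 * pG G ∧ pG G ≤ ENNReal.ofReal (4 * K) * mG G then mG G else 0) := by
  classical
  have hK0 : 0 < K := lt_of_lt_of_le one_pos hK
  have h4K : 0 < 4 * K := by positivity
  have n1 : ENNReal.ofReal K1 ≠ 0 := (ENNReal.ofReal_pos.2 hK1p).ne'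
  have n2 : ENNReal.ofReal (4 * K) ≠ 0 := (ENNReal.ofReal_pos.2 h4K).ne'
  obtain ⟨gd, hgd⟩ : ∃ gd : ι → ℝ≥0∞, gd = fun G => if cost G ≤ ENNReal.ofReal K1 * pG G ∧ pG G ≤ ENNReal.ofReal (4 * K) * mG G then mG G else 0 :=
    ⟨_, rfl⟩
  have hpt : ∀ G, mG G ≤ gd G + (ENNReal.ofReal K1)⁻¹ * cost G + (ENNReal.ofReal (4 * K))⁻¹ * pG G := by
    intro G
    rw [hgd]
    beta_reduce
    by_cases h1 : cost G ≤ ENNReal.ofReal K1 * pG G
    · by_cases h2 : pG G ≤ ENNReal.ofReal (4 * K) * mG G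
      · rw [if_pos ⟨h1, h2⟩, add_assoc]
        exact le_self_add
      · push Not at h2
        refine le_trans ?_ le_add_self
        rw [← ENNReal.mul_le_mul_iff_right n2 ENNReal.ofReal_ne_top, ← mul_assoc, ENNReal.mul_inv_cancel n2 ENNReal.ofReal_ne_top, one_mul]
        exact h2.le
    · push Not at h1
      refine le_trans ?_ (le_trans le_add_self le_self_add)
      refine (hm G).trans ?_
      rw [← ENNReal.mul_le_mul_iff_right n1 ENNReal.ofReal_ne_top, ← mul_assoc, ENNReal.mul_inv_cancel n1 ENNReal.ofReal_ne_top, one_mul]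
      exact h1.le
  have hsum : ∑' G, mG G ≤ ∑' G, gd G + (ENNReal.ofReal K1)⁻¹ * ENNReal.ofReal Kc + (ENNReal.ofReal (4 * K))⁻¹ := by
    calc ∑' G, mG G ≤ ∑' G, (gd G + (ENNReal.ofReal K1)⁻¹ * cost G + (ENNReal.ofReal (4 * K))⁻¹ * pG G) := ENNReal.tsum_le_tsum hpt
      _ = ∑' G, gd G + (ENNReal.ofReal K1)⁻¹ * ∑' G, cost G + (ENNReal.ofReal (4 * K))⁻¹ * ∑' G, pG G := by
          rw [ENNReal.tsum_add, ENNReal.tsum_add, ENNReal.tsum_mul_left, ENNReal.tsum_mul_left]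
      _ ≤ ∑' G, gd G + (ENNReal.ofReal K1)⁻¹ * ENNReal.ofReal Kc + (ENNReal.ofReal (4 * K))⁻¹ * 1 :=
          add_le_add (add_le_add le_rfl (mul_le_mul_right hc _)) (mul_le_mul_right hp _)
      _ = _ := by rw [mul_one]
  have e1 : ENNReal.ofReal K * ((ENNReal.ofReal K1)⁻¹ * ENNReal.ofReal Kc) ≤ ENNReal.ofReal (1 / 4) := by
    rw [← ENNReal.ofReal_inv_of_pos hK1p, ← ENNReal.ofReal_mul (by positivity), ← ENNReal.ofReal_mul hK0.le]
    refine ENNReal.ofReal_le_ofReal ?_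
    rw [← mul_assoc, mul_comm K, mul_assoc, inv_mul_le_iff₀ hK1p]
    linarith
  have e2 : ENNReal.ofReal K * (ENNReal.ofReal (4 * K))⁻¹ = ENNReal.ofReal (1 / 4) := by
    rw [← ENNReal.ofReal_inv_of_pos h4K, ← ENNReal.ofReal_mul hK0.le]
    congr 1
    field_simp
  have h3 : (1 : ℝ≥0∞) ≤ ENNReal.ofReal K * ∑' G, gd G + ENNReal.ofReal (1 / 2) := by
    calc (1 : ℝ≥0∞) ≤ ENNReal.ofReal K * ∑' G, mG G := hmass
      _ ≤ ENNReal.ofReal K * (∑' G, gd G + (ENNReal.ofReal K1)⁻¹ * ENNReal.ofReal Kc + (ENNReal.ofReal (4 * K))⁻¹) := mul_le_mul_right hsum _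
      _ = ENNReal.ofReal K * ∑' G, gd G + (ENNReal.ofReal K * ((ENNReal.ofReal K1)⁻¹ * ENNReal.ofReal Kc) + ENNReal.ofReal K * (ENNReal.ofReal (4 * K))⁻¹) := by
          rw [mul_add, mul_add, add_assoc]
      _ ≤ ENNReal.ofReal K * ∑' G, gd G + (ENNReal.ofReal (1 / 4) + ENNReal.ofReal (1 / 4)) := by
          rw [e2]
          exact add_le_add le_rfl (add_le_add e1 le_rfl)
      _ = _ := by
          rw [← ENNReal.ofReal_add (by norm_num) (by norm_num)]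
          norm_num
  have h4 : ENNReal.ofReal (1 / 2) ≤ ENNReal.ofReal K * ∑' G, gd G := by
    refine ENNReal.le_of_add_le_add_right (a := ENNReal.ofReal (1 / 2)) ENNReal.ofReal_ne_top ?_
    rw [← ENNReal.ofReal_add (by norm_num) (by norm_num)]
    norm_num
    simpa using h3
  have h5 : (1 : ℝ≥0∞) ≤ ENNReal.ofReal (2 * K) * ∑' G, gd G := by
    calc (1 : ℝ≥0∞) = ENNReal.ofReal 2 * ENNReal.ofReal (1 / 2) := by
          rw [← ENNReal.ofReal_mul (by norm_num)]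
          norm_num
      _ ≤ ENNReal.ofReal 2 * (ENNReal.ofReal K * ∑' G, gd G) := mul_le_mul_right h4 _
      _ = _ := by rw [← mul_assoc, ← ENNReal.ofReal_mul (by norm_num)]
  rw [hgd] at h5
  exact h5

/-! ## P8. Fixed-power bounds of `c` -/

/-- **L-252-S7p-P8a** (07 l.395-397).  Dense conditional mass with the unit cap.
PROOF.  `k7pMG ≤ lam0 (Bd)`, `Bd` = the set of `k7wc_band` with `t0 = 0`, `ρ = 2`, `sc = γ1 g`, `yc = γ0 g + g`, `mw = g`... (`0 ≤ Y - γ0 g - γ1 g t < 2 g` on `[0,1]`), `F = 0`, `r = 0 ∈ Ws` (`N^0 = 1`), `κ = K` (`|X| ≤ K`): `≤ 192 K (2K+5) χ · 2 · g · π`.   With `hs`: `p_G ≤ K0 · 2688 K² χ g π`, i.e. `1 ≤ 2688 K² K0 c`. -/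
theorem k7p_c_lo (W : K7aLn) {N K d S M χ g K0 : ℝ} {Ms Ws : Finset ℝ} (hW : W.Ok N K d S Ms Ws) (hN : 1 < N) (hK : 1 ≤ K) (hM : M ∈ Ms) (h0 : (0 : ℝ) ∈ Ws)
    (hg : 0 < g) (hg1 : g ≤ 1) (hχ0 : W.χ0 ≤ χ) (hχ1 : χ ≤ 1) (hχM : 2 * K * N ^ (-M) ≤ χ) (hgM : 2 * (K + 2) * N ^ (-M) ≤ g) (hK0 : 0 < K0)
    {E : Set (W.L × ℝ)} (hE : MeasurableSet E) (hEs : E ⊆ W.Ev0) (G : ℤ × ℤ × ℤ × ℤ) (hp : k7pPG W χ g G ≠ 0) (hs : k7pPG W χ g G ≤ ENNReal.ofReal K0 * k7pMG W E χ g G) :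
    1 ≤ 2688 * K ^ 2 * K0 * k7pC W χ g G := by
  have := hW.prob
  have hpt : k7pPG W χ g G ≠ ⊤ := measure_ne_top _ _
  have hP0 : 0 < (k7pPG W χ g G).toReal := ENNReal.toReal_pos hp hpt
  have hN0 : 0 < N := by linarith
  have hχ : 0 < χ := lt_of_lt_of_le hW.χ0_pos hχ0
  have hNM : 0 < N ^ (-M) := Real.rpow_pos_of_pos hN0 _
  have hπt : W.palχ χ G.1 ≠ ⊤ := by
    have : W.palχ χ G.1 ≤ 1 := (measure_mono (Set.subset_univ _)).trans hW.pal_le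
    exact ne_top_of_le_ne_top ENNReal.one_ne_top this
  have hne : (k7pGs W χ g G).Nonempty := by
    by_contra hcon
    rw [Set.not_nonempty_iff_eq_empty] at hcon
    apply hp
    unfold k7pPG
    rw [hcon, measure_empty]
  obtain ⟨l₀, hl₀⟩ := hne
  have hsc : |(G.2.2.2 : ℝ) * g| ≤ K + 1 := by
    have hgr : k7pGrp W χ g l₀ = G := hl₀.2
    have e2 : G.2.2.2 = ⌊W.Y1 l₀ / g⌋ := by rw [← hgr]; rfl
    obtain ⟨-, -, -, hY1, -⟩ := hW.bd l₀ hl₀.1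
    have f3 := Int.floor_le (W.Y1 l₀ / g)
    have f4 := Int.lt_floor_add_one (W.Y1 l₀ / g)
    rw [le_div_iff₀ hg] at f3
    rw [div_lt_iff₀ hg] at f4
    have := abs_le.1 hY1
    rw [e2, abs_le]
    constructor <;> nlinarith [this.1, this.2]
  have hN1 : N ^ (-(0 : ℝ)) = 1 := by rw [neg_zero, Real.rpow_zero]
  have hband := k7wc_band W (κ := K) (ρ := 2) (mw := g) (t0 := 0) (r := 0)
    (yc := G.2.2.1 * g + g) (sc := G.2.2.2 * g) hW hN hK hM h0 (by linarith) hχ0 hχ1 (by nlinarith) hχM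
    (by nlinarith) G.1 G.2.1 (fun _ _ _ => 0)
    (fun _ _ _ _ _ _ _ _ _ _ _ _ _ _ _ _ _ => by rw [hN1]; simp)
  rw [hN1, Real.one_rpow] at hband
  have hMG : k7pMG W E χ g G ≤ ENNReal.ofReal (192 * K * (2 * K + 5) * 1 * (χ * 2 * g)) * W.palχ χ G.1 := by
    refine le_trans ?_ hband
    rw [k7wc_lam0_apply W hW]
    unfold k7pMG
    refine measure_mono ?_
    rintro ⟨l, t⟩ ⟨hzE, hG⟩
    have hEv := hEs hzE
    have ht : t ∈ Set.Icc (0 : ℝ) 1 := (hW.Ev0_sub hEv).2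
    have hl : l ∈ k7pGs W χ g G := hG.1
    have hgr : k7pGrp W χ g l = G := hl.2
    have e1 : G.2.2.1 = ⌊W.Y0 l / g⌋ := by rw [← hgr]; rfl
    have e2 : G.2.2.2 = ⌊W.Y1 l / g⌋ := by rw [← hgr]; rfl
    obtain ⟨-, -, -, -, hX⟩ := hW.bd l hl.1
    refine ⟨⟨by rw [← hgr]; rfl, by rw [← hgr]; rfl, ⟨ht.1, by linarith [ht.2]⟩, ?_, ?_⟩, hEv⟩
    · show |W.Y l t - (G.2.2.1 * g + g + G.2.2.2 * g * (t - 0))| ≤ g
      have f1 := Int.floor_le (W.Y0 l / g)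
      have f2 := Int.lt_floor_add_one (W.Y0 l / g)
      have f3 := Int.floor_le (W.Y1 l / g)
      have f4 := Int.lt_floor_add_one (W.Y1 l / g)
      rw [le_div_iff₀ hg] at f1 f3
      rw [div_lt_iff₀ hg] at f2 f4
      rw [← e1] at f1 f2
      rw [← e2] at f3 f4
      unfold K7aLn.Y
      have g1 : 0 ≤ (W.Y1 l - G.2.2.2 * g) * t := mul_nonneg (by linarith) ht.1
      have g2 : (W.Y1 l - G.2.2.2 * g) * t ≤ g := by
        calc (W.Y1 l - G.2.2.2 * g) * t ≤ (W.Y1 l - G.2.2.2 * g) * 1 := mul_le_mul_of_nonneg_left ht.2 (by linarith)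
          _ ≤ g := by linarith
      rw [abs_le]
      constructor <;> nlinarith
    · show |W.X l t - 0| ≤ K * 1
      rw [sub_zero, mul_one]
      exact hX t ht
  have hfin : k7pPG W χ g G ≤ ENNReal.ofReal (K0 * (192 * K * (2 * K + 5) * 1 * (χ * 2 * g) * (W.palχ χ G.1).toReal)) := by
    refine hs.trans ?_
    rw [ENNReal.ofReal_mul hK0.le, ENNReal.ofReal_mul (by positivity), ENNReal.ofReal_toReal hπt]
    exact mul_le_mul_right hMG _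
  have hπ0 : 0 ≤ (W.palχ χ G.1).toReal := ENNReal.toReal_nonneg
  have hreal : (k7pPG W χ g G).toReal ≤ K0 * (192 * K * (2 * K + 5) * 1 * (χ * 2 * g) * (W.palχ χ G.1).toReal) :=
    ENNReal.toReal_le_of_le_ofReal (by positivity) hfin
  unfold k7pC
  have e : 2688 * K ^ 2 * K0 * (χ * g * (W.palχ χ G.1).toReal / (k7pPG W χ g G).toReal)
      = 2688 * K ^ 2 * K0 * (χ * g * (W.palχ χ G.1).toReal) / (k7pPG W χ g G).toReal := by ring
  rw [e, le_div_iff₀ hP0, one_mul]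
  refine hreal.trans ?_
  have h7 : K * (2 * K + 5) ≤ 7 * K ^ 2 := by nlinarith
  have hnn : 0 ≤ K0 * (χ * g * (W.palχ χ G.1).toReal) := by positivity
  nlinarith [mul_le_mul_of_nonneg_right h7 hnn]

/-- **L-252-S7p-P8b**.  The support inequality of a nonempty group (`1 ≤ card`): divide `hcard` by `p_G.toReal`. -/
theorem k7p_c_hi (W : K7aLn) {χ g σ a d K1 : ℝ} (hσ : 0 < σ) (ha : 0 < a) (G : ℤ × ℤ × ℤ × ℤ) (hp : k7pPG W χ g G ≠ 0) (hp' : k7pPG W χ g G ≠ ⊤) (n : ℕ) (hn : 1 ≤ n)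
    (hχg : 0 ≤ χ * g) (hcard : (n : ℝ) * σ ^ 2 * (χ * g * (W.palχ χ G.1).toReal * a ^ d) ≤ K1 * (k7pPG W χ g G).toReal) :
    k7pC W χ g G ≤ K1 / (σ ^ 2 * a ^ d) := by
  have hp0 : 0 < (k7pPG W χ g G).toReal := ENNReal.toReal_pos hp hp'
  have had : 0 < a ^ d := Real.rpow_pos_of_pos ha d
  have hn' : (1 : ℝ) ≤ n := by exact_mod_cast hn
  have hnn : 0 ≤ σ ^ 2 * (χ * g * (W.palχ χ G.1).toReal * a ^ d) := by
    have : 0 ≤ (W.palχ χ G.1).toReal := ENNReal.toReal_nonneg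
    positivity
  unfold k7pC
  rw [div_le_div_iff₀ hp0 (by positivity)]
  have h1 : σ ^ 2 * (χ * g * (W.palχ χ G.1).toReal * a ^ d) ≤ (n : ℝ) * (σ ^ 2 * (χ * g * (W.palχ χ G.1).toReal * a ^ d)) :=
    le_mul_of_one_le_left hnn hn'
  nlinarith

/-! ## P9-P11. The output -/

/-- the output of Thm 7.1 for one group, in PARENT coordinates; interval scale `β` -/
def K7pOutG (W : K7aLn) (E : Set (W.L × ℝ)) (χ g a d K β : ℝ) (G : ℤ × ℤ × ℤ × ℤ) : Prop :=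
  ∃ (n : ℕ) (lab : W.L → Option (Fin n)) (Lb : Fin n → K7aLab), (∀ o, MeasurableSet (lab ⁻¹' {o})) ∧ (∀ l i, lab l = some i → l ∈ k7pGs W χ g G) ∧
    k7pPG W χ g G ≤ ENNReal.ofReal K * W.prior (E ∩ {z | lab z.1 ≠ none}) ∧
    ∀ i, K7aQuad (Lb i).F ∧ (∀ t ∈ Set.Icc (0 : ℝ) 1, ∀ u ∈ Set.Icc (-1 : ℝ) 1, |(Lb i).F t ((Lb i).cen t + β * u)| ≤ K) ∧
      (∀ l, lab l = some i → ∀ t ∈ Set.Icc (0 : ℝ) 1, |W.Y l t - (Lb i).cen t| ≤ K * β ∧ |W.X l t - (Lb i).F t (W.Y l t)| ≤ K * a) ∧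
      ENNReal.ofReal (χ * a ^ d * β) * W.palχ χ G.1 ≤ ENNReal.ofReal K * W.prior (E ∩ {z | lab z.1 = some i})

/-- **L-252-S7p-P9**.  PROOF.  From `Out`: `n, lab', L'`.   `lab l := if l ∈ Gs then lab' l else none`;   `Lb i := ⟨γ0 g + g c0', γ1 g + g c1', fun t Y => F' t ((Y - γ0 g - γ1 g t)/g)⟩` (again `K7aQuad`: substitute and expand, `g ≠ 0`).
On `Gs`: `D.y l t = (Y l t - γ0 g - γ1 g t)/g`, `D.x l t = X l t`, `cen t = γ0 g + γ1 g t + g cen' t`; so `|Y - cen| = g |D.y - cen'| ≤ K (g βG)`, `F t (cen t + g βG u) = F' t (cen' t + βG u)`.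
Masses: `D.mu A = p_G⁻¹ * prior (E ∩ A ∩ Gs ×ˢ univ)`; multiply the floors of `Out` by `p_G`: `c a^d βG p_G = χ g π a^d βG` (`k7pC`, `ENNReal.ofReal_toReal`). -/
theorem k7p_out_back (W : K7aLn) {N K d S χ g a K' βG : ℝ} {Ms Ws : Finset ℝ} (hW : W.Ok N K d S Ms Ws) (hg : 0 < g) (hχ : 0 < χ) (ha : 0 < a) (hβ : 0 ≤ βG) {E : Set (W.L × ℝ)} (hE : MeasurableSet E)
    (G : ℤ × ℤ × ℤ × ℤ) (hp : k7pPG W χ g G ≠ 0) (hOut : (k7pData W E χ g G).Out K' βG (k7pC W χ g G) d a) : K7pOutG W E χ g a d K' (g * βG) G := by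
  classical
  have := hW.prob
  have mGs := k7p_gs_meas W hW χ g G
  have hpt : k7pPG W χ g G ≠ ⊤ := measure_ne_top _ _
  have hP0 : 0 < (k7pPG W χ g G).toReal := ENNReal.toReal_pos hp hpt
  have hπt : W.palχ χ G.1 ≠ ⊤ := by
    have : W.palχ χ G.1 ≤ 1 := (measure_mono (Set.subset_univ _)).trans hW.pal_le
    exact ne_top_of_le_ne_top ENNReal.one_ne_top this
  obtain ⟨n, lab', L', mlab', hmass, hall⟩ := hOut
  have hmu : ∀ A : Set (W.L × ℝ), (k7pData W E χ g G).mu A = (k7pPG W χ g G)⁻¹ * W.prior (E ∩ (A ∩ k7pGs W χ g G ×ˢ Set.univ)) := fun A => by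
    have e : (k7pData W E χ g G).mu = (k7pPG W χ g G)⁻¹ • (W.law E).restrict (k7pGs W χ g G ×ˢ Set.univ) := rfl
    rw [e, Measure.smul_apply, smul_eq_mul, Measure.restrict_apply' (mGs.prod MeasurableSet.univ)]
    unfold K7aLn.law
    rw [Measure.restrict_apply' hE, Set.inter_comm]
  have hmul : ∀ x y : ℝ≥0∞, x ≤ ENNReal.ofReal K' * ((k7pPG W χ g G)⁻¹ * y) → k7pPG W χ g G * x ≤ ENNReal.ofReal K' * y := fun x y h => by
    calc k7pPG W χ g G * x ≤ k7pPG W χ g G * (ENNReal.ofReal K' * ((k7pPG W χ g G)⁻¹ * y)) := mul_le_mul_right h _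
      _ = ENNReal.ofReal K' * y * (k7pPG W χ g G * (k7pPG W χ g G)⁻¹) := by ring
      _ = ENNReal.ofReal K' * y := by rw [ENNReal.mul_inv_cancel hp hpt, mul_one]
  set lab : W.L → Option (Fin n) := fun l => if l ∈ k7pGs W χ g G then lab' l else none with hlab
  have hsome : ∀ l i, lab l = some i ↔ l ∈ k7pGs W χ g G ∧ lab' l = some i := fun l i => by
    by_cases hl : l ∈ k7pGs W χ g G
    · simp [hlab, hl]
    · simp [hlab, hl]
  have hnone : ∀ l, lab l ≠ none ↔ l ∈ k7pGs W χ g G ∧ lab' l ≠ none := fun l => by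
    by_cases hl : l ∈ k7pGs W χ g G
    · simp [hlab, hl]
    · simp [hlab, hl]
  have hy : ∀ l ∈ k7pGs W χ g G, ∀ t, (W.Y l t - G.2.2.1 * g - G.2.2.2 * g * t) / g = (k7pData W E χ g G).y l t := fun l hl t => by
    simp only [K7aData.y, k7pData, if_pos hl, K7aLn.Y]
    field_simp
    ring
  have hx : ∀ l ∈ k7pGs W χ g G, ∀ t, (k7pData W E χ g G).x l t = W.X l t := fun l hl t => by
    simp only [K7aData.x, k7pData, if_pos hl, K7aLn.X]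
  refine ⟨n, lab, fun i => ⟨G.2.2.1 * g + g * (L' i).c0, G.2.2.2 * g + g * (L' i).c1,
    fun t Y => (L' i).F t ((Y - G.2.2.1 * g - G.2.2.2 * g * t) / g)⟩, fun o => ?_, fun l i h => ((hsome l i).1 h).1, ?_, fun i => ?_⟩
  · cases o with
    | none =>
      have e : lab ⁻¹' {none} = (k7pGs W χ g G ∩ (lab' ⁻¹' {none})ᶜ)ᶜ := by
        ext l
        have := hnone l
        simp only [Set.mem_preimage, Set.mem_singleton_iff, Set.mem_compl_iff, Set.mem_inter_iff]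
        tauto
      rw [e]
      exact (mGs.inter (mlab' none).compl).compl
    | some i =>
      have e : lab ⁻¹' {some i} = k7pGs W χ g G ∩ lab' ⁻¹' {some i} := by
        ext l
        exact hsome l i
      rw [e]
      exact mGs.inter (mlab' _)
  · rw [hmu] at hmass
    have h1 := hmul 1 _ hmass
    rw [mul_one] at h1
    refine h1.trans (le_of_eq ?_)
    congr 2
    ext z
    have := hnone z.1
    simp only [Set.mem_inter_iff, Set.mem_ofPred_eq, Set.mem_prod, Set.mem_univ, and_true]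
    tauto
  · obtain ⟨⟨e0, e1, e2, e3, e4, e5, hF⟩, -, -, hnorm, hfit, hfloor⟩ := hall i
    refine ⟨⟨e0 - e2 * G.2.2.1 + e5 * (G.2.2.1 : ℝ) ^ 2, e1 - e2 * G.2.2.2 - e4 * G.2.2.1 + 2 * e5 * G.2.2.1 * G.2.2.2, e2 / g - 2 * e5 * G.2.2.1 / g,
      e3 - e4 * G.2.2.2 + e5 * (G.2.2.2 : ℝ) ^ 2, e4 / g - 2 * e5 * G.2.2.2 / g, e5 / g ^ 2, fun t Y => ?_⟩, fun t ht u hu => ?_, fun l hl t ht => ?_, ?_⟩
    · show (L' i).F t ((Y - G.2.2.1 * g - G.2.2.2 * g * t) / g) = _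
      rw [hF]
      field_simp
      ring
    · show |(L' i).F t (((G.2.2.1 * g + g * (L' i).c0 + (G.2.2.2 * g + g * (L' i).c1) * t + g * βG * u) - G.2.2.1 * g - G.2.2.2 * g * t) / g)| ≤ K'
      have e : ((G.2.2.1 * g + g * (L' i).c0 + (G.2.2.2 * g + g * (L' i).c1) * t + g * βG * u) - G.2.2.1 * g - G.2.2.2 * g * t) / g
          = (L' i).cen t + βG * u := by
        unfold K7aLab.cen
        field_simp
        ring
      rw [e]
      exact hnorm t ht u hu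
    · obtain ⟨hlG, hl'⟩ := (hsome l i).1 hl
      obtain ⟨f1, f2⟩ := hfit l hl' t ht
      constructor
      · show |W.Y l t - (G.2.2.1 * g + g * (L' i).c0 + (G.2.2.2 * g + g * (L' i).c1) * t)| ≤ K' * (g * βG)
        have e : W.Y l t - (G.2.2.1 * g + g * (L' i).c0 + (G.2.2.2 * g + g * (L' i).c1) * t)
            = g * ((W.Y l t - G.2.2.1 * g - G.2.2.2 * g * t) / g - (L' i).cen t) := by
          unfold K7aLab.cen
          field_simp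
          ring
        rw [e, hy l hlG, abs_mul, abs_of_pos hg]
        calc g * |(k7pData W E χ g G).y l t - (L' i).cen t| ≤ g * (K' * βG) := mul_le_mul_of_nonneg_left f1 hg.le
          _ = K' * (g * βG) := by ring
      · show |W.X l t - (L' i).F t ((W.Y l t - G.2.2.1 * g - G.2.2.2 * g * t) / g)| ≤ K' * a
        rw [hy l hlG, ← hx l hlG]
        exact f2
    · rw [hmu] at hfloor
      have h1 := hmul _ _ hfloor
      have e1 : k7pPG W χ g G * ENNReal.ofReal (k7pC W χ g G * a ^ d * βG) = ENNReal.ofReal (χ * a ^ d * (g * βG)) * W.palχ χ G.1 := by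
        have had : 0 < a ^ d := Real.rpow_pos_of_pos ha d
        rw [← ENNReal.ofReal_toReal hpt, ← ENNReal.ofReal_toReal hπt, ← ENNReal.ofReal_mul ENNReal.toReal_nonneg, ← ENNReal.ofReal_mul (by positivity)]
        congr 1
        unfold k7pC
        field_simp
      rw [e1] at h1
      refine h1.trans (le_of_eq ?_)
      congr 2
      ext z
      have := hsome z.1 i
      simp only [Set.mem_inter_iff, Set.mem_ofPred_eq, Set.mem_prod, Set.mem_univ, and_true]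
      tauto

/-- **L-252-S7p-P10**.  Dyadic pigeonhole of the scales `b G ∈ [lo, 2^n lo)`.   (`k G := ⌊logb 2 (b G / lo)⌋₊ < n`; `∑_G m G = ∑_{k<n} ∑_{G : k G = k} m G`; `Finset.exists_le_of_sum_le`-type pigeonhole in `ℝ≥0∞`.) -/
theorem k7p_class {ι : Type} (Gs : Finset ι) (m : ι → ℝ≥0∞) (b : ι → ℝ) {lo : ℝ} (hlo : 0 < lo) (n : ℕ) (hn : 1 ≤ n) (hb : ∀ G ∈ Gs, lo ≤ b G ∧ b G < 2 ^ n * lo) :
    ∃ k < n, ∑ G ∈ Gs, m G ≤ n * ∑ G ∈ Gs.filter (fun G => 2 ^ k * lo ≤ b G ∧ b G < 2 ^ (k + 1) * lo), m G := by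
  classical
  -- every member has a class
  have hcl : ∀ G ∈ Gs, ∃ k ∈ Finset.range n, 2 ^ k * lo ≤ b G ∧ b G < 2 ^ (k + 1) * lo := by
    intro G hG
    obtain ⟨h1, h2⟩ := hb G hG
    have hex : ∃ j : ℕ, b G < 2 ^ (j + 1) * lo := ⟨n - 1, by rwa [Nat.sub_add_cancel hn]⟩
    have hj := Nat.find_spec hex
    have hjn : Nat.find hex ≤ n - 1 := Nat.find_min' hex (by rwa [Nat.sub_add_cancel hn])
    refine ⟨Nat.find hex, Finset.mem_range.2 (by omega), ?_, hj⟩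
    rcases Nat.eq_zero_or_pos (Nat.find hex) with h0 | h0
    · rw [h0, pow_zero, one_mul]
      exact h1
    · have h3 := Nat.find_min hex (m := Nat.find hex - 1) (by omega)
      rw [Nat.sub_add_cancel h0] at h3
      exact not_lt.mp h3
  obtain ⟨Sk, hSk⟩ : ∃ Sk : ℕ → ℝ≥0∞, Sk = fun k => ∑ G ∈ Gs.filter (fun G => 2 ^ k * lo ≤ b G ∧ b G < 2 ^ (k + 1) * lo), m G := ⟨_, rfl⟩
  have htot : ∑ G ∈ Gs, m G ≤ ∑ k ∈ Finset.range n, Sk k := by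
    rw [hSk]
    simp only [Finset.sum_filter]
    rw [Finset.sum_comm]
    refine Finset.sum_le_sum fun G hG => ?_
    obtain ⟨k, hk, hc⟩ := hcl G hG
    calc m G = if 2 ^ k * lo ≤ b G ∧ b G < 2 ^ (k + 1) * lo then m G else 0 := by rw [if_pos hc]
      _ ≤ _ := Finset.single_le_sum (f := fun k => if 2 ^ k * lo ≤ b G ∧ b G < 2 ^ (k + 1) * lo then m G else 0) (fun _ _ => zero_le) hk
  obtain ⟨k, hk, hmax⟩ := Finset.exists_max_image (Finset.range n) Sk ⟨0, Finset.mem_range.2 (by omega)⟩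
  refine ⟨k, Finset.mem_range.1 hk, ?_⟩
  calc ∑ G ∈ Gs, m G ≤ ∑ k ∈ Finset.range n, Sk k := htot
    _ ≤ ∑ _j ∈ Finset.range n, Sk k := Finset.sum_le_sum fun j hj => hmax j hj
    _ = n * Sk k := by rw [Finset.sum_const, Finset.card_range, nsmul_eq_mul]
    _ = _ := by rw [hSk]

/-- **L-252-S7p-P11**.  The layer of a finite family of groups with comparable scales.
PROOF.  `choose` the data `n G, lab G, Lb G` of `K7pOutG`.   `Ph := Σ G : {G // G ∈ Gs}, Fin (n G)` (a `Fintype`);   `P.lab l := if h : k7pGrp l ∈ Gs then (lab _ l).map (Sigma.mk ⟨_, h⟩) else none`; `vi ⟨G,i⟩ = G.1`, `zi = G.2.1`, `G ⟨G,i⟩ = Lb G i`.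
`P.lab l = some ⟨G,i⟩ ↔ lab G l = some i` (as `lab G l = some i → l ∈ Gs G → k7pGrp l = G`).   Measurability: `P.lab⁻¹{some ⟨G,i⟩} = (lab G)⁻¹{some i}`; `P.lab⁻¹{none}` = complement of the finite union.
`norm`: `β ≤ b G`, so `cen + β u = cen + b G u'`, `u' = β u / b G ∈ [-1,1]`;  `fit`: `K b G ≤ 2 K β`;  `floor`: monotone in the scale, `prior (E ∩ ·) ≤ lam0 ·` (`E ⊆ Ev0`; `k7wc_lam0_apply`).   Mass: the sets `E ∩ {lab G ≠ none}` are disjoint subsets of `E ∩ {P.lab ≠ none}`. -/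
theorem k7p_assemble (W : K7aLn) {N K d S χ g a K' β : ℝ} {Ms Ws : Finset ℝ} (hW : W.Ok N K d S Ms Ws) (hK' : 0 ≤ K') (hβ : 0 < β) (hχ : 0 ≤ χ) (ha : 0 < a) {E : Set (W.L × ℝ)} (hE : MeasurableSet E) (hEs : E ⊆ W.Ev0)
    (Gs : Finset (ℤ × ℤ × ℤ × ℤ)) (b : ℤ × ℤ × ℤ × ℤ → ℝ) (hb : ∀ G ∈ Gs, β ≤ b G ∧ b G ≤ 2 * β) (hO : ∀ G ∈ Gs, K7pOutG W E χ g a d K' (b G) G) :
    ∃ P : K7aLayer W, P.Ok (2 * K') χ a β d ∧ ∑ G ∈ Gs, k7pPG W χ g G ≤ ENNReal.ofReal K' * W.prior (E ∩ {z | P.lab z.1 ≠ none}) := by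
  classical
  choose n lab Lb h1 h2 h3 h4 using fun G : {G // G ∈ Gs} => hO G.1 G.2
  set Plab : W.L → Option (Σ G : {G // G ∈ Gs}, Fin (n G)) := fun l =>
    if h : k7pGrp W χ g l ∈ Gs then (lab ⟨_, h⟩ l).map (Sigma.mk ⟨_, h⟩) else none with hPlab
  have hiff : ∀ l (φ : Σ G : {G // G ∈ Gs}, Fin (n G)), Plab l = some φ ↔ lab φ.1 l = some φ.2 := by
    rintro l ⟨⟨G, hG⟩, i⟩
    constructor
    · intro h
      by_cases hl : k7pGrp W χ g l ∈ Gs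
      · simp only [hPlab, dif_pos hl, Option.map_eq_some_iff] at h
        obtain ⟨i', hi', he⟩ := h
        cases he
        exact hi'
      · simp [hPlab, dif_neg hl] at h
    · intro h
      have hgr : k7pGrp W χ g l = G := (h2 ⟨G, hG⟩ l i h).2
      subst hgr
      simp only [hPlab, dif_pos hG]
      have h' : lab ⟨k7pGrp W χ g l, hG⟩ l = some i := h
      rw [h']
      rfl
  have hmsome : ∀ φ : Σ G : {G // G ∈ Gs}, Fin (n G), MeasurableSet (Plab ⁻¹' {some φ}) := fun φ => by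
    have e : Plab ⁻¹' {some φ} = lab φ.1 ⁻¹' {some φ.2} := by
      ext l
      exact hiff l φ
    rw [e]
    exact h1 _ _
  refine ⟨⟨Σ G : {G // G ∈ Gs}, Fin (n G), inferInstance, Plab, fun φ => φ.1.1.1, fun φ => φ.1.1.2.1, fun φ => Lb φ.1 φ.2⟩, ⟨fun o => ?_, fun l φ h => ?_,
    fun φ => (h4 φ.1 φ.2).1, fun φ t ht u hu => ?_, fun l φ h t ht => ?_, fun φ => ?_⟩, ?_⟩
  · cases o with
    | none =>
      have e : Plab ⁻¹' {none} = (⋃ φ, Plab ⁻¹' {some φ})ᶜ := by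
        ext l
        simp only [Set.mem_preimage, Set.mem_singleton_iff, Set.mem_compl_iff, Set.mem_iUnion, not_exists]
        constructor
        · intro h φ
          rw [h]
          simp
        · intro h
          cases hl : Plab l with
          | none => rfl
          | some φ => exact absurd hl (h φ)
      show MeasurableSet (Plab ⁻¹' {none})
      rw [e]
      exact (MeasurableSet.iUnion hmsome).compl
    | some φ => exact hmsome φ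
  · have hl := h2 φ.1 l φ.2 ((hiff l φ).1 h)
    have hgr : k7pGrp W χ g l = φ.1.1 := hl.2
    exact ⟨hl.1, congrArg (fun x : ℤ × ℤ × ℤ × ℤ => x.1) hgr, congrArg (fun x : ℤ × ℤ × ℤ × ℤ => x.2.1) hgr⟩
  · obtain ⟨hb1, hb2⟩ := hb φ.1.1 φ.1.2
    have hbpos : 0 < b φ.1.1 := lt_of_lt_of_le hβ hb1
    have hu' : β * u / b φ.1.1 ∈ Set.Icc (-1 : ℝ) 1 := by
      constructor
      · rw [le_div_iff₀ hbpos]
        nlinarith [hu.1, hu.2]
      · rw [div_le_iff₀ hbpos]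
        nlinarith [hu.1, hu.2]
    have := (h4 φ.1 φ.2).2.1 t ht _ hu'
    have e : b φ.1.1 * (β * u / b φ.1.1) = β * u := by field_simp
    rw [e] at this
    show |(Lb φ.1 φ.2).F t ((Lb φ.1 φ.2).cen t + β * u)| ≤ 2 * K'
    linarith
  · obtain ⟨hb1, hb2⟩ := hb φ.1.1 φ.1.2
    obtain ⟨f1, f2⟩ := (h4 φ.1 φ.2).2.2.1 l ((hiff l φ).1 h) t ht
    constructor
    · show |W.Y l t - (Lb φ.1 φ.2).cen t| ≤ 2 * K' * β
      have : K' * b φ.1.1 ≤ K' * (2 * β) := mul_le_mul_of_nonneg_left hb2 hK'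
      linarith
    · show |W.X l t - (Lb φ.1 φ.2).F t (W.Y l t)| ≤ 2 * K' * a
      have : 0 ≤ K' * a := by positivity
      linarith
  · obtain ⟨hb1, hb2⟩ := hb φ.1.1 φ.1.2
    have hf := (h4 φ.1 φ.2).2.2.2
    have had : 0 < a ^ d := Real.rpow_pos_of_pos ha d
    show ENNReal.ofReal (χ * a ^ d * β) * W.palχ χ φ.1.1.1 ≤ ENNReal.ofReal (2 * K') * W.lam0 {z | Plab z.1 = some φ}
    calc ENNReal.ofReal (χ * a ^ d * β) * W.palχ χ φ.1.1.1 ≤ ENNReal.ofReal (χ * a ^ d * b φ.1.1) * W.palχ χ φ.1.1.1 :=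
          mul_le_mul_left (ENNReal.ofReal_le_ofReal (mul_le_mul_of_nonneg_left hb1 (by positivity))) _
      _ ≤ ENNReal.ofReal K' * W.prior (E ∩ {z | lab φ.1 z.1 = some φ.2}) := hf
      _ ≤ ENNReal.ofReal (2 * K') * W.lam0 {z | Plab z.1 = some φ} := by
          refine mul_le_mul' (ENNReal.ofReal_le_ofReal (by linarith)) ?_
          rw [k7wc_lam0_apply W hW]
          refine measure_mono ?_
          rintro z ⟨hzE, hz⟩
          exact ⟨(hiff z.1 φ).2 hz, hEs hzE⟩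
  · show ∑ G ∈ Gs, k7pPG W χ g G ≤ ENNReal.ofReal K' * W.prior (E ∩ {z | Plab z.1 ≠ none})
    rw [← Finset.sum_coe_sort Gs (fun G => k7pPG W χ g G)]
    calc ∑ G : {G // G ∈ Gs}, k7pPG W χ g G.1 ≤ ∑ G : {G // G ∈ Gs}, ENNReal.ofReal K' * W.prior (E ∩ {z | lab G z.1 ≠ none}) :=
          Finset.sum_le_sum fun G _ => h3 G
      _ = ENNReal.ofReal K' * ∑ G : {G // G ∈ Gs}, W.prior (E ∩ {z | lab G z.1 ≠ none}) := by rw [Finset.mul_sum]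
      _ = ENNReal.ofReal K' * W.prior (⋃ G ∈ (Finset.univ : Finset {G // G ∈ Gs}), E ∩ {z | lab G z.1 ≠ none}) := by
          rw [measure_biUnion_finset (fun G _ G' _ hne => ?_) (fun G _ => ?_)]
          · refine Set.disjoint_left.2 fun z hz hz' => hne ?_
            obtain ⟨i, hi⟩ := Option.ne_none_iff_exists'.1 hz.2
            obtain ⟨i', hi'⟩ := Option.ne_none_iff_exists'.1 hz'.2
            have e1 : k7pGrp W χ g z.1 = G.1 := (h2 G z.1 i hi).2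
            have e2 : k7pGrp W χ g z.1 = G'.1 := (h2 G' z.1 i' hi').2
            exact Subtype.ext (e1.symm.trans e2)
          · have : {z : W.L × ℝ | lab G z.1 ≠ none} = Prod.fst ⁻¹' (lab G ⁻¹' {none})ᶜ := by
              ext z
              simp
            rw [this]
            exact hE.inter (measurable_fst (h1 G none).compl)
      _ ≤ ENNReal.ofReal K' * W.prior (E ∩ {z | Plab z.1 ≠ none}) := by
          refine mul_le_mul_right (measure_mono ?_) _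
          intro z hz
          obtain ⟨G, -, hzE, hzl⟩ := Set.mem_iUnion₂.1 hz
          obtain ⟨i, hi⟩ := Option.ne_none_iff_exists'.1 hzl
          refine ⟨hzE, ?_⟩
          have : Plab z.1 = some ⟨G, i⟩ := (hiff z.1 ⟨G, i⟩).2 hi
          show Plab z.1 ≠ none
          rw [this]
          simp

/-! ## P12-P13. Assembly -/

/-- Thm 7.1 at ONE scale: input slack `K2`, output slack `K3`, `c ∈ [cLo, cHi]` -/
def K7pT71At (K2 K3 σ d a cLo cHi : ℝ) : Prop :=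
  ∀ (Λ : Type) [MeasurableSpace Λ] (D : K7aData Λ) (c : ℝ), cLo ≤ c → c ≤ cHi → D.Adm K2 → D.Cap K2 σ c d a → D.Supp K2 σ c d a →
    ∃ β : ℝ, σ ≤ K3 * β ∧ β ≤ K3 ∧ D.Out K3 β c d a

/-- `Adm` is monotone in the slack -/
theorem k7p_adm_mono {Λ : Type} [MeasurableSpace Λ] {D : K7aData Λ} {K K' : ℝ} (h : D.Adm K) (hK : K ≤ K') : D.Adm K' where
  prob := h.prob
  meas := h.meas
  bd := fun l => by
    obtain ⟨h1, h2, h3, h4, h5⟩ := h.bd l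
    exact ⟨h1.trans hK, h2.trans hK, h3.trans hK, h4.trans hK, h5.trans hK⟩
  dom := h.dom.trans (by
    refine Measure.le_iff.2 fun s _ => ?_
    rw [Measure.smul_apply, Measure.smul_apply, smul_eq_mul, smul_eq_mul]
    exact mul_le_mul_left (ENNReal.ofReal_le_ofReal hK) _)
  mass := h.mass.trans (mul_le_mul_left (ENNReal.ofReal_le_ofReal hK) _)

/-- `Cap` is monotone in the slack -/
theorem k7p_cap_mono {Λ : Type} [MeasurableSpace Λ] {D : K7aData Λ} {K K' σ c d a : ℝ} (h : D.Cap K σ c d a) (hK : K ≤ K') (hc : 0 ≤ c) (ha : 0 < a) :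
    D.Cap K' σ c d a := by
  intro i j p xs hap hp1
  refine (h i j p xs hap hp1).trans (ENNReal.ofReal_le_ofReal ?_)
  have h1 : 0 ≤ p ^ d := Real.rpow_nonneg (ha.le.trans hap) d
  have h2 : 0 ≤ σ ^ 2 := sq_nonneg σ
  gcongr

/-- `Supp` is monotone in the slack -/
theorem k7p_supp_mono {Λ : Type} [MeasurableSpace Λ] {D : K7aData Λ} {K K' σ c d a : ℝ} (h : D.Supp K σ c d a) (hK : K ≤ K') : D.Supp K' σ c d a := by
  obtain ⟨S, h1, h2⟩ := h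
  exact ⟨S, h1, h2.trans hK⟩

/-- **L-252-S7p-P12** **Sec 7.2 at one scale.**   `C, c` = constants of `k7p_supp_total` enlarged.
PROOF.  `k7p_supp_total`: `Sf`, total cost `≤ Kc = C₁ K^c₁`.   `cost G := ofReal (card (Sf G) σ² χ g a^d) palχ χ G.1`, `pG`, `mG` (`k7p_gs_sum`);   `K₁ := 4 K Kc`;  `k7p_good`: the good groups carry `≥ 1/(2K)`.   A good group with `mG ≠ 0` has `pG ≠ 0`, `Sf G ≠ ∅`.
The good groups with `mG ≠ 0` form a FINITE set `𝒢` (they are among the `G` with `Sf G ≠ ∅`, finitely many because the `tsum`... simpler: `|coefficients| ≤ K` on `Sp` bounds the four integers: `𝒢 ⊆ Finset.Icc`-box).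
For `G ∈ 𝒢`: `k7p_data_adm` (`K0 = 4K`), `k7p_data_cap`, `k7p_data_supp` (`K₁`), `k7p_c_lo`, `k7p_c_hi`; all slacks `≤ K2` (`hK2`), `c ∈ [cLo, cHi]` (`hcLo`, `hcHi`);  `hT`: `βG`, `Out`;  `k7p_out_back`: `K7pOutG .. K3 (g βG) G`, `g σ/K3 ≤ g βG ≤ K3 g`.
`k7p_class` with `m = mG`, `lo = g σ/K3`, `2^n ≥ 2 K3²/σ`: a class `𝒢'`, `β := 2^k lo`;  `k7p_assemble`: `P`, `E' := E ∩ {P.lab ≠ none}`;   `prior E' ≥ ∑_{𝒢'} pG / K3 ≥ ∑_{𝒢'} mG / K3 ≥ 1/(2 K n K3)`. -/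
theorem k7p_proj_one : ∃ (C : ℝ) (c : ℕ), 1 ≤ C ∧ ∀ (W : K7aW) (Γ : K7pGr W) (Sh : Set (ℝ → ℝ → ℝ)) (N K d S a h g χ σ ρ M Kn K2 K3 cLo cHi : ℝ) (Ms Ws : Finset ℝ) (n : ℕ) (E : Set (W.L × ℝ)),
    W.Ok N K d S a h g Ms Ws → Γ.Ok Sh K a h g ρ → K7pSm K a h g χ σ → 1 < N → 0 ≤ d → M ∈ Ms → (0 : ℝ) ∈ Ws → 1 ≤ Kn →
    (∀ p, a ≤ p → p ≤ 1 → ∃ r ∈ Ws, N ^ (-r) ≤ p ∧ p ≤ Kn * N ^ (-r)) → W.χ0 ≤ χ → 4 * (K + 2) * N ^ (-M) ≤ χ * σ * g →
    K7pT71At K2 K3 σ d a cLo cHi → C * K ^ c * Kn ≤ K2 → cLo * (C * K ^ c) ≤ 1 → C * K ^ c / (σ ^ 2 * a ^ d) ≤ cHi → 1 ≤ K3 → 2 * K3 ^ 2 ≤ 2 ^ n * σ → 1 ≤ n →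
    MeasurableSet E → E ⊆ W.Ev0 → 1 ≤ ENNReal.ofReal K * W.prior E →
    ∃ (P : K7aLayer W.toK7aLn) (β : ℝ) (E' : Set (W.L × ℝ)), MeasurableSet E' ∧ E' ⊆ E ∧ (∀ p ∈ E', P.lab p.1 ≠ none) ∧
      1 ≤ ENNReal.ofReal (2 * K * n * K3) * W.prior E' ∧ P.Ok (2 * K3) χ a β d ∧ g * σ ≤ K3 * β ∧ β ≤ K3 * g := by
  classical
  obtain ⟨C₁, c₁, hC₁, H₁⟩ := k7p_supp_total
  refine ⟨10752 * C₁, c₁ + 3, by linarith, ?_⟩
  intro W Γ Sh N K d S a h g χ σ ρ M Kn K2 K3 cLo cHi Ms Ws n E hW hΓ hs hN hd hM h0 hKn hnet hχ0 hχσg hT hK2 hcLo hcHi hK3 hn2 hn1 hE hEs hmass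
  have hK := hs.K_ge
  have ha := hs.a_pos
  have hg := hs.g_pos
  have hσ := hs.σ_pos
  have hχ := hs.χ_pos
  have hWl := hW.ln
  have hKsq : (1 : ℝ) ≤ K ^ 2 := one_le_pow₀ hK
  have hah : a * h ≤ 1 := by
    calc a * h ≤ 1 * 1 := mul_le_mul hs.a_le hs.h_le hs.h_pos.le zero_le_one
      _ = 1 := one_mul 1
  have hσ1 : σ ≤ 1 := by
    have h1 : σ ≤ 8 * K ^ 2 * σ := le_mul_of_one_le_left hσ.le (by linarith)
    linarith [hs.σ_sm]
  have hahgσ : a * h * g * σ ≤ 1 := by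
    calc a * h * g * σ ≤ 1 * 1 * 1 := by
          refine mul_le_mul (mul_le_mul hah hs.g_le hg.le zero_le_one) hσ1 hσ.le (by norm_num)
      _ = 1 := by norm_num
  have hχ1 : χ ≤ 1 := by
    have h1 : χ ≤ 8 * K ^ 2 * χ := le_mul_of_one_le_left hχ.le (by linarith)
    linarith [hs.χ_sm]
  have hNM : 0 < N ^ (-M) := Real.rpow_pos_of_pos (by linarith) _
  have e1 : χ * σ * g ≤ σ * g := by
    calc χ * σ * g ≤ 1 * σ * g := by gcongr
      _ = σ * g := by ring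
  have e2 : σ * g ≤ σ := by
    calc σ * g ≤ σ * 1 := by gcongr; exact hs.g_le
      _ = σ := mul_one σ
  have e4 : σ * g ≤ g := by
    calc σ * g ≤ 1 * g := by gcongr
      _ = g := one_mul g
  have e3 : χ * σ * g ≤ χ := by
    calc χ * σ * g = χ * (σ * g) := by ring
      _ ≤ χ * 1 := by gcongr; exact e2.trans hσ1
      _ = χ := mul_one χ
  set Kc : ℝ := C₁ * K ^ c₁ with hKc
  have hKc1 : 1 ≤ Kc := one_le_mul_of_one_le_of_one_le hC₁ (one_le_pow₀ hK)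
  set K1 : ℝ := 4 * K * Kc with hK1
  have hBig : 10752 * C₁ * K ^ (c₁ + 3) = 10752 * K ^ 3 * Kc := by rw [hKc, pow_add]; ring
  rw [hBig] at hK2 hcLo hcHi
  set B : ℝ := 10752 * K ^ 3 * Kc with hB
  have hKcu : K ≤ K ^ 3 := le_self_pow₀ hK (by norm_num)
  have hB3 : 10752 * K ^ 3 ≤ B := le_mul_of_one_le_right (by positivity) hKc1
  have hB1 : 10752 * K ≤ B := by linarith
  have hB2 : K1 ≤ B := by
    rw [hK1, hB]
    exact mul_le_mul_of_nonneg_right (by linarith) (by linarith)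
  have hB0 : 0 < B := by linarith
  have hBK2 : B ≤ K2 := (le_mul_of_one_le_right hB0.le hKn).trans hK2
  have f0 : 4 * (K + 2) * N ^ (-M) ≤ σ * g := hχσg.trans e1
  have f1 : 2 * N ^ (-M) ≤ σ := by
    have : 2 * N ^ (-M) ≤ 4 * (K + 2) * N ^ (-M) := mul_le_mul_of_nonneg_right (by linarith) hNM.le
    linarith
  have f2 : 2 * K * N ^ (-M) ≤ χ := by
    have : 2 * K * N ^ (-M) ≤ 4 * (K + 2) * N ^ (-M) := mul_le_mul_of_nonneg_right (by linarith) hNM.le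
    linarith
  have f3 : 2 * (K + 2) * N ^ (-M) ≤ g := by
    have : 2 * (K + 2) * N ^ (-M) ≤ 4 * (K + 2) * N ^ (-M) := mul_le_mul_of_nonneg_right (by linarith) hNM.le
    linarith
  have f4 : 576 * K * Kn ≤ K2 := by
    have h1 : 576 * K ≤ B := by linarith
    calc 576 * K * Kn ≤ B * Kn := by gcongr
      _ ≤ K2 := hK2
  -- the groups
  obtain ⟨Sf, hSfm, hSfc⟩ := H₁ W Γ Sh N K d S a h g χ σ ρ Ms Ws hW hΓ hs
  obtain ⟨hp1, hm1, hmp⟩ := k7p_gs_sum W.toK7aLn hWl χ g hE hEs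
  have hgood := k7p_good (fun G => k7pPG W.toK7aLn χ g G) (fun G => k7pMG W.toK7aLn E χ g G)
    (fun G => ENNReal.ofReal ((Sf G).card * σ ^ 2 * (χ * g * a ^ d)) * W.palχ χ G.1) (K := K) (Kc := Kc) (K1 := K1) hK (by linarith) hmp hp1.le
    (by rw [hm1]; exact hmass) hSfc le_rfl (by positivity)
  have hne : ∀ G, k7pMG W.toK7aLn E χ g G ≠ 0 → ∃ z ∈ E, z.1 ∈ W.Sp ∧ k7pGrp W.toK7aLn χ g z.1 = G := by
    intro G hG
    unfold k7pMG at hG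
    obtain ⟨z, hz⟩ := nonempty_of_measure_ne_zero hG
    exact ⟨z, hz.1, hz.2.1.1, hz.2.1.2⟩
  set bx : Finset (ℤ × ℤ × ℤ × ℤ) := (Finset.Icc ⌊(0 - K) / kbDy χ⌋ ⌊(0 + K) / kbDy χ⌋) ×ˢ (Finset.Icc ⌊(0 - K) / kbDy χ⌋ ⌊(0 + K) / kbDy χ⌋) ×ˢ
    (Finset.Icc ⌊(0 - K) / g⌋ ⌊(0 + K) / g⌋) ×ˢ (Finset.Icc ⌊(0 - K) / g⌋ ⌊(0 + K) / g⌋) with hbxd
  have hbx : ∀ G, k7pMG W.toK7aLn E χ g G ≠ 0 → G ∈ bx := by
    intro G hG
    obtain ⟨z, hzE, hzS, rfl⟩ := hne G hG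
    obtain ⟨b1, b2, b3, b4, -⟩ := hWl.bd z.1 hzS
    simp only [hbxd, Finset.mem_product, k7pGrp]
    exact ⟨k7wc_bin_window (k7wc_dy_pos χ) (by simpa using b2), k7wc_bin_window (k7wc_dy_pos χ) (by simpa using b1),
      k7wc_bin_window hg (by simpa using b3), k7wc_bin_window hg (by simpa using b4)⟩
  set Gd : Finset (ℤ × ℤ × ℤ × ℤ) := bx.filter (fun G =>
    (ENNReal.ofReal ((Sf G).card * σ ^ 2 * (χ * g * a ^ d)) * W.palχ χ G.1 ≤ ENNReal.ofReal K1 * k7pPG W.toK7aLn χ g G ∧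
      k7pPG W.toK7aLn χ g G ≤ ENNReal.ofReal (4 * K) * k7pMG W.toK7aLn E χ g G) ∧ k7pMG W.toK7aLn E χ g G ≠ 0) with hGd
  have hgood' : 1 ≤ ENNReal.ofReal (2 * K) * ∑ G ∈ Gd, k7pMG W.toK7aLn E χ g G := by
    refine hgood.trans (le_of_eq ?_)
    congr 1
    rw [tsum_eq_sum (s := Gd)]
    · exact Finset.sum_congr rfl fun G hG => if_pos (Finset.mem_filter.1 hG).2.1
    · intro G hG
      split_ifs with h1
      · by_contra h2
        exact hG (Finset.mem_filter.2 ⟨hbx G h2, h1, h2⟩)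
      · rfl
  -- one group
  have key : ∀ G ∈ Gd, ∃ βG : ℝ, σ ≤ K3 * βG ∧ βG ≤ K3 ∧ K7pOutG W.toK7aLn E χ g a d K3 (g * βG) G := by
    intro G hG
    obtain ⟨-, ⟨hc1, hc2⟩, hm0⟩ := Finset.mem_filter.1 hG
    have hp0 : k7pPG W.toK7aLn χ g G ≠ 0 := fun h => hm0 (le_antisymm ((hmp G).trans h.le) zero_le)
    have hpT : k7pPG W.toK7aLn χ g G ≠ ⊤ := ne_top_of_le_ne_top ENNReal.one_ne_top (hp1 ▸ ENNReal.le_tsum G)
    have hpal : W.palχ χ G.1 ≠ ⊤ := ne_top_of_le_ne_top ENNReal.one_ne_top ((measure_mono (Set.subset_univ _)).trans hWl.pal_le)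
    have hcc : 0 ≤ k7pC W.toK7aLn χ g G := by unfold k7pC; positivity
    have hcard : ((Sf G).card : ℝ) * σ ^ 2 * (χ * g * (W.palχ χ G.1).toReal * a ^ d) ≤ K1 * (k7pPG W.toK7aLn χ g G).toReal := by
      have := ENNReal.toReal_mono (ENNReal.mul_ne_top ENNReal.ofReal_ne_top hpT) hc1
      rw [ENNReal.toReal_mul, ENNReal.toReal_mul, ENNReal.toReal_ofReal (by positivity), ENNReal.toReal_ofReal (by positivity)] at this
      calc _ = ((Sf G).card : ℝ) * σ ^ 2 * (χ * g * a ^ d) * (W.palχ χ G.1).toReal := by ring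
        _ ≤ _ := this
    obtain ⟨z, hzE, hzS, hzG⟩ := hne G hm0
    have hSfne : 1 ≤ (Sf G).card := Finset.card_pos.2 ⟨_, hzG ▸ hSfm z (hEs hzE)⟩
    have hadm := k7p_adm_mono (k7p_data_adm W.toK7aLn hWl hK hg hE G (K0 := 4 * K) hp0 hc2) (K' := K2)
      (max_le (by linarith) (by linarith))
    have hcap := k7p_cap_mono (k7p_data_cap W.toK7aLn hWl hN hK hd hM hKn hnet ha hg hs.g_le hσ hχ0 hχ1 f1 f2 f0
      hE hEs G hp0) (K' := K2) f4 hcc ha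
    have hsup := k7p_supp_mono (k7p_data_supp W.toK7aLn hWl hE hEs G hp0 (Sf G) (fun z hz hzG => hzG ▸ hSfm z hz) hcard) (K' := K2) (by linarith)
    have hlo := k7p_c_lo W.toK7aLn hWl hN hK hM h0 hg hs.g_le hχ0 hχ1 f2 f3 (K0 := 4 * K) (by positivity) hE hEs G hp0 hc2
    have hhi := k7p_c_hi W.toK7aLn hσ ha G hp0 hpT (Sf G).card hSfne (by positivity) hcard
    have hclo : cLo ≤ k7pC W.toK7aLn χ g G := by
      refine le_of_mul_le_mul_right ?_ hB0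
      calc cLo * B ≤ 1 := hcLo
        _ ≤ 2688 * K ^ 2 * (4 * K) * k7pC W.toK7aLn χ g G := hlo
        _ = 10752 * K ^ 3 * k7pC W.toK7aLn χ g G := by ring
        _ ≤ B * k7pC W.toK7aLn χ g G := by gcongr
        _ = k7pC W.toK7aLn χ g G * B := mul_comm _ _
    have hchi : k7pC W.toK7aLn χ g G ≤ cHi := by
      refine hhi.trans (le_trans ?_ hcHi)
      exact div_le_div_of_nonneg_right hB2 (by positivity)
    obtain ⟨βG, hb1, hb2, hOut⟩ := hT W.L (k7pData W.toK7aLn E χ g G) (k7pC W.toK7aLn χ g G) hclo hchi hadm hcap hsup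
    have hβ0 : 0 ≤ βG := ((mul_pos_iff_of_pos_left (by linarith : 0 < K3)).1 (lt_of_lt_of_le hσ hb1)).le
    exact ⟨βG, hb1, hb2, k7p_out_back W.toK7aLn hWl hg hχ ha hβ0 hE G hp0 hOut⟩
  choose! βf hβ1 hβ2 hβO using key
  have hK30 : 0 < K3 := by linarith
  set lo : ℝ := g * σ / K3 with hlod
  have hlo : 0 < lo := by positivity
  have hb : ∀ G ∈ Gd, lo ≤ g * βf G ∧ g * βf G < 2 ^ n * lo := by
    intro G hG
    constructor
    · rw [hlod, div_le_iff₀ hK30]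
      calc g * σ ≤ g * (K3 * βf G) := by
            gcongr
            exact hβ1 G hG
        _ = g * βf G * K3 := by ring
    · have h1 : g * βf G ≤ g * K3 := by
        gcongr
        exact hβ2 G hG
      have h2 : g * K3 < 2 ^ n * lo := by
        rw [hlod, mul_div_assoc', lt_div_iff₀ hK30]
        have h3 : 0 < g * K3 ^ 2 := by positivity
        calc g * K3 * K3 = g * K3 ^ 2 := by ring
          _ < g * (2 * K3 ^ 2) := by linarith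
          _ ≤ g * (2 ^ n * σ) := by gcongr
          _ = 2 ^ n * (g * σ) := by ring
      linarith
  obtain ⟨k, hkn, hcl⟩ := k7p_class Gd (fun G => k7pMG W.toK7aLn E χ g G) (fun G => g * βf G) hlo n hn1 hb
  set β : ℝ := 2 ^ k * lo with hβd
  have hβ : 0 < β := by positivity
  set Gd' : Finset (ℤ × ℤ × ℤ × ℤ) := Gd.filter (fun G => β ≤ g * βf G ∧ g * βf G < 2 ^ (k + 1) * lo) with hGd'
  obtain ⟨P, hP, hPm⟩ := k7p_assemble W.toK7aLn hWl hK30.le hβ hχ.le ha hE hEs Gd' (fun G => g * βf G)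
    (fun G hG => ⟨(Finset.mem_filter.1 hG).2.1, by
      have := (Finset.mem_filter.1 hG).2.2
      rw [pow_succ] at this
      rw [hβd]
      linarith⟩)
    (fun G hG => hβO G (Finset.mem_filter.1 hG).1)
  refine ⟨P, β, E ∩ {z | P.lab z.1 ≠ none}, ?_, Set.inter_subset_left, fun p hp => hp.2, ?_, hP, ?_, ?_⟩
  · refine hE.inter ?_
    have : {z : W.L × ℝ | P.lab z.1 ≠ none} = (Prod.fst ⁻¹' (P.lab ⁻¹' {none}))ᶜ := by
      ext z
      simp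
    rw [this]
    exact (measurable_fst (hP.meas none)).compl
  · calc (1 : ℝ≥0∞) ≤ ENNReal.ofReal (2 * K) * ∑ G ∈ Gd, k7pMG W.toK7aLn E χ g G := hgood'
      _ ≤ ENNReal.ofReal (2 * K) * (n * ∑ G ∈ Gd', k7pMG W.toK7aLn E χ g G) := by gcongr
      _ ≤ ENNReal.ofReal (2 * K) * (n * ∑ G ∈ Gd', k7pPG W.toK7aLn χ g G) := by
          gcongr with G hG
          exact hmp G
      _ ≤ ENNReal.ofReal (2 * K) * (n * (ENNReal.ofReal K3 * W.prior (E ∩ {z | P.lab z.1 ≠ none}))) := by gcongr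
      _ = ENNReal.ofReal (2 * K * n * K3) * W.prior (E ∩ {z | P.lab z.1 ≠ none}) := by
          have hof : ENNReal.ofReal (2 * K * n * K3) = ENNReal.ofReal (2 * K) * n * ENNReal.ofReal K3 := by
            rw [ENNReal.ofReal_mul (by positivity), ENNReal.ofReal_mul (by positivity), ENNReal.ofReal_natCast]
          rw [hof]
          ring
  · have h1 : (1 : ℝ) ≤ 2 ^ k := one_le_pow₀ (by norm_num)
    have h2 : K3 * β = 2 ^ k * (g * σ) := by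
      rw [hβd, hlod]
      field_simp
    rw [h2]
    exact le_mul_of_one_le_left (mul_pos hg hσ).le h1
  · have hne' : Gd'.Nonempty := by
      by_contra hemp
      rw [Finset.not_nonempty_iff_eq_empty] at hemp
      rw [hemp] at hcl
      simp only [Finset.sum_empty, mul_zero, nonpos_iff_eq_zero] at hcl
      rw [hcl, mul_zero] at hgood'
      exact absurd hgood' (by norm_num)
    obtain ⟨G, hG⟩ := hne'
    obtain ⟨hG1, hG2, -⟩ := Finset.mem_filter.1 hG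
    calc β ≤ g * βf G := hG2
      _ ≤ g * K3 := by
          gcongr
          exact hβ2 G hG1
      _ = K3 * g := mul_comm _ _

/-- `N` large: a constant is below a positive power -/
theorem k7p_num_big {Cs γ N : ℝ} (hC : 0 < Cs) (hγ : 0 < γ) (hN : Cs ^ (1 / γ) ≤ N) : Cs ≤ N ^ γ := by
  calc Cs = (Cs ^ (1 / γ)) ^ γ := by rw [← Real.rpow_mul hC.le, one_div_mul_cancel hγ.ne', Real.rpow_one]
    _ ≤ N ^ γ := Real.rpow_le_rpow (Real.rpow_nonneg hC.le _) hN hγ.le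

/-- the dyadic mesh `σ ∈ [N^{-M}, 2 N^{-M}]` -/
theorem k7p_num_sigma {N M : ℝ} (hN : 1 < N) (hM : 0 < M) : ∃ m : ℕ, N ^ (-M) ≤ (1 / 2 : ℝ) ^ m ∧ (1 / 2 : ℝ) ^ m ≤ 2 * N ^ (-M) := by
  have hN0 : 0 < N := by linarith
  have hL : 0 ≤ M * Real.logb 2 N := mul_nonneg hM.le (Real.logb_nonneg (by norm_num) hN.le)
  have hN2 : (2 : ℝ) ^ (Real.logb 2 N) = N := Real.rpow_logb (by norm_num) (by norm_num) hN0
  have e2 : N ^ (-M) = (2 : ℝ) ^ (-(M * Real.logb 2 N)) := by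
    calc N ^ (-M) = ((2 : ℝ) ^ (Real.logb 2 N)) ^ (-M) := by rw [hN2]
      _ = (2 : ℝ) ^ (Real.logb 2 N * (-M)) := (Real.rpow_mul (by norm_num) _ _).symm
      _ = (2 : ℝ) ^ (-(M * Real.logb 2 N)) := by
          congr 1
          ring
  have e1 : ∀ m : ℕ, (1 / 2 : ℝ) ^ m = (2 : ℝ) ^ (-(m : ℝ)) := fun m => by
    rw [Real.rpow_neg (by norm_num), Real.rpow_natCast, one_div, inv_pow]
  refine ⟨⌊M * Real.logb 2 N⌋₊, ?_, ?_⟩
  · rw [e1, e2]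
    exact Real.rpow_le_rpow_of_exponent_le (by norm_num) (neg_le_neg (Nat.floor_le hL))
  · rw [e1, e2]
    have h1 := Nat.lt_floor_add_one (M * Real.logb 2 N)
    calc (2 : ℝ) ^ (-((⌊M * Real.logb 2 N⌋₊ : ℕ) : ℝ)) ≤ (2 : ℝ) ^ (1 + -(M * Real.logb 2 N)) :=
          Real.rpow_le_rpow_of_exponent_le (by norm_num) (by linarith)
      _ = 2 * (2 : ℝ) ^ (-(M * Real.logb 2 N)) := by rw [Real.rpow_add (by norm_num), Real.rpow_one]

/-- the net of widths `{j δ}` with ratio `N^δ` -/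
theorem k7p_num_net {N s δ : ℝ} (hN : 1 < N) (hδ : 0 < δ) (p : ℝ) (hp : N ^ (-s) ≤ p) (hp1 : p ≤ 1) :
    ∃ r ∈ (Finset.range (⌈s / δ⌉₊ + 1)).image (fun j : ℕ => (j : ℝ) * δ), N ^ (-r) ≤ p ∧ p ≤ N ^ δ * N ^ (-r) := by
  have hN0 : 0 < N := by linarith
  have hp0 : 0 < p := lt_of_lt_of_le (Real.rpow_pos_of_pos hN0 _) hp
  obtain ⟨e, he⟩ : ∃ e : ℝ, e = -Real.logb N p := ⟨_, rfl⟩
  have hpe : N ^ (-e) = p := by
    rw [he, neg_neg]
    exact Real.rpow_logb hN0 hN.ne' hp0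
  have he0 : 0 ≤ e := by
    rw [he]
    exact neg_nonneg.2 (Real.logb_nonpos hN hp0.le hp1)
  have hes : e ≤ s := by
    have := (Real.le_logb_iff_rpow_le hN hp0).2 hp
    rw [he]
    linarith
  refine ⟨(⌈e / δ⌉₊ : ℕ) * δ, Finset.mem_image.2 ⟨⌈e / δ⌉₊, Finset.mem_range.2 (Nat.lt_succ_of_le (Nat.ceil_mono (div_le_div_of_nonneg_right hes hδ.le))), rfl⟩, ?_, ?_⟩
  · rw [← hpe]
    refine Real.rpow_le_rpow_of_exponent_le hN.le (neg_le_neg ?_)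
    have := Nat.le_ceil (e / δ)
    rwa [div_le_iff₀ hδ] at this
  · rw [← hpe, ← Real.rpow_add hN0]
    refine Real.rpow_le_rpow_of_exponent_le hN.le ?_
    have h1 := Nat.ceil_lt_add_one (div_nonneg he0 hδ.le)
    have h2 : ((⌈e / δ⌉₊ : ℕ) : ℝ) * δ < (e / δ + 1) * δ := mul_lt_mul_of_pos_right h1 hδ
    have h3 : (e / δ + 1) * δ = e + δ := by
      field_simp
    linarith

/-- the CLIPPED net of widths `{min (j δ) s}` with ratio `N^δ` (all exponents in `[0, s]`) -/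
theorem k7p_num_netc {N s δ : ℝ} (hN : 1 < N) (hδ : 0 < δ) (p : ℝ) (hp : N ^ (-s) ≤ p) (hp1 : p ≤ 1) :
    ∃ r ∈ (Finset.range (⌈s / δ⌉₊ + 1)).image (fun j : ℕ => min ((j : ℝ) * δ) s), N ^ (-r) ≤ p ∧ p ≤ N ^ δ * N ^ (-r) := by
  have hN0 : 0 < N := by linarith
  obtain ⟨r, hr, h1, h2⟩ := k7p_num_net hN hδ p hp hp1
  obtain ⟨j, hj, rfl⟩ := Finset.mem_image.1 hr
  refine ⟨min ((j : ℝ) * δ) s, Finset.mem_image.2 ⟨j, hj, rfl⟩, ?_, ?_⟩
  · rcases le_total ((j : ℝ) * δ) s with h | h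
    · rw [min_eq_left h]
      exact h1
    · rw [min_eq_right h]
      exact hp
  · refine h2.trans (mul_le_mul_of_nonneg_left ?_ (Real.rpow_pos_of_pos hN0 _).le)
    exact Real.rpow_le_rpow_of_exponent_le hN.le (neg_le_neg (min_le_left _ _))

/-- a dyadic exponent above `Y` -/
theorem k7p_num_ceil {Y : ℝ} (hY : 2 ≤ Y) : ∃ n : ℕ, 1 ≤ n ∧ Y ≤ 2 ^ n ∧ (n : ℝ) ≤ Real.logb 2 Y + 1 := by
  have hY0 : 0 < Y := by linarith
  have h1 : 1 ≤ Real.logb 2 Y := by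
    rw [Real.le_logb_iff_rpow_le (by norm_num) hY0, Real.rpow_one]
    exact hY
  refine ⟨⌈Real.logb 2 Y⌉₊, ?_, ?_, (Nat.ceil_lt_add_one (by linarith)).le⟩
  · exact Nat.one_le_iff_ne_zero.2 (fun h0 => by
      have := Nat.ceil_eq_zero.1 h0
      linarith)
  · calc Y = (2 : ℝ) ^ (Real.logb 2 Y) := (Real.rpow_logb (by norm_num) (by norm_num) hY0).symm
      _ ≤ (2 : ℝ) ^ ((⌈Real.logb 2 Y⌉₊ : ℕ) : ℝ) := Real.rpow_le_rpow_of_exponent_le (by norm_num) (Nat.le_ceil _)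
      _ = 2 ^ ⌈Real.logb 2 Y⌉₊ := Real.rpow_natCast _ _

/-- `log₂ (N^E) ≤ (2 E / ε) N^ε` -/
theorem k7p_num_log {N E ε : ℝ} (hN : 1 ≤ N) (hE : 0 ≤ E) (hε : 0 < ε) : Real.logb 2 (N ^ E) ≤ 2 * E / ε * N ^ ε := by
  have hN0 : 0 < N := by linarith
  have hl2 : 1 / 2 ≤ Real.log 2 := by
    have := Real.log_two_gt_d9
    linarith
  have hl0 : 0 ≤ Real.log N := Real.log_nonneg hN
  have h1 : Real.log N ≤ N ^ ε / ε := Real.log_le_rpow_div hN0.le hε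
  have h2 : Real.logb 2 N ≤ 2 * Real.log N := by
    unfold Real.logb
    rw [div_le_iff₀ (by linarith)]
    nlinarith
  rw [Real.logb_rpow_eq_mul_logb_of_pos hN0]
  calc E * Real.logb 2 N ≤ E * (2 * (N ^ ε / ε)) := mul_le_mul_of_nonneg_left (h2.trans (by linarith)) hE
    _ = 2 * E / ε * N ^ ε := by ring

/-- the smallness of the meshes and the mesh of the prior -/
theorem k7p_num_sm {N τ s eh eg M Mχ σ : ℝ} (hN : 1 < N) (hτ0 : 0 < τ) (hτ1 : τ ≤ eg / 4) (hτ2 : τ ≤ 1 / 4) (hs : 0 < s) (heh : 0 < eh) (heg : 0 < eg)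
    (hM : s + eh + eg < M) (hMχ : s + eh + eg + M + 1 ≤ Mχ) (hσ1 : N ^ (-M) ≤ σ) (hσ2 : σ ≤ 2 * N ^ (-M)) (b1 : 16 ≤ N ^ (eg / 2)) (b2 : 16 ≤ N ^ (1 / 2 : ℝ)) :
    K7pSm (N ^ τ) (N ^ (-s)) (N ^ (-eh)) (N ^ (-eg)) (N ^ (-Mχ)) σ ∧
      4 * (N ^ τ + 2) * N ^ (-(Mχ + M + eg + 1)) ≤ N ^ (-Mχ) * σ * N ^ (-eg) := by
  have hN0 : 0 < N := by linarith
  have hadd : ∀ a b : ℝ, N ^ a * N ^ b = N ^ (a + b) := fun a b => (Real.rpow_add hN0 a b).symm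
  have hmono : ∀ a b : ℝ, a ≤ b → N ^ a ≤ N ^ b := fun a b h => Real.rpow_le_rpow_of_exponent_le hN.le h
  have hpos : ∀ a : ℝ, 0 < N ^ a := fun a => Real.rpow_pos_of_pos hN0 a
  have hle1 : ∀ a : ℝ, 0 < a → N ^ (-a) ≤ 1 := fun a ha => Real.rpow_le_one_of_one_le_of_nonpos hN.le (by linarith)
  have hK1 : 1 ≤ N ^ τ := Real.one_le_rpow hN.le hτ0.le
  have hK2 : (N ^ τ) ^ 2 = N ^ (2 * τ) := by
    rw [← Real.rpow_natCast, ← Real.rpow_mul hN0.le]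
    congr 1
    push_cast
    ring
  have hσ0 : 0 < σ := lt_of_lt_of_le (hpos _) hσ1
  refine ⟨⟨hK1, hpos _, hle1 s hs, hpos _, hle1 eh heh, hpos _, hle1 eg heg, hσ0, hpos _, ?_, ?_⟩, ?_⟩
  · calc 8 * (N ^ τ) ^ 2 * σ ≤ 8 * (N ^ τ) ^ 2 * (2 * N ^ (-M)) := mul_le_mul_of_nonneg_left hσ2 (by positivity)
      _ = 16 * (N ^ (2 * τ) * N ^ (-M)) := by
          rw [hK2]
          ring
      _ ≤ N ^ (eg / 2) * (N ^ (2 * τ) * N ^ (-M)) := mul_le_mul_of_nonneg_right b1 (mul_pos (hpos _) (hpos _)).le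
      _ = N ^ (eg / 2 + (2 * τ + -M)) := by rw [hadd, hadd]
      _ ≤ N ^ (-s + -eh) := hmono _ _ (by linarith)
      _ = N ^ (-s) * N ^ (-eh) := (hadd _ _).symm
  · calc 8 * (N ^ τ) ^ 2 * N ^ (-Mχ) = 8 * (N ^ (2 * τ) * N ^ (-Mχ)) := by
          rw [hK2]
          ring
      _ ≤ N ^ (1 / 2 : ℝ) * (N ^ (2 * τ) * N ^ (-Mχ)) := mul_le_mul_of_nonneg_right (by linarith) (mul_pos (hpos _) (hpos _)).le
      _ = N ^ (1 / 2 + (2 * τ + -Mχ)) := by rw [hadd, hadd]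
      _ ≤ N ^ (-s + -eh + -eg + -M) := hmono _ _ (by linarith)
      _ = N ^ (-s) * N ^ (-eh) * N ^ (-eg) * N ^ (-M) := by rw [hadd, hadd, hadd]
      _ ≤ N ^ (-s) * N ^ (-eh) * N ^ (-eg) * σ := mul_le_mul_of_nonneg_left hσ1 (mul_pos (mul_pos (hpos _) (hpos _)) (hpos _)).le
  · calc 4 * (N ^ τ + 2) * N ^ (-(Mχ + M + eg + 1)) ≤ 4 * (3 * N ^ τ) * N ^ (-(Mχ + M + eg + 1)) :=
          mul_le_mul_of_nonneg_right (by linarith) (hpos _).le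
      _ = 12 * (N ^ τ * N ^ (-(Mχ + M + eg + 1))) := by ring
      _ ≤ N ^ (1 / 2 : ℝ) * (N ^ τ * N ^ (-(Mχ + M + eg + 1))) := mul_le_mul_of_nonneg_right (by linarith) (mul_pos (hpos _) (hpos _)).le
      _ = N ^ (1 / 2 + (τ + -(Mχ + M + eg + 1))) := by rw [hadd, hadd]
      _ ≤ N ^ (-Mχ + -M + -eg) := hmono _ _ (by linarith)
      _ = N ^ (-Mχ) * N ^ (-M) * N ^ (-eg) := by rw [hadd, hadd]
      _ ≤ N ^ (-Mχ) * σ * N ^ (-eg) := mul_le_mul_of_nonneg_right (mul_le_mul_of_nonneg_left hσ1 (hpos _).le) (hpos _).le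

/-- the numerical hypotheses around Thm 7.1 -/
theorem k7p_num_T {N τ τ₁ C d s M σ : ℝ} {c : ℕ} (hN : 1 < N) (hc1 : τ * c ≤ τ₁ / 4) (hc2 : τ * c ≤ 1) (hτ₁ : 0 < τ₁)
    (hd1 : d < 1) (hs : 0 < s) (hM : 0 < M) (hσ1 : N ^ (-M) ≤ σ) (hσ2 : σ ≤ 2 * N ^ (-M)) (b3 : 16 ≤ N ^ (τ₁ / 4)) (b4 : C ≤ N ^ (τ₁ / 4)) (b5 : C ≤ N ^ (1 / 2 : ℝ)) :
    N ^ (-M - τ₁) ≤ σ ∧ σ ≤ N ^ (-M + τ₁) ∧ C * (N ^ τ) ^ c * N ^ (τ₁ / 4) ≤ N ^ τ₁ ∧ N ^ (-(2 * M + s + 2)) * (C * (N ^ τ) ^ c) ≤ 1 ∧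
      C * (N ^ τ) ^ c / (σ ^ 2 * (N ^ (-s)) ^ d) ≤ N ^ (2 * M + s + 2) := by
  have hN0 : 0 < N := by linarith
  have hadd : ∀ a b : ℝ, N ^ a * N ^ b = N ^ (a + b) := fun a b => (Real.rpow_add hN0 a b).symm
  have hmono : ∀ a b : ℝ, a ≤ b → N ^ a ≤ N ^ b := fun a b h => Real.rpow_le_rpow_of_exponent_le hN.le h
  have hpos : ∀ a : ℝ, 0 < N ^ a := fun a => Real.rpow_pos_of_pos hN0 a
  have hKc : (N ^ τ) ^ c = N ^ (τ * c) := by rw [← Real.rpow_natCast, ← Real.rpow_mul hN0.le]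
  have hσ0 : 0 < σ := lt_of_lt_of_le (hpos _) hσ1
  have hCK : C * (N ^ τ) ^ c ≤ N ^ (1 / 2 + τ * c) := by
    rw [hKc, ← hadd]
    exact mul_le_mul_of_nonneg_right b5 (hpos _).le
  refine ⟨(hmono _ _ (by linarith)).trans hσ1, ?_, ?_, ?_, ?_⟩
  · calc σ ≤ 2 * N ^ (-M) := hσ2
      _ ≤ N ^ (τ₁ / 4) * N ^ (-M) := mul_le_mul_of_nonneg_right (by linarith) (hpos _).le
      _ = N ^ (τ₁ / 4 + -M) := hadd _ _
      _ ≤ N ^ (-M + τ₁) := hmono _ _ (by linarith)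
  · calc C * (N ^ τ) ^ c * N ^ (τ₁ / 4) ≤ N ^ (τ₁ / 4) * N ^ (τ * c) * N ^ (τ₁ / 4) := by
          rw [hKc]
          exact mul_le_mul_of_nonneg_right (mul_le_mul_of_nonneg_right b4 (hpos _).le) (hpos _).le
      _ = N ^ (τ₁ / 4 + τ * c + τ₁ / 4) := by rw [hadd, hadd]
      _ ≤ N ^ τ₁ := hmono _ _ (by linarith)
  · calc N ^ (-(2 * M + s + 2)) * (C * (N ^ τ) ^ c) ≤ N ^ (-(2 * M + s + 2)) * N ^ (1 / 2 + τ * c) := mul_le_mul_of_nonneg_left hCK (hpos _).le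
      _ = N ^ (-(2 * M + s + 2) + (1 / 2 + τ * c)) := hadd _ _
      _ ≤ N ^ (0 : ℝ) := hmono _ _ (by linarith)
      _ = 1 := Real.rpow_zero _
  · have hsd : s * d ≤ s := by nlinarith
    have e1 : (N ^ (-s)) ^ d = N ^ (-s * d) := (Real.rpow_mul hN0.le _ _).symm
    have e2 : N ^ (-M * 2) ≤ σ ^ 2 := by
      have : (N ^ (-M)) ^ 2 = N ^ (-M * 2) := by
        rw [← Real.rpow_natCast, ← Real.rpow_mul hN0.le]
        norm_num
      rw [← this]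
      exact pow_le_pow_left₀ (hpos _).le hσ1 2
    rw [div_le_iff₀ (mul_pos (by positivity) (Real.rpow_pos_of_pos (hpos _) _)), e1]
    calc C * (N ^ τ) ^ c ≤ N ^ (1 / 2 + τ * c) := hCK
      _ ≤ N ^ (2 * M + s + 2 + (-M * 2 + -s * d)) := hmono _ _ (by linarith)
      _ = N ^ (2 * M + s + 2) * (N ^ (-M * 2) * N ^ (-s * d)) := by rw [hadd, hadd]
      _ ≤ N ^ (2 * M + s + 2) * (σ ^ 2 * N ^ (-s * d)) :=
          mul_le_mul_of_nonneg_left (mul_le_mul_of_nonneg_right e2 (hpos _).le) (hpos _).le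

/-- the number of dyadic classes and the final slacks -/
theorem k7p_num_n {N τ τ' eg M σ : ℝ} (hN : 2 ≤ N) (hτ3 : τ ≤ τ' / 8) (hτ' : 0 < τ') (hM : 0 < M) (hσ0 : 0 < σ) (hσ1 : N ^ (-M) ≤ σ) (hσ3 : σ ≤ 1)
    (b6 : 16 * (M + τ' / 2 + 1) / τ' + 2 ≤ N ^ (τ' / 8)) :
    (∃ n : ℕ, 2 * (N ^ (τ' / 4)) ^ 2 ≤ 2 ^ n * σ ∧ 1 ≤ n ∧ 2 * N ^ τ * n * N ^ (τ' / 4) ≤ N ^ τ') ∧ 2 * N ^ (τ' / 4) ≤ N ^ τ' ∧
      N ^ (-eg - M - τ') * N ^ (τ' / 4) ≤ N ^ (-eg) * σ ∧ N ^ (τ' / 4) * N ^ (-eg) ≤ N ^ (-eg + τ') := by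
  have hN1 : 1 ≤ N := by linarith
  have hN0 : 0 < N := by linarith
  have hadd : ∀ a b : ℝ, N ^ a * N ^ b = N ^ (a + b) := fun a b => (Real.rpow_add hN0 a b).symm
  have hmono : ∀ a b : ℝ, a ≤ b → N ^ a ≤ N ^ b := fun a b h => Real.rpow_le_rpow_of_exponent_le hN1 h
  have hpos : ∀ a : ℝ, 0 < N ^ a := fun a => Real.rpow_pos_of_pos hN0 a
  have hB0 : 0 ≤ 16 * (M + τ' / 2 + 1) / τ' := by positivity
  have hy2 : 2 ≤ N ^ (τ' / 8) := by linarith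
  have hK32 : (N ^ (τ' / 4)) ^ 2 = N ^ (τ' / 2) := by
    rw [← Real.rpow_natCast, ← Real.rpow_mul hN0.le]
    congr 1
    push_cast
    ring
  have hK31 : 1 ≤ N ^ (τ' / 2) := Real.one_le_rpow hN1 (by linarith)
  refine ⟨?_, ?_, ?_, ?_⟩
  · have hY2 : 2 ≤ 2 * (N ^ (τ' / 4)) ^ 2 / σ := by
      rw [le_div_iff₀ hσ0, hK32]
      nlinarith
    obtain ⟨n, hn1, hn2, hn3⟩ := k7p_num_ceil hY2
    refine ⟨n, (div_le_iff₀ hσ0).1 hn2, hn1, ?_⟩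
    have hYE : 2 * (N ^ (τ' / 4)) ^ 2 / σ ≤ N ^ (M + τ' / 2 + 1) := by
      rw [div_le_iff₀ hσ0, hK32]
      calc 2 * N ^ (τ' / 2) ≤ N ^ (1 : ℝ) * N ^ (τ' / 2) := by
            rw [Real.rpow_one]
            exact mul_le_mul_of_nonneg_right hN (hpos _).le
        _ = N ^ (M + τ' / 2 + 1) * N ^ (-M) := by
            rw [hadd, hadd]
            congr 1
            ring
        _ ≤ N ^ (M + τ' / 2 + 1) * σ := mul_le_mul_of_nonneg_left hσ1 (hpos _).le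
    have hlog : Real.logb 2 (2 * (N ^ (τ' / 4)) ^ 2 / σ) ≤ 16 * (M + τ' / 2 + 1) / τ' * N ^ (τ' / 8) := by
      refine (Real.logb_le_logb_of_le (by norm_num) (by linarith) hYE).trans ?_
      refine (k7p_num_log hN1 (by positivity) (by positivity : 0 < τ' / 8)).trans (le_of_eq ?_)
      congr 1
      field_simp
      ring
    have hn4 : (n : ℝ) ≤ N ^ (τ' / 4) := by
      have e : N ^ (τ' / 4) = N ^ (τ' / 8) * N ^ (τ' / 8) := by
        rw [hadd]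
        congr 1
        ring
      rw [e]
      nlinarith
    calc 2 * N ^ τ * n * N ^ (τ' / 4) ≤ N ^ (τ' / 8) * N ^ (τ' / 8) * N ^ (τ' / 4) * N ^ (τ' / 4) := by
          have h1 : N ^ τ ≤ N ^ (τ' / 8) := hmono _ _ hτ3
          have h2 := (hpos τ).le
          have h3 := (hpos (τ' / 4)).le
          gcongr
      _ = N ^ (τ' / 8 + τ' / 8 + τ' / 4 + τ' / 4) := by rw [hadd, hadd, hadd]
      _ ≤ N ^ τ' := hmono _ _ (by linarith)
  · calc 2 * N ^ (τ' / 4) ≤ N ^ (τ' / 8) * N ^ (τ' / 4) := mul_le_mul_of_nonneg_right hy2 (hpos _).le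
      _ = N ^ (τ' / 8 + τ' / 4) := hadd _ _
      _ ≤ N ^ τ' := hmono _ _ (by linarith)
  · calc N ^ (-eg - M - τ') * N ^ (τ' / 4) = N ^ (-eg - M - τ' + τ' / 4) := hadd _ _
      _ ≤ N ^ (-eg + -M) := hmono _ _ (by linarith)
      _ = N ^ (-eg) * N ^ (-M) := (hadd _ _).symm
      _ ≤ N ^ (-eg) * σ := mul_le_mul_of_nonneg_left hσ1 (hpos _).le
  · rw [hadd]
    exact hmono _ _ (by linarith)

/-- **all the numerical hypotheses of `k7p_proj_one`** for `N` large -/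
theorem k7p_num_all (d s eh eg M Mχ τ' τ₁ C : ℝ) (c : ℕ) (hd1 : d < 1) (hs : 0 < s) (heh : 0 < eh) (heg : 0 < eg) (hM : s + eh + eg < M)
    (hMχ : s + eh + eg + M + 1 ≤ Mχ) (hτ' : 0 < τ') (hτ₁ : 0 < τ₁) :
    ∃ τ N2 : ℝ, 0 < τ ∧ ∀ N : ℝ, N2 ≤ N → 1 < N ∧ ∃ m n : ℕ,
      K7pSm (N ^ τ) (N ^ (-s)) (N ^ (-eh)) (N ^ (-eg)) (N ^ (-Mχ)) ((1 / 2 : ℝ) ^ m) ∧
      4 * (N ^ τ + 2) * N ^ (-(Mχ + M + eg + 1)) ≤ N ^ (-Mχ) * (1 / 2 : ℝ) ^ m * N ^ (-eg) ∧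
      (N ^ (-M - τ₁) ≤ (1 / 2 : ℝ) ^ m ∧ (1 / 2 : ℝ) ^ m ≤ N ^ (-M + τ₁) ∧ C * (N ^ τ) ^ c * N ^ (τ₁ / 4) ≤ N ^ τ₁ ∧ N ^ (-(2 * M + s + 2)) * (C * (N ^ τ) ^ c) ≤ 1 ∧
        C * (N ^ τ) ^ c / (((1 / 2 : ℝ) ^ m) ^ 2 * (N ^ (-s)) ^ d) ≤ N ^ (2 * M + s + 2)) ∧
      (2 * (N ^ (τ' / 4)) ^ 2 ≤ 2 ^ n * (1 / 2 : ℝ) ^ m ∧ 1 ≤ n ∧ 2 * N ^ τ * n * N ^ (τ' / 4) ≤ N ^ τ') ∧ 2 * N ^ (τ' / 4) ≤ N ^ τ' ∧
      N ^ (-eg - M - τ') * N ^ (τ' / 4) ≤ N ^ (-eg) * (1 / 2 : ℝ) ^ m ∧ N ^ (τ' / 4) * N ^ (-eg) ≤ N ^ (-eg + τ') := by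
  have hM0 : 0 < M := by linarith
  have hc0 : (0 : ℝ) < (c : ℝ) + 1 := by positivity
  obtain ⟨τ, hτdef⟩ : ∃ τ : ℝ, τ = min (min (eg / 4) (1 / 4)) (min (min (τ₁ / (4 * ((c : ℝ) + 1))) (1 / ((c : ℝ) + 1))) (τ' / 8)) := ⟨_, rfl⟩
  have hτ0 : 0 < τ := by
    rw [hτdef]
    positivity
  have hτ1 : τ ≤ eg / 4 := by
    rw [hτdef]
    exact (min_le_left _ _).trans (min_le_left _ _)
  have hτ2 : τ ≤ 1 / 4 := by
    rw [hτdef]
    exact (min_le_left _ _).trans (min_le_right _ _)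
  have hτ3 : τ ≤ τ' / 8 := by
    rw [hτdef]
    exact (min_le_right _ _).trans (min_le_right _ _)
  have hτ4 : τ ≤ τ₁ / (4 * ((c : ℝ) + 1)) := by
    rw [hτdef]
    exact (min_le_right _ _).trans ((min_le_left _ _).trans (min_le_left _ _))
  have hτ5 : τ ≤ 1 / ((c : ℝ) + 1) := by
    rw [hτdef]
    exact (min_le_right _ _).trans ((min_le_left _ _).trans (min_le_right _ _))
  have hcc : τ * c ≤ τ * ((c : ℝ) + 1) := mul_le_mul_of_nonneg_left (by linarith) hτ0.le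
  have hc1 : τ * c ≤ τ₁ / 4 := by
    refine hcc.trans ((mul_le_mul_of_nonneg_right hτ4 hc0.le).trans (le_of_eq ?_))
    field_simp
  have hc2 : τ * c ≤ 1 := by
    refine hcc.trans ((mul_le_mul_of_nonneg_right hτ5 hc0.le).trans (le_of_eq ?_))
    field_simp
  obtain ⟨γ, hγdef⟩ : ∃ γ : ℝ, γ = min (min (eg / 2) (1 / 2)) (min (τ₁ / 4) (τ' / 8)) := ⟨_, rfl⟩
  have hγ0 : 0 < γ := by
    rw [hγdef]
    positivity
  have hγ1 : γ ≤ eg / 2 := by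
    rw [hγdef]
    exact (min_le_left _ _).trans (min_le_left _ _)
  have hγ2 : γ ≤ 1 / 2 := by
    rw [hγdef]
    exact (min_le_left _ _).trans (min_le_right _ _)
  have hγ3 : γ ≤ τ₁ / 4 := by
    rw [hγdef]
    exact (min_le_right _ _).trans (min_le_left _ _)
  have hγ4 : γ ≤ τ' / 8 := by
    rw [hγdef]
    exact (min_le_right _ _).trans (min_le_right _ _)
  obtain ⟨Cs, hCsdef⟩ : ∃ Cs : ℝ, Cs = max (max 16 C) (16 * (M + τ' / 2 + 1) / τ' + 2) := ⟨_, rfl⟩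
  have hCs1 : 16 ≤ Cs := by
    rw [hCsdef]
    exact (le_max_left _ _).trans (le_max_left _ _)
  have hCs2 : C ≤ Cs := by
    rw [hCsdef]
    exact (le_max_right _ _).trans (le_max_left _ _)
  have hCs3 : 16 * (M + τ' / 2 + 1) / τ' + 2 ≤ Cs := by
    rw [hCsdef]
    exact le_max_right _ _
  refine ⟨τ, max 2 (Cs ^ (1 / γ)), hτ0, fun N hN => ?_⟩
  have hN2 : 2 ≤ N := (le_max_left _ _).trans hN
  have hN1 : 1 < N := by linarith
  have hbig : Cs ≤ N ^ γ := k7p_num_big (by linarith) hγ0 ((le_max_right _ _).trans hN)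
  have hup : ∀ e : ℝ, γ ≤ e → Cs ≤ N ^ e := fun e he => hbig.trans (Real.rpow_le_rpow_of_exponent_le hN1.le he)
  obtain ⟨m, hσ1, hσ2⟩ := k7p_num_sigma hN1 hM0
  have hσ0 : (0 : ℝ) < (1 / 2 : ℝ) ^ m := by positivity
  have hσ3 : (1 / 2 : ℝ) ^ m ≤ 1 := pow_le_one₀ (by norm_num) (by norm_num)
  obtain ⟨⟨n, hn⟩, r2, r3, r4⟩ := k7p_num_n (eg := eg) hN2 hτ3 hτ' hM0 hσ0 hσ1 hσ3 (hCs3.trans (hup _ hγ4))
  obtain ⟨q1, q2⟩ := k7p_num_sm hN1 hτ0 hτ1 hτ2 hs heh heg hM hMχ hσ1 hσ2 (hCs1.trans (hup _ hγ1)) (hCs1.trans (hup _ hγ2))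
  exact ⟨hN1, m, n, q1, q2, k7p_num_T hN1 hc1 hc2 hτ₁ hd1 hs hM0 hσ1 hσ2 (hCs1.trans (hup _ hγ3)) (hCs2.trans (hup _ hγ3)) (hCs2.trans (hup _ hγ2)), hn, r2, r3, r4⟩

/-- the layers are monotone in the slack -/
theorem k7p_layer_mono {W : K7aLn} {P : K7aLayer W} {K K' χ th β d : ℝ} (H : P.Ok K χ th β d) (hK : K ≤ K') (hth : 0 ≤ th) (hβ : 0 ≤ β) :
    P.Ok K' χ th β d where
  meas := H.meas
  grp := H.grp
  quad := H.quad
  norm := fun φ t ht u hu => (H.norm φ t ht u hu).trans hK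
  fit := fun l φ hl t ht => by
    obtain ⟨h1, h2⟩ := H.fit l φ hl t ht
    exact ⟨h1.trans (mul_le_mul_of_nonneg_right hK hβ), h2.trans (mul_le_mul_of_nonneg_right hK hth)⟩
  floor := fun φ => (H.floor φ).trans (mul_le_mul' (ENNReal.ofReal_le_ofReal hK) le_rfl)

/-- **L-252-S7p-P13** **Sec 7.2, finite-scale form** (exponents only).
PROOF.  Given `d S s eh eg M`: `Mχ0 := s + eh + eg + M + 1`.   Given `Mχ ≥ Mχ0`, `τ'`: `A := 2 M + s + 2`; `h s M d A (τ'/4)` (Thm 7.1; `0 < s < M`) gives `τ₁, N₁`.   `(C, c)` from `k7p_proj_one`.   `δ := τ₁/4`, `τ := min (τ₁/(4(c+1))) (τ'/8)`-like;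
`Ws := {j δ : j ≤ ⌈s/δ⌉}` (contains `0`; net with `Kn = N^δ`), `Ms := {M'}`, `M' := Mχ + M + eg + 1`.   `σ := (1/2)^m` with `N^{-M} ≤ σ < 2 N^{-M}`  (`m := ⌊M logb 2 N⌋₊`), so `N^{-M-τ₁} ≤ σ ≤ N^{-M+τ₁}` for `N` large.
`K := N^τ`, `K2 := N^τ₁`, `K3 := N^{τ'/4}`, `cLo := N^{-A}`, `cHi := N^A`; `K7pT71At` is `h` at this `N`.   All numerical hypotheses of `k7p_proj_one` are inequalities between powers of `N` with a strict gap in the exponents and a constant: true for `N ≥ N1` (`Real.rpow_le_rpow_of_exponent_le`,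
`C ≤ N^{gap}` for `N ≥ C^{1/gap}`); `n := ⌈logb 2 (2 K3²/σ)⌉₊ ≤ N^{τ'/8}` for `N` large (`Real.log_le_rpow`-type bound: `log x ≤ x^ε/ε`). -/
theorem k7p_P72_pf (h : k7a_T71) : k7p_P72B := by
  intro d S s eh eg M hd0 hd1 hS hs heh heg hM
  refine ⟨s + eh + eg + M + 1, fun Mχ hMχ => ⟨Mχ + M + eg + 1 + s, fun τ' hτ' => ?_⟩⟩
  obtain ⟨τ₁, hτ₁, N₁, hT⟩ := h s M d (2 * M + s + 2) (τ' / 4) hs (by linarith) hd1 (by positivity)
  obtain ⟨C, c, hC, hproj⟩ := k7p_proj_one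
  obtain ⟨τ, N2, hτ, hnum⟩ := k7p_num_all d s eh eg M Mχ τ' τ₁ C c hd1 hs heh heg hM hMχ hτ' hτ₁
  refine ⟨τ, max N₁ N2, {Mχ + M + eg + 1}, (Finset.range (⌈s / (τ₁ / 4)⌉₊ + 1)).image (fun j : ℕ => min ((j : ℝ) * (τ₁ / 4)) s), hτ, ?_, ?_, ?_⟩
  · intro M' hM'
    rw [Finset.mem_singleton] at hM'
    rw [hM']
    constructor <;> linarith
  · intro r hr
    obtain ⟨j, -, rfl⟩ := Finset.mem_image.1 hr
    refine ⟨le_min (by positivity) hs.le, (min_le_right _ _).trans (by linarith)⟩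
  intro N hN W Γ Sh ρ E hW hχ0 hΓ hE hEs hmass
  obtain ⟨hN1, m, n, hsm, hmesh, ⟨t1, t2, t3, t4, t5⟩, ⟨n1, n2, n3⟩, r2, r3, r4⟩ := hnum N ((le_max_right _ _).trans hN)
  have hN0 : 0 < N := by linarith
  have hT71 : K7pT71At (N ^ τ₁) (N ^ (τ' / 4)) ((1 / 2 : ℝ) ^ m) d (N ^ (-s)) (N ^ (-(2 * M + s + 2))) (N ^ (2 * M + s + 2)) := by
    intro Λ _ D cc hc1 hc2 hA hCap hSupp
    exact hT N ((le_max_left _ _).trans hN) Λ D _ cc m rfl t1 t2 hc1 hc2 hA hCap hSupp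
  obtain ⟨P, β, E', hE'm, hE's, hlab, hmass', hPok, hβ1, hβ2⟩ := hproj W Γ Sh N (N ^ τ) d S (N ^ (-s)) (N ^ (-eh)) (N ^ (-eg)) (N ^ (-Mχ)) ((1 / 2 : ℝ) ^ m) ρ
    (Mχ + M + eg + 1) (N ^ (τ₁ / 4)) (N ^ τ₁) (N ^ (τ' / 4)) (N ^ (-(2 * M + s + 2))) (N ^ (2 * M + s + 2)) _ _ n E hW hΓ hsm hN1 hd0 (Finset.mem_singleton_self _)
    (Finset.mem_image.2 ⟨0, Finset.mem_range.2 (Nat.succ_pos _), by simp [hs.le]⟩) (Real.one_le_rpow hN1.le (by positivity))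
    (fun p hp hp1 => k7p_num_netc hN1 (by positivity) p hp hp1) hχ0 hmesh hT71 t3 t4 t5 (Real.one_le_rpow hN1.le (by positivity)) n1 n2 hE hEs hmass
  have hK3 : 0 < N ^ (τ' / 4) := Real.rpow_pos_of_pos hN0 _
  have hβlow : N ^ (-eg - M - τ') ≤ β := by
    refine le_of_mul_le_mul_right ?_ hK3
    calc N ^ (-eg - M - τ') * N ^ (τ' / 4) ≤ N ^ (-eg) * (1 / 2 : ℝ) ^ m := r3
      _ ≤ N ^ (τ' / 4) * β := hβ1
      _ = β * N ^ (τ' / 4) := mul_comm _ _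
  have hβ0 : 0 ≤ β := (Real.rpow_pos_of_pos hN0 _).le.trans hβlow
  exact ⟨P, β, E', hE'm, hE's, hlab, hmass'.trans (mul_le_mul' (ENNReal.ofReal_le_ofReal n3) le_rfl),
    k7p_layer_mono hPok r2 (Real.rpow_pos_of_pos hN0 _).le hβ0, hβlow, hβ2.trans r4⟩

theorem k7p_proj_eqns_cite : True := by
  have := @k7pGrp.eq_1
  have := @k7pGs.eq_1
  have := @k7pPG.eq_1
  have := @k7pMG.eq_1
  have := @k7pC.eq_1
  have := @k7pData.eq_1
  have := @k7pPc.eq_1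
  have := @K7pOutG.eq_1
  have := @K7pT71At.eq_1
  trivial

end

end Claimed.Agent.R252
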