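import Claimed.Agent.R252.S7p.CoreContract
import Claimed.Agent.R252.S7p.ProjContract

/-!
# ROW 252 (S0492), unit S7p (sub-architect helper97), file 5: LEMMA 7.2, THE GEOMETRY OF THE COMPARISON (07 l.417-496, l.541-549).      CONTRACT file: every `sorry` is a leaf `L-252-S7p-D*`.

PAPER-FREE: `S7a/WideDefs` (`K7aLn`, `K7aW`, `K7aLayer`, `sdom`, `K7aLists`), `S7a/WideCapContract` (BAND `k7wc_band`, SLICE `k7wc_slice`, `k7wc_sdom_box`), `S7a/WideContract` (`k7a_quad_lip`), `S7p/Defs` (`K7pGr`), `S7p/ProjContract` (`k7p_loc_grp`, `k7p_Q_card`),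
`S7p/CoreContract` (`k7p_core`).      ONE scale, explicit slack `K ≥ 1`.   Notation: `χ' = kbDy χ ∈ [χ, 2χ)`, `qd = 2^{-n}` (time length of a domain, `n ≥ lev`), `m = qd g`, `ς = 2^{-nς}` (grid step in a normalised domain), `ϑ = 2^{-k}` (tiny cells).
## The instantiation of the abstract comparison
* box `κ = (α, D, cell) = ((mv, zz), (k, sb, yb), (i, j))`;   normalised coordinates in `D`: `ν = ((t - k qd)/qd, (Y - yb m - sb g (t - k qd))/(2m)) ∈ [0,1)²`;   `cell = ⌊ν/ς⌋`, `u = fract (ν/ς)`.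
* chart of a box: `Ct κ u₁ = (k + (i + u₁) ς) qd`, `Cy κ u = yb m + sb g (i + u₁) ς qd + (j + u₂) ς 2m`, `Cz κ t = zz χ' + mv χ' t`  (`= Z_α(t)`), `Ch κ u = (Ct, Cz (Ct), Cy)`.
* base `k7pBase`: `μ = lam0` restricted to the labelled incidences, `A κ = ς² qd m χ π([v]_χ = mv)`.
* colour 1 `k7pC1`: index `(κ, e)`, `e` = graph entry of the true label, graph `eF e ∘ Ch κ`.         colour 2 `k7pC2`: index `(κ, φ)`, graph `F_φ (Ct, Cy)`.       Reference weights `A κ a^d` on a FINITE set `Ad` of admissible indices (`0` elsewhere).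
## The chain
 D0 `k7p_nu_mem`, `k7p_chart`, `k7p_cell_mem`, `k7p_box_meas`, `k7p_t_lt`.       D1 `k7p_base_ok` (cap at tiny cells from BAND).       D2 `k7p_layer_scale`, `k7p_bud2` (budget of the projected labels from SLICE).       D3 `k7p_col2_ok`.
 D4 `k7p_ch_aff`, `k7p_ch_lin`, `k7p_ch_base` (the chart in packet coordinates).       D5 `k7p_col1_ok`.       D6 `k7p_loc_kyb`, `k7p_pal_fin`.       D7 `k7p_bud1` (budget of the true labels).       D8 `k7p_lists_of`.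
 D9 `k7p_cmp_one` (L7.2 at one scale).       D10 `k7p_code_one`, `k7p_L72_pf` (exponents).
-/

set_option autoImplicit false

namespace Claimed.Agent.R252

open MeasureTheory
open scoped ENNReal BigOperators

noncomputable section

/-! ## 0. Boxes and charts -/

/-- comparison boxes: group `α = (mv, zz)`, domain `D = (k, sb, yb)`, grid cell `(i, j)` -/
abbrev K7pBx := (ℤ × ℤ) × (ℤ × ℤ × ℤ) × (ℤ × ℤ)

/-- normalised coordinates of an incidence in its comparison domain (`m = qd g`; the moving box of a domain has `Y`-width `2 m`) -/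
def k7pNu (W : K7aLn) (qd g : ℝ) (z : W.L × ℝ) : ℝ × ℝ :=
  (z.2 / qd - ⌊z.2 / qd⌋,
    (W.Y z.1 z.2 - ((⌊W.Y z.1 (⌊z.2 / qd⌋ * qd) / (qd * g)⌋ : ℝ) * (qd * g) + (⌊W.Y1 z.1 / g⌋ : ℝ) * g * (z.2 - ⌊z.2 / qd⌋ * qd))) / (2 * (qd * g)))

/-- the comparison box of an incidence -/
def k7pBox (W : K7aLn) (χ qd g ς : ℝ) (z : W.L × ℝ) : K7pBx :=
  ((kbBin χ (W.v z.1), kbBin χ (W.Z0 z.1)), W.sdom qd g (qd * g) z, k7pCell ς (k7pNu W qd g z))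

/-- the normalised base point of an incidence in its box -/
def k7pU (W : K7aLn) (qd g ς : ℝ) (z : W.L × ℝ) : ℝ × ℝ := (Int.fract ((k7pNu W qd g z).1 / ς), Int.fract ((k7pNu W qd g z).2 / ς))

/-- the chart of a box: time -/
def k7pCt (qd ς : ℝ) (κ : K7pBx) (u1 : ℝ) : ℝ := ((κ.2.1.1 : ℝ) + ((κ.2.2.1 : ℝ) + u1) * ς) * qd

/-- the chart of a box: position `Y` -/
def k7pCy (qd g ς : ℝ) (κ : K7pBx) (u1 u2 : ℝ) : ℝ :=
  (κ.2.1.2.2 : ℝ) * (qd * g) + (κ.2.1.2.1 : ℝ) * g * (((κ.2.2.1 : ℝ) + u1) * ς * qd) + ((κ.2.2.2 : ℝ) + u2) * ς * (2 * (qd * g))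

/-- the representative major motion `Z_α(t)` of the group of a box -/
def k7pCz (χ : ℝ) (κ : K7pBx) (t : ℝ) : ℝ := (κ.1.2 : ℝ) * kbDy χ + (κ.1.1 : ℝ) * kbDy χ * t

/-- the chart of a box into the parent base `(t, Z, Y)` -/
def k7pCh (χ qd g ς : ℝ) (κ : K7pBx) (u1 u2 : ℝ) : ℝ × ℝ × ℝ := (k7pCt qd ς κ u1, k7pCz χ κ (k7pCt qd ς κ u1), k7pCy qd g ς κ u1 u2)

/-- **the common base of L7.2**: witness law = the prepared law on the labelled incidences -/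
def k7pBase (W : K7aLn) (P : K7aLayer W) (χ qd g ς : ℝ) : K7pBs where
  Ω := W.L × ℝ
  mΩ := inferInstance
  μ := W.law (W.Ev0 ∩ {z | P.lab z.1 ≠ none})
  Sp := W.Ev0 ∩ {z | P.lab z.1 ≠ none}
  Bx := K7pBx
  bx := k7pBox W χ qd g ς
  u := k7pU W qd g ς
  X := fun z => W.X z.1 z.2
  A := fun κ => ENNReal.ofReal (ς ^ 2 * qd * (qd * g) * χ) * W.palχ χ κ.1.1

open Classical in
/-- **colour 1**: the graph entries of the true labels, evaluated at `Z_α(t)` -/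
def k7pC1 (W : K7aW) (Γ : K7pGr W) (P : K7aLayer W.toK7aLn) (χ qd g ς a d : ℝ) (Ad : Finset (K7pBx × Γ.Ent)) : K7pCol (k7pBase W.toK7aLn P χ qd g ς) where
  I := K7pBx × Γ.Ent
  ix := fun z => (k7pBox W.toK7aLn χ qd g ς z, Γ.ent z)
  bxI := Prod.fst
  f := fun i u1 u2 => Γ.eF i.2 (k7pCh χ qd g ς i.1 u1 u2)
  T := fun i => if i ∈ Ad then (k7pBase W.toK7aLn P χ qd g ς).A i.1 * ENNReal.ofReal (a ^ d) else 0

open Classical in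
/-- **colour 2**: the projected labels -/
def k7pC2 (W : K7aLn) (P : K7aLayer W) (χ qd g ς a d : ℝ) (Ad : Finset (K7pBx × Option P.Ph)) : K7pCol (k7pBase W P χ qd g ς) where
  I := K7pBx × Option P.Ph
  ix := fun z => (k7pBox W χ qd g ς z, P.lab z.1)
  bxI := Prod.fst
  f := fun i u1 u2 => i.2.elim 0 (fun φ => (P.G φ).F (k7pCt qd ς i.1 u1) (k7pCy qd g ς i.1 u1 u2))
  T := fun i => if i ∈ Ad then (k7pBase W P χ qd g ς).A i.1 * ENNReal.ofReal (a ^ d) else 0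

/-! ## D0. Elementary facts on boxes and charts -/

/-- **L-252-S7p-D0**.  PROOF.  First coordinate: `x - ⌊x⌋ ∈ [0,1)` (`Int.fract`).   Second: with `k = ⌊t/qd⌋`, `m = qd g`, `yb = ⌊Y(k qd)/m⌋`, `sb = ⌊Y1/g⌋`: `Y(t) - (yb m + sb g (t - k qd)) = (Y(k qd) - yb m) + (Y1 - sb g)(t - k qd)`, first bracket in `[0, m)`,
second product in `[0, g qd]` (`0 ≤ t - k qd ≤ qd`, `0 ≤ Y1 - sb g ≤ g`): total in `[0, 2m)`.   (Compare `k7wc_sdom_box`.) -/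
theorem k7p_nu_mem (W : K7aLn) {qd g : ℝ} (hq : 0 < qd) (hg : 0 < g) (z : W.L × ℝ) : k7pNu W qd g z ∈ Set.Ico (0 : ℝ) 1 ×ˢ Set.Ico (0 : ℝ) 1 := by
  obtain ⟨l, t⟩ := z
  have hm : 0 < qd * g := mul_pos hq hg
  have k1 := Int.floor_le (t / qd)
  have k2 := Int.lt_floor_add_one (t / qd)
  obtain ⟨k, hk⟩ : ∃ k : ℤ, k = ⌊t / qd⌋ := ⟨_, rfl⟩
  have y1 := Int.floor_le (W.Y l (⌊t / qd⌋ * qd) / (qd * g))
  have y2 := Int.lt_floor_add_one (W.Y l (⌊t / qd⌋ * qd) / (qd * g))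
  obtain ⟨yb, hyb⟩ : ∃ yb : ℤ, yb = ⌊W.Y l (⌊t / qd⌋ * qd) / (qd * g)⌋ := ⟨_, rfl⟩
  have s1 := Int.floor_le (W.Y1 l / g)
  have s2 := Int.lt_floor_add_one (W.Y1 l / g)
  obtain ⟨sb, hsb⟩ : ∃ sb : ℤ, sb = ⌊W.Y1 l / g⌋ := ⟨_, rfl⟩
  simp only [k7pNu, Set.mem_prod, Set.mem_Ico]
  rw [← hyb] at y1 y2 ⊢
  rw [← hsb] at s1 s2 ⊢
  rw [← hk] at k1 k2 y1 y2 ⊢
  rw [le_div_iff₀ hq] at k1
  rw [div_lt_iff₀ hq] at k2
  rw [le_div_iff₀ hm] at y1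
  rw [div_lt_iff₀ hm] at y2
  rw [le_div_iff₀ hg] at s1
  rw [div_lt_iff₀ hg] at s2
  have e : W.Y l t - ((yb : ℝ) * (qd * g) + (sb : ℝ) * g * (t - k * qd))
      = (W.Y l (k * qd) - yb * (qd * g)) + (W.Y1 l - sb * g) * (t - k * qd) := by
    unfold K7aLn.Y; ring
  have hA0 : 0 ≤ W.Y l (k * qd) - yb * (qd * g) := by linarith
  have hA1 : W.Y l (k * qd) - yb * (qd * g) < qd * g := by linarith
  have hB0 : 0 ≤ W.Y1 l - sb * g := by linarith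
  have hB1 : W.Y1 l - sb * g ≤ g := by linarith
  have hC0 : 0 ≤ t - k * qd := by linarith
  have hC1 : t - k * qd ≤ qd := by linarith
  have hBC0 : 0 ≤ (W.Y1 l - sb * g) * (t - k * qd) := mul_nonneg hB0 hC0
  have hBC1 : (W.Y1 l - sb * g) * (t - k * qd) ≤ g * qd := mul_le_mul hB1 hC1 hC0 hg.le
  refine ⟨⟨?_, ?_⟩, ?_, ?_⟩
  · have := (le_div_iff₀ hq).mpr k1; linarith
  · have := (div_lt_iff₀ hq).mpr k2; linarith
  · rw [e]; exact div_nonneg (by linarith) (by linarith)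
  · rw [e, div_lt_one (by linarith)]; linarith

/-- **L-252-S7p-D0**.  The chart inverts the coordinates.   PROOF.  `⌊x⌋ + fract x = x` (`Int.floor_add_fract`) with `x = ν₁/ς`, `ν₂/ς`; so `(i + u₁) ς = ν₁ = t/qd - k`, `(j + u₂) ς = ν₂`; unfold everything (`K7aLn.sdom`, `k7pCell`), `field_simp`, `ring`. -/
theorem k7p_chart (W : K7aLn) {χ qd g ς : ℝ} (hq : 0 < qd) (hg : 0 < g) (hς : 0 < ς) (z : W.L × ℝ) :
    k7pU W qd g ς z ∈ Set.Ico (0 : ℝ) 1 ×ˢ Set.Ico (0 : ℝ) 1 ∧ k7pCt qd ς (k7pBox W χ qd g ς z) (k7pU W qd g ς z).1 = z.2 ∧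
      k7pCy qd g ς (k7pBox W χ qd g ς z) (k7pU W qd g ς z).1 (k7pU W qd g ς z).2 = W.Y z.1 z.2 := by
  have hm : 0 < qd * g := mul_pos hq hg
  have f1 : ((⌊(k7pNu W qd g z).1 / ς⌋ : ℝ) + Int.fract ((k7pNu W qd g z).1 / ς)) * ς = (k7pNu W qd g z).1 := by
    rw [Int.floor_add_fract]; field_simp
  have f2 : ((⌊(k7pNu W qd g z).2 / ς⌋ : ℝ) + Int.fract ((k7pNu W qd g z).2 / ς)) * ς = (k7pNu W qd g z).2 := by
    rw [Int.floor_add_fract]; field_simp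
  refine ⟨⟨⟨Int.fract_nonneg _, Int.fract_lt_one _⟩, ⟨Int.fract_nonneg _, Int.fract_lt_one _⟩⟩, ?_, ?_⟩
  · simp only [k7pCt, k7pBox, k7pU, k7pCell, K7aLn.sdom]
    rw [f1]
    simp only [k7pNu]
    field_simp
    ring
  · simp only [k7pCy, k7pBox, k7pU, k7pCell, K7aLn.sdom]
    rw [f1, f2]
    simp only [k7pNu]
    field_simp
    ring

/-- **L-252-S7p-D0**.  The grid cells of a domain (`k7p_nu_mem`; `ν/ς = ν 2^nς ∈ [0, 2^nς)`; compare `hfl` in the proof of `k7p_cap_box`). -/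
theorem k7p_cell_mem (W : K7aLn) {qd g : ℝ} (hq : 0 < qd) (hg : 0 < g) (nς : ℕ) (z : W.L × ℝ) :
    k7pCell ((1 / 2 : ℝ) ^ nς) (k7pNu W qd g z) ∈ Finset.Ico (0 : ℤ) (2 ^ nς) ×ˢ Finset.Ico (0 : ℤ) (2 ^ nς) := by
  obtain ⟨⟨a0, a1⟩, b0, b1⟩ := k7p_nu_mem W hq hg z
  have hfl : ∀ x : ℝ, 0 ≤ x → x < 1 → ⌊x / (1 / 2 : ℝ) ^ nς⌋ ∈ Finset.Ico (0 : ℤ) (2 ^ nς) := by
    intro x h0 h1
    have e : x / (1 / 2 : ℝ) ^ nς = x * 2 ^ nς := by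
      rw [one_div, inv_pow, div_inv_eq_mul]
    have hp : (0 : ℝ) < 2 ^ nς := by positivity
    rw [e, Finset.mem_Ico]
    refine ⟨Int.floor_nonneg.mpr (by positivity), ?_⟩
    rw [Int.floor_lt]
    push_cast
    nlinarith
  exact Finset.mem_product.mpr ⟨hfl _ a0 a1, hfl _ b0 b1⟩

/-- **L-252-S7p-D0**.  Measurability (`hW.m_co`, `Measurable.floor`, `measurable_fract`, `k7wc_meas_sdom`; `kbBin χ x = ⌊x / kbDy χ⌋`; integer casts: `measurable_from_top`; compare the proof of `k7wc_meas_sdom`). -/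
theorem k7p_box_meas (W : K7aLn) {N K d S : ℝ} {Ms Ws : Finset ℝ} (hW : W.Ok N K d S Ms Ws) (χ qd g ς : ℝ) : Measurable (k7pBox W χ qd g ς) ∧ Measurable (k7pU W qd g ς) := by
  obtain ⟨hZ0, hv, hY0, hY1, -, -, -⟩ := hW.m_co
  have hcast : Measurable fun n : ℤ => (n : ℝ) := measurable_from_top
  have hk : Measurable fun z : W.L × ℝ => ⌊z.2 / qd⌋ := (measurable_snd.div_const qd).floor
  have hkr : Measurable fun z : W.L × ℝ => ((⌊z.2 / qd⌋ : ℤ) : ℝ) := hcast.comp hk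
  have hs : Measurable fun z : W.L × ℝ => ((⌊W.Y1 z.1 / g⌋ : ℤ) : ℝ) :=
    hcast.comp ((hY1.comp measurable_fst).div_const g).floor
  have hy : Measurable fun z : W.L × ℝ => ((⌊W.Y z.1 (⌊z.2 / qd⌋ * qd) / (qd * g)⌋ : ℤ) : ℝ) := by
    unfold K7aLn.Y
    exact hcast.comp
      (((hY0.comp measurable_fst).add ((hY1.comp measurable_fst).mul (hkr.mul_const qd))).div_const (qd * g)).floor
  have hYt : Measurable fun z : W.L × ℝ => W.Y z.1 z.2 := by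
    unfold K7aLn.Y
    exact (hY0.comp measurable_fst).add ((hY1.comp measurable_fst).mul measurable_snd)
  have hnu : Measurable (k7pNu W qd g) := by
    unfold k7pNu
    refine Measurable.prodMk ((measurable_snd.div_const qd).sub hkr) ?_
    exact (hYt.sub ((hy.mul_const (qd * g)).add
      ((hs.mul_const g).mul (measurable_snd.sub (hkr.mul_const qd))))).div_const _
  constructor
  · unfold k7pBox
    refine Measurable.prodMk (Measurable.prodMk ?_ ?_) (Measurable.prodMk (k7wc_meas_sdom W hW qd g (qd * g)) ?_)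
    · unfold kbBin; exact ((hv.comp measurable_fst).div_const _).floor
    · unfold kbBin; exact ((hZ0.comp measurable_fst).div_const _).floor
    · unfold k7pCell
      exact Measurable.prodMk ((measurable_fst.comp hnu).div_const ς).floor ((measurable_snd.comp hnu).div_const ς).floor
  · unfold k7pU
    exact Measurable.prodMk (measurable_fract.comp ((measurable_fst.comp hnu).div_const ς))
      (measurable_fract.comp ((measurable_snd.comp hnu).div_const ς))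

/-- **L-252-S7p-D0**.  Prepared times are `< 1`, and the subdivided blocks are nested.
PROOF.  `hW.lab p`: `Q := labQ p ∈ Qa`, `t ∈ blk Q = [iv q, (iv+1) q)`, `iv + 1 ≤ 2^lev`, `q 2^lev = 1`.   `q = 2^(n-lev) qd` (`pow_add`/`pow_sub₀`), so `iv q = (iv 2^(n-lev)) qd`; `⌊t/qd⌋ ≥ iv 2^(n-lev)` (`Int.le_floor`), `⌊t/qd⌋ qd ≤ t`. -/
theorem k7p_t_lt (W : K7aW) {N K d S a h g : ℝ} {Ms Ws : Finset ℝ} (hW : W.Ok N K d S a h g Ms Ws) {n : ℕ} (hn : W.lev ≤ n) {p : W.L × ℝ} (hp : p ∈ W.Ev0) :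
    p.2 < 1 ∧ (1 / 2 : ℝ) ^ n ≤ W.q ∧ ((⌊p.2 / (1 / 2 : ℝ) ^ n⌋ : ℝ) * (1 / 2 : ℝ) ^ n) ∈ W.blk (W.labQ p) ∧
      ⌊p.2 / (1 / 2 : ℝ) ^ n⌋ ∈ Finset.Ico ((W.iv (W.labQ p) : ℤ) * 2 ^ (n - W.lev)) (((W.iv (W.labQ p) : ℤ) + 1) * 2 ^ (n - W.lev)) := by
  obtain ⟨hQ, hinc⟩ := hW.lab p hp
  have hblk : p.2 ∈ W.blk (W.labQ p) := hinc.2
  have hiv := hW.iv_lt _ hQ
  obtain ⟨iv, hivdef⟩ : ∃ iv : ℕ, iv = W.iv (W.labQ p) := ⟨_, rfl⟩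
  obtain ⟨t, htdef⟩ : ∃ t : ℝ, t = p.2 := ⟨_, rfl⟩
  obtain ⟨j, hj⟩ : ∃ j : ℕ, n = W.lev + j := ⟨n - W.lev, by omega⟩
  have hjn : n - W.lev = j := by omega
  unfold K7aW.blk at hblk ⊢
  rw [← hivdef] at hblk hiv ⊢
  rw [← htdef] at hblk ⊢
  rw [hjn]
  obtain ⟨qd, hqd⟩ : ∃ qd : ℝ, qd = (1 / 2 : ℝ) ^ n := ⟨_, rfl⟩
  rw [← hqd]
  have hqd0 : 0 < qd := by rw [hqd]; positivity
  have hq0 : 0 < W.q := by unfold K7aW.q; positivity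
  have hqq : W.q = 2 ^ j * qd := by
    unfold K7aW.q
    rw [hqd, hj, pow_add, ← mul_assoc, mul_comm ((2:ℝ) ^ j), mul_assoc, ← mul_pow]
    norm_num
  have hqlev : W.q * 2 ^ W.lev = 1 := by
    unfold K7aW.q
    rw [← mul_pow]; norm_num
  have h2j : (1 : ℝ) ≤ 2 ^ j := one_le_pow₀ (by norm_num)
  obtain ⟨hb1, hb2⟩ := hblk
  have hivR : (iv : ℝ) + 1 ≤ 2 ^ W.lev := by exact_mod_cast hiv
  have f1 := Int.floor_le (t / qd)
  have f2 := Int.lt_floor_add_one (t / qd)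
  rw [le_div_iff₀ hqd0] at f1
  rw [div_lt_iff₀ hqd0] at f2
  -- integer bounds
  have g1 : (iv : ℤ) * 2 ^ j ≤ ⌊t / qd⌋ := by
    rw [Int.le_floor, le_div_iff₀ hqd0]
    push_cast
    rw [hqq] at hb1
    linarith
  have g2 : ⌊t / qd⌋ < ((iv : ℤ) + 1) * 2 ^ j := by
    rw [Int.floor_lt, div_lt_iff₀ hqd0]
    push_cast
    rw [hqq] at hb2
    linarith
  have g1R : (iv : ℝ) * 2 ^ j ≤ (⌊t / qd⌋ : ℝ) := by exact_mod_cast g1
  refine ⟨?_, ?_, ⟨?_, ?_⟩, Finset.mem_Ico.mpr ⟨g1, g2⟩⟩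
  · calc t < ((iv : ℝ) + 1) * W.q := hb2
      _ ≤ 2 ^ W.lev * W.q := mul_le_mul_of_nonneg_right hivR hq0.le
      _ = 1 := by rw [mul_comm]; exact hqlev
  · rw [hqq]; nlinarith
  · rw [hqq]
    calc (iv : ℝ) * (2 ^ j * qd) = ((iv : ℝ) * 2 ^ j) * qd := by ring
      _ ≤ (⌊t / qd⌋ : ℝ) * qd := mul_le_mul_of_nonneg_right g1R hqd0.le
  · linarith

/-! ## D1. The cap at tiny cells -/

/-- BAND over one tiny cell of one comparison box, constant test value -/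
theorem k7p_base_band (W : K7aLn) {N K d S M χ qd g ς ϑ r κ' x₀ : ℝ} {Ms Ws : Finset ℝ} (hW : W.Ok N K d S Ms Ws)
    (hN : 1 < N) (hK : 1 ≤ K) (hM : M ∈ Ms) (hr : r ∈ Ws) (hκ' : 0 ≤ κ') (hq : 0 < qd) (hg : 0 < g) (hg1 : g ≤ 1) (hς : 0 < ς) (hϑ : 0 < ϑ) (hχ0 : W.χ0 ≤ χ) (hχ1 : χ ≤ 1)
    (hχM : 2 * K * N ^ (-M) ≤ χ) (hmesh : 2 * (K + 2) * N ^ (-M) ≤ ϑ * ς * (qd * g)) (κ : K7pBx) (c : ℤ × ℤ) :
    W.lam0 (W.Ev0 ∩ {z | k7pBox W χ qd g ς z = κ ∧ k7pCell ϑ (k7pU W qd g ς z) = c ∧ |W.X z.1 z.2 - x₀| ≤ κ' * N ^ (-r)})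
      ≤ ENNReal.ofReal (192 * K * (2 * κ' + 5) * (N ^ (-r)) ^ d * (χ * (ϑ * ς * qd) * (ϑ * ς * (qd * g)))) * W.palχ χ κ.1.1 := by
  have hN0 : 0 < N := by linarith
  have hσ : 0 < N ^ (-M) := Real.rpow_pos_of_pos hN0 _
  have hm0 : 0 < qd * g := mul_pos hq hg
  have hϑς : 0 < ϑ * ς := mul_pos hϑ hς
  by_cases hne : ∃ z ∈ W.Ev0, k7pBox W χ qd g ς z = κ
  · obtain ⟨zs, hzs, hzκ⟩ := hne
    have hsb : |(κ.2.1.2.1 : ℝ) * g| ≤ K + 1 := by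
      have h1 := (hW.bd zs.1 (hW.Ev0_sub hzs).1).2.2.2.1
      have h2 : ⌊W.Y1 zs.1 / g⌋ = κ.2.1.2.1 := by rw [← hzκ]; rfl
      rw [Int.floor_eq_iff, le_div_iff₀ hg, div_lt_iff₀ hg] at h2
      rw [abs_le] at h1 ⊢
      constructor <;> nlinarith [h1.1, h1.2, h2.1, h2.2]
    have hρ : 2 * N ^ (-M) ≤ ϑ * ς * qd := by
      have h1 : ϑ * ς * (qd * g) ≤ ϑ * ς * qd := mul_le_mul_of_nonneg_left (mul_le_of_le_one_right hq.le hg1) hϑς.le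
      nlinarith
    have hw : 2 * (|(κ.2.1.2.1 : ℝ) * g| + 1) * N ^ (-M) ≤ ϑ * ς * (qd * g) := by
      refine le_trans (mul_le_mul_of_nonneg_right ?_ hσ.le) hmesh
      linarith
    refine le_trans (measure_mono ?_) (k7wc_band W hW hN hK hM hr hκ' hχ0 hχ1 (t0 := ((κ.2.1.1 : ℝ) + ((κ.2.2.1 : ℝ) + c.1 * ϑ) * ς) * qd)
      (yc := (κ.2.1.2.2 : ℝ) * (qd * g) + (κ.2.1.2.1 : ℝ) * g * (((κ.2.2.1 : ℝ) + c.1 * ϑ) * ς * qd) + ((κ.2.2.2 : ℝ) + (c.2 + 1 / 2) * ϑ) * ς * (2 * (qd * g)))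
      hρ hχM hw κ.1.1 κ.1.2 (fun _ _ _ => x₀) (fun _ _ _ _ _ _ _ _ _ _ _ _ _ _ _ _ _ => by
        rw [sub_self, abs_zero]
        exact (Real.rpow_pos_of_pos hN0 _).le))
    rintro z ⟨-, hb, hc, hx⟩
    obtain ⟨-, c1, c2⟩ := k7p_chart W (χ := χ) hq hg hς z
    rw [hb] at c1 c2
    have hc1 : ⌊(k7pU W qd g ς z).1 / ϑ⌋ = c.1 := congrArg Prod.fst hc
    have hc2 : ⌊(k7pU W qd g ς z).2 / ϑ⌋ = c.2 := congrArg Prod.snd hc
    rw [Int.floor_eq_iff, le_div_iff₀ hϑ, div_lt_iff₀ hϑ] at hc1 hc2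
    obtain ⟨u1, hu1⟩ : ∃ u1 : ℝ, u1 = (k7pU W qd g ς z).1 := ⟨_, rfl⟩
    obtain ⟨u2, hu2⟩ : ∃ u2 : ℝ, u2 = (k7pU W qd g ς z).2 := ⟨_, rfl⟩
    rw [← hu1] at c1 c2 hc1
    rw [← hu2] at c2 hc2
    unfold k7pCt at c1
    unfold k7pCy at c2
    have hςq : 0 < ς * qd := mul_pos hς hq
    have ht : z.2 - ((κ.2.1.1 : ℝ) + ((κ.2.2.1 : ℝ) + c.1 * ϑ) * ς) * qd = (u1 - c.1 * ϑ) * (ς * qd) := by
      rw [← c1]
      ring
    refine ⟨?_, ?_, ⟨?_, ?_⟩, ?_, hx⟩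
    · rw [← hb]; rfl
    · rw [← hb]; rfl
    · have : 0 ≤ (u1 - c.1 * ϑ) * (ς * qd) := mul_nonneg (by linarith [hc1.1]) hςq.le
      linarith
    · have : (u1 - c.1 * ϑ) * (ς * qd) < ϑ * (ς * qd) := mul_lt_mul_of_pos_right (by linarith [hc1.2]) hςq
      linarith
    · have e : W.Y z.1 z.2 - ((κ.2.1.2.2 : ℝ) * (qd * g) + (κ.2.1.2.1 : ℝ) * g * (((κ.2.2.1 : ℝ) + c.1 * ϑ) * ς * qd) + ((κ.2.2.2 : ℝ) + (c.2 + 1 / 2) * ϑ) * ς * (2 * (qd * g))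
          + (κ.2.1.2.1 : ℝ) * g * (z.2 - ((κ.2.1.1 : ℝ) + ((κ.2.2.1 : ℝ) + c.1 * ϑ) * ς) * qd)) = (u2 - (c.2 + 1 / 2) * ϑ) * (2 * (ς * (qd * g))) := by
        rw [ht, ← c2]
        ring
      rw [e, abs_mul, abs_of_pos (by positivity : (0 : ℝ) < 2 * (ς * (qd * g)))]
      have h1 : |u2 - (c.2 + 1 / 2) * ϑ| ≤ ϑ / 2 := by
        rw [abs_le]
        constructor <;> linarith [hc2.1, hc2.2]
      calc |u2 - (c.2 + 1 / 2) * ϑ| * (2 * (ς * (qd * g))) ≤ ϑ / 2 * (2 * (ς * (qd * g))) := mul_le_mul_of_nonneg_right h1 (by positivity)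
        _ = ϑ * ς * (qd * g) := by ring
  · have : W.Ev0 ∩ {z | k7pBox W χ qd g ς z = κ ∧ k7pCell ϑ (k7pU W qd g ς z) = c ∧ |W.X z.1 z.2 - x₀| ≤ κ' * N ^ (-r)} = ∅ := by
      ext z
      simp only [Set.mem_inter_iff, Set.mem_ofPred_eq, Set.mem_empty_iff_false, iff_false, not_and]
      intro hz hb
      exact absurd ⟨z, hz, hb⟩ hne
    rw [this, measure_empty]
    exact zero_le

/-- **L-252-S7p-D1** (07 l.479-486).   `Z := k7pBase ..`, `ϑ = 2^{-k}`, `m = qd g`.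
PROOF.  Structural fields: `Countable K7pBx`; `μ ≤ prior`, `prior univ = ν univ * k7aTm univ = 1` (see `k7wc_lam0_univ`); `Sp` measurable (`hW.m_Ev0`, `measurable_fst (hPm none)` complement); `full`: `Measure.restrict_apply`/`ae_restrict_mem`; `m_bx`: `k7p_box_meas` + `measurableSet_singleton`;
`m_X`: polynomial in measurable functions;   `u_mem`: `k7p_chart`.
`cap`: fix `κ = ((mv,zz),(kk,sb,yb),(i,j))`, `c = (c₁,c₂)`, `x₀`, `p ≥ a`.   `μ s ≤ lam0 s` (`Measure.restrict_mono`).   If the event is empty: trivial; otherwise a line of `Sp` has `⌊Y1/g⌋ = sb`, so `|sb g| ≤ K + g ≤ K + 1`.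
By `k7p_chart`, on the event `t = (kk + (i + u₁) ς) qd`, `Y = yb m + sb g (t - kk qd) + (j + u₂) ς 2m`, `u₁ ∈ [c₁ϑ, (c₁+1)ϑ)`, `u₂ ∈ [c₂ϑ, (c₂+1)ϑ)`.   So the event lies in the set of `k7wc_band` with `t0 = (kk + (i + c₁ϑ) ς) qd`, `ρ = ϑ ς qd`, `sc = sb g`,
`yc = yb m + sb g (t0 - kk qd) + (j + (c₂ + 1/2) ϑ) ς 2m`, `mw = ϑ ς m`, and
 (p ≤ 1) `F = fun _ _ _ => x₀`, `r` from `hnet p`, `κ' = p / N^{-r} ≤ Kn`, `(N^{-r})^d ≤ p^d`;      (p > 1) `F = 0`, `r = 0`, `κ' = K` (`|X| ≤ K`), `1 ≤ p^d`.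
Result `192 K (2κ'+5) (N^{-r})^d χ (ϑ ς qd)(ϑ ς m) π ≤ K' p^d ϑ² · (ς² qd m χ) π`. -/
theorem k7p_base_ok (W : K7aLn) (P : K7aLayer W) {N K d S M χ qd g ς a Kn K' : ℝ} {Ms Ws : Finset ℝ} (hW : W.Ok N K d S Ms Ws) (hPm : ∀ o, MeasurableSet (P.lab ⁻¹' {o}))
    (hN : 1 < N) (hK : 1 ≤ K) (hd : 0 ≤ d) (hM : M ∈ Ms) (h0 : (0 : ℝ) ∈ Ws) (hKn : 1 ≤ Kn) (hnet : ∀ p, a ≤ p → p ≤ 1 → ∃ r ∈ Ws, N ^ (-r) ≤ p ∧ p ≤ Kn * N ^ (-r))
    (ha : 0 < a) (hq : 0 < qd) (hg : 0 < g) (hg1 : g ≤ 1) (hς : 0 < ς) (hχ0 : W.χ0 ≤ χ) (hχ1 : χ ≤ 1) (k : ℕ) (hχM : 2 * K * N ^ (-M) ≤ χ)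
    (hmesh : 2 * (K + 2) * N ^ (-M) ≤ (1 / 2 : ℝ) ^ k * ς * (qd * g)) (hK' : 192 * K * (2 * (Kn + K) + 5) ≤ K') :
    (k7pBase W P χ qd g ς).Ok K' d a ((1 / 2 : ℝ) ^ k) := by
  have hN0 : 0 < N := by linarith
  obtain ⟨ϑ, hϑd⟩ : ∃ ϑ : ℝ, ϑ = (1 / 2 : ℝ) ^ k := ⟨_, rfl⟩
  have hϑ : 0 < ϑ := by rw [hϑd]; positivity
  rw [← hϑd] at hmesh ⊢
  have hχ : 0 < χ := lt_of_lt_of_le hW.χ0_pos hχ0
  have hK0 : 0 < K := by linarith
  have hLb : MeasurableSet {z : W.L × ℝ | P.lab z.1 ≠ none} := (measurable_fst (hPm none)).compl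
  have hSpm : MeasurableSet (W.Ev0 ∩ {z : W.L × ℝ | P.lab z.1 ≠ none}) := hW.m_Ev0.inter hLb
  have hμle : ∀ s : Set (W.L × ℝ), W.law (W.Ev0 ∩ {z | P.lab z.1 ≠ none}) s ≤ W.lam0 s := fun s =>
    Measure.restrict_mono Set.inter_subset_left le_rfl s
  obtain ⟨mZ0, mv, mY0, mY1, mx0, mx1, mx2⟩ := hW.m_co
  refine
  { cBx := ?_, fin := ?_, m_Sp := hSpm, full := ?_, m_bx := ?_, m_u := (k7p_box_meas W hW χ qd g ς).2, m_X := ?_, u_mem := ?_, a0_pos := ha, mesh := ⟨k, hϑd⟩, cap := ?_ }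
  · show Countable K7pBx
    infer_instance
  · refine ⟨lt_of_le_of_lt ((hμle Set.univ).trans (k7wc_lam0_univ W hW)) ENNReal.one_lt_top⟩
  · show W.law (W.Ev0 ∩ {z | P.lab z.1 ≠ none}) (W.Ev0 ∩ {z | P.lab z.1 ≠ none})ᶜ = 0
    unfold K7aLn.law
    rw [Measure.restrict_apply hSpm.compl, Set.compl_inter_self, measure_empty]
  · have h1 : ∀ κ : K7pBx, MeasurableSet (k7pBox W χ qd g ς ⁻¹' {κ}) := fun κ => (k7p_box_meas W hW χ qd g ς).1 (measurableSet_singleton κ)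
    exact h1
  · show Measurable fun z : W.L × ℝ => W.X z.1 z.2
    unfold K7aLn.X
    exact ((mx0.comp measurable_fst).add ((mx1.comp measurable_fst).mul measurable_snd)).add ((mx2.comp measurable_fst).mul (measurable_snd.pow_const 2))
  · intro ω _
    exact (k7p_chart W (χ := χ) hq hg hς ω).1
  · intro κ c x₀ p hp
    have hp0 : 0 < p := lt_of_lt_of_le ha hp
    have hpd : 0 < p ^ d := Real.rpow_pos_of_pos hp0 d
    obtain ⟨A0, hA0⟩ : ∃ A0 : ℝ, A0 = ς ^ 2 * qd * (qd * g) * χ := ⟨_, rfl⟩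
    have hA0p : 0 < A0 := by rw [hA0]; positivity
    have hV : χ * (ϑ * ς * qd) * (ϑ * ς * (qd * g)) = ϑ ^ 2 * A0 := by rw [hA0]; ring
    have hK'0 : 0 < K' := lt_of_lt_of_le (by positivity) hK'
    show W.law (W.Ev0 ∩ {z | P.lab z.1 ≠ none}) ((W.Ev0 ∩ {z | P.lab z.1 ≠ none}) ∩ {ω | k7pBox W χ qd g ς ω = κ ∧ k7pCell ϑ (k7pU W qd g ς ω) = c ∧ |W.X ω.1 ω.2 - x₀| ≤ p})
      ≤ ENNReal.ofReal (K' * p ^ d * ϑ ^ 2) * (ENNReal.ofReal (ς ^ 2 * qd * (qd * g) * χ) * W.palχ χ κ.1.1)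
    rw [← hA0, ← mul_assoc, ← ENNReal.ofReal_mul (by positivity)]
    refine (hμle _).trans ?_
    rcases le_or_gt p 1 with hp1 | hp1
    · obtain ⟨r, hr, hr1, hr2⟩ := hnet p hp hp1
      have hNr : 0 < N ^ (-r) := Real.rpow_pos_of_pos hN0 _
      have hκ'0 : 0 ≤ p / N ^ (-r) := by positivity
      have hκ'1 : p / N ^ (-r) ≤ Kn := by
        rw [div_le_iff₀ hNr]
        exact hr2
      have hκ'e : p / N ^ (-r) * N ^ (-r) = p := div_mul_cancel₀ _ hNr.ne'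
      refine le_trans (measure_mono ?_) ((k7p_base_band W hW hN hK hM hr hκ'0 hq hg hg1 hς hϑ hχ0 hχ1 hχM hmesh κ c (x₀ := x₀)).trans ?_)
      · rintro z ⟨⟨hz, -⟩, hb, hc, hx⟩
        refine ⟨hz, hb, hc, ?_⟩
        rw [hκ'e]
        exact hx
      · refine mul_le_mul' (ENNReal.ofReal_le_ofReal ?_) le_rfl
        rw [hV]
        have h1 : (N ^ (-r)) ^ d ≤ p ^ d := Real.rpow_le_rpow hNr.le hr1 hd
        have h2 : 192 * K * (2 * (p / N ^ (-r)) + 5) ≤ K' := by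
          refine le_trans ?_ hK'
          have : 2 * (p / N ^ (-r)) + 5 ≤ 2 * (Kn + K) + 5 := by linarith
          exact mul_le_mul_of_nonneg_left this (by positivity)
        calc 192 * K * (2 * (p / N ^ (-r)) + 5) * (N ^ (-r)) ^ d * (ϑ ^ 2 * A0) ≤ K' * p ^ d * (ϑ ^ 2 * A0) := by
              refine mul_le_mul_of_nonneg_right ?_ (by positivity)
              exact mul_le_mul h2 h1 (Real.rpow_nonneg hNr.le d) hK'0.le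
          _ = K' * p ^ d * ϑ ^ 2 * A0 := by ring
    · have hN1 : N ^ (-(0 : ℝ)) = 1 := by rw [neg_zero, Real.rpow_zero]
      refine le_trans (measure_mono ?_) ((k7p_base_band W hW hN hK hM h0 hK0.le hq hg hg1 hς hϑ hχ0 hχ1 hχM hmesh κ c (x₀ := 0)).trans ?_)
      · rintro z ⟨⟨hz, -⟩, hb, hc, -⟩
        refine ⟨hz, hb, hc, ?_⟩
        rw [hN1, mul_one, sub_zero]
        exact (hW.bd z.1 (hW.Ev0_sub hz).1).2.2.2.2 z.2 (hW.Ev0_sub hz).2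
      · refine mul_le_mul' (ENNReal.ofReal_le_ofReal ?_) le_rfl
        rw [hV, hN1, Real.one_rpow, mul_one]
        have h1 : 1 ≤ p ^ d := Real.one_le_rpow hp1.le hd
        have h2 : 192 * K * (2 * K + 5) ≤ K' := by
          refine le_trans ?_ hK'
          have : 2 * K + 5 ≤ 2 * (Kn + K) + 5 := by linarith
          exact mul_le_mul_of_nonneg_left this (by positivity)
        calc 192 * K * (2 * K + 5) * (ϑ ^ 2 * A0) ≤ K' * p ^ d * (ϑ ^ 2 * A0) := by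
              refine mul_le_mul_of_nonneg_right ?_ (by positivity)
              nlinarith
          _ = K' * p ^ d * ϑ ^ 2 * A0 := by ring

/-! ## D2-D3. Colour 2: the projected labels -/

theorem k7p_quad_adapt {F : ℝ → ℝ → ℝ} (hF : K7aQuad F) (c0 c1 β : ℝ) : K7aQuad fun t u => F t (c0 + c1 * t + β * u) := by
  obtain ⟨e0, e1, e2, e3, e4, e5, h⟩ := hF
  refine ⟨e0 + e2 * c0 + e5 * c0 ^ 2, e1 + e2 * c1 + e4 * c0 + 2 * e5 * c0 * c1, e2 * β + 2 * e5 * c0 * β, e3 + e4 * c1 + e5 * c1 ^ 2,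
    e4 * β + 2 * e5 * c1 * β, e5 * β ^ 2, fun t u => ?_⟩
  simp only [h]
  ring

/-- **L-252-S7p-D2a** (polynomial extrapolation, 07 l.476-478).   PROOF.  `Ft t u := F t (cen t + β u)` is `K7aQuad` (substitute, expand, `ring`); `hP.norm` bounds it by `K` on `[0,1] × [-1,1]`;  `k7a_quad_lip` at `(t, lam u)`: `|F t (cen t + lam β u)| ≤ 48 K lam²`.
`fit`: `K β ≤ 48 K lam² (lam β)`, `K th ≤ 48 K lam² th`.   `floor`: `χ th^d (lam β) = lam (χ th^d β)`, `ENNReal.ofReal_mul`, `lam K ≤ 48 K lam²`.   `meas, grp, quad`: unchanged. -/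
theorem k7p_layer_scale {W : K7aLn} (P : K7aLayer W) {K χ th β d lam : ℝ} (hP : P.Ok K χ th β d) (hK : 1 ≤ K) (hχ : 0 ≤ χ) (hth : 0 ≤ th) (hβ : 0 < β) (hl : 1 ≤ lam) :
    P.Ok (48 * K * lam ^ 2) χ th (lam * β) d := by
  have hl2 : 1 ≤ lam ^ 2 := by nlinarith
  have hll : lam ≤ lam ^ 2 := by nlinarith
  have hKl : K ≤ K * lam ^ 2 := by nlinarith
  have hKK : K ≤ 48 * K * lam ^ 2 := by nlinarith
  have h48 : 0 ≤ 48 * K * lam ^ 2 := by positivity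
  refine ⟨hP.meas, hP.grp, hP.quad, ?_, ?_, ?_⟩
  · intro φ t ht u hu
    have hq : K7aQuad fun t u => (P.G φ).F t ((P.G φ).c0 + (P.G φ).c1 * t + β * u) := k7p_quad_adapt (hP.quad φ) _ _ _
    have hA : ∀ t ∈ Set.Icc (0 : ℝ) 1, ∀ u ∈ Set.Icc (-1 : ℝ) 1, |(P.G φ).F t ((P.G φ).c0 + (P.G φ).c1 * t + β * u)| ≤ K := hP.norm φ
    have ht' : |t| ≤ lam := by
      rw [abs_of_nonneg ht.1]
      linarith [ht.2]
    have hu' : |lam * u| ≤ lam := by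
      rw [abs_mul, abs_of_nonneg (by linarith : (0 : ℝ) ≤ lam)]
      have : |u| ≤ 1 := abs_le.2 hu
      nlinarith
    have h1 := (k7a_quad_lip hq hA hl ht' ht' hu' hu').1
    have e : (P.G φ).cen t + lam * β * u = (P.G φ).c0 + (P.G φ).c1 * t + β * (lam * u) := by
      unfold K7aLab.cen
      ring
    rw [e]
    exact h1
  · intro l φ hl' t ht
    obtain ⟨h1, h2⟩ := hP.fit l φ hl' t ht
    refine ⟨h1.trans ?_, h2.trans (mul_le_mul_of_nonneg_right hKK hth)⟩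
    have h3 : β ≤ lam * β := by nlinarith
    calc K * β ≤ (48 * K * lam ^ 2) * β := mul_le_mul_of_nonneg_right hKK hβ.le
      _ ≤ (48 * K * lam ^ 2) * (lam * β) := mul_le_mul_of_nonneg_left h3 h48
  · intro φ
    have h1 := hP.floor φ
    have e : χ * th ^ d * (lam * β) = lam * (χ * th ^ d * β) := by ring
    rw [e, ENNReal.ofReal_mul (by linarith), mul_assoc]
    calc ENNReal.ofReal lam * (ENNReal.ofReal (χ * th ^ d * β) * W.palχ χ (P.vi φ))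
        ≤ ENNReal.ofReal lam * (ENNReal.ofReal K * W.lam0 {z | P.lab z.1 = some φ}) := mul_le_mul' le_rfl h1
      _ = ENNReal.ofReal (lam * K) * W.lam0 {z | P.lab z.1 = some φ} := by
          rw [← mul_assoc, ← ENNReal.ofReal_mul (by linarith)]
      _ ≤ ENNReal.ofReal (48 * K * lam ^ 2) * W.lam0 {z | P.lab z.1 = some φ} := by
          refine mul_le_mul' (ENNReal.ofReal_le_ofReal ?_) le_rfl
          nlinarith

/-- weakening of the slack; no meshes, no widths -/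
theorem k7p_ln_weak {W : K7aLn} {N K K' d S : ℝ} {Ms Ws : Finset ℝ} (h : W.Ok N K d S Ms Ws) (hK : K ≤ K') : W.Ok N K' d S ∅ ∅ where
  prob := h.prob
  m_co := h.m_co
  m_Sp := h.m_Sp
  m_Ev0 := h.m_Ev0
  m_hist := h.m_hist
  Sp_full := h.Sp_full
  Ev0_sub := h.Ev0_sub
  bd := fun l hl => by
    obtain ⟨h1, h2, h3, h4, h5⟩ := h.bd l hl
    exact ⟨h1.trans hK, h2.trans hK, h3.trans hK, h4.trans hK, fun t ht => (h5 t ht).trans hK⟩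
  χ0_pos := h.χ0_pos
  χ0_le := h.χ0_le
  pal_le := h.pal_le
  pal_ball := fun x p hp => (h.pal_ball x p hp).trans (ENNReal.ofReal_le_ofReal
    (mul_le_mul_of_nonneg_right hK (Real.rpow_nonneg (h.χ0_pos.le.trans hp) _)))
  joint := fun M hM => absurd hM (Finset.notMem_empty _)
  dom := ks_dom_mono h.dom le_rfl (fun _ _ => le_rfl) (fun _ => le_rfl) (ENNReal.ofReal_le_ofReal hK)

/-- **L-252-S7p-D2b** (07 l.452-456) **the budget of the projected labels**.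
PROOF.  `k7p_layer_scale` with `lam = K`: `P.Ok (48 K³) χ a (K β) d`; `k7wc_slice` with `ρ = qd`, `γ = g`, `m = qd g ≤ K β`, `Kg = K²` (`K β ≤ K² g`): `Ent`, `∑_Ent cT ≤ 48 (48K³)³ K²`.
`Ad := (Ent ×ˢ cells).image fun (e, cl) => (((vi e.1, zi e.1), e.2, cl), some e.1)`, `cells = Ico 0 2^nς ×ˢ Ico 0 2^nς`.   Membership: `hP.grp`, `k7p_cell_mem`.   Sum: `Finset.sum_image_le`/injectivity, `A κ a^d = ς² cT` (`K7aLayer.cT`), `card cells · ς² = 1`. -/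
theorem k7p_bud2 : ∃ (C : ℝ) (c : ℕ), 1 ≤ C ∧ ∀ (W : K7aLn) (P : K7aLayer W) (N K d S χ qd g a β : ℝ) (Ms Ws : Finset ℝ) (nς : ℕ), W.Ok N K d S Ms Ws → P.Ok K χ a β d → 1 ≤ K →
    0 < χ → 0 < a → 0 < qd → qd ≤ 1 → 0 < g → 0 < β → qd * g ≤ K * β → β ≤ K * g →
    ∃ Ad : Finset (K7pBx × Option P.Ph), (∀ z ∈ W.Ev0, P.lab z.1 ≠ none → (k7pBox W χ qd g ((1 / 2 : ℝ) ^ nς) z, P.lab z.1) ∈ Ad) ∧
      ∑ i ∈ Ad, (k7pBase W P χ qd g ((1 / 2 : ℝ) ^ nς)).A i.1 * ENNReal.ofReal (a ^ d) ≤ ENNReal.ofReal (C * K ^ c) := by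
  classical
  refine ⟨5308416, 11, by norm_num, ?_⟩
  intro W P N K d S χ qd g a β Ms Ws nς hW hP hK hχ ha hq hq1 hg hβ hm hβg
  have hK0 : 0 < K := by linarith
  have hK3 : K ≤ 48 * K * K ^ 2 := by nlinarith [sq_nonneg K, mul_pos hK0 hK0]
  have hP' := k7p_layer_scale P hP hK hχ.le ha.le hβ hK
  have hW' := k7p_ln_weak hW hK3
  obtain ⟨Ent, hEnt, hsum⟩ := k7wc_slice W P (Kg := K ^ 2) hW' hP' (hK.trans hK3) hχ.le ha.le hq hq1 hg (by positivity) hm (by nlinarith)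
    (by nlinarith)
  set ς : ℝ := (1 / 2 : ℝ) ^ nς with hς
  set cells : Finset (ℤ × ℤ) := Finset.Ico (0 : ℤ) (2 ^ nς) ×ˢ Finset.Ico (0 : ℤ) (2 ^ nς) with hcells
  set fm : (P.Ph × (ℤ × ℤ × ℤ)) × (ℤ × ℤ) → K7pBx × Option P.Ph := fun x => (((P.vi x.1.1, P.zi x.1.1), x.1.2, x.2), some x.1.1) with hfm
  refine ⟨(Ent ×ˢ cells).image fm, ?_, ?_⟩
  · intro z hz hl
    obtain ⟨φ, hφ⟩ := Option.ne_none_iff_exists'.1 hl
    obtain ⟨-, gv, gz⟩ := hP.grp z.1 φ hφ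
    refine Finset.mem_image.2 ⟨((φ, W.sdom qd g (qd * g) z), k7pCell ς (k7pNu W qd g z)), Finset.mem_product.2 ⟨hEnt z hz φ hφ, k7p_cell_mem W hq hg nς z⟩, ?_⟩
    simp only [hfm, k7pBox, gv, gz, hφ]
  · have hinj : Set.InjOn fm (Ent ×ˢ cells : Finset _) := by
      rintro ⟨⟨φ, D⟩, cl⟩ _ ⟨⟨φ', D'⟩, cl'⟩ _ h
      simp only [hfm, Prod.mk.injEq, Option.some.injEq] at h
      obtain ⟨⟨-, h2, h3⟩, h4⟩ := h
      rw [h2, h3, h4]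
    rw [Finset.sum_image hinj, Finset.sum_product]
    have hcard : (cells.card : ℝ) * ς ^ 2 = 1 := by
      rw [hcells, Finset.card_product, Int.card_Ico]
      have : ((2 : ℤ) ^ nς - 0).toNat = 2 ^ nς := by
        have h : ((2 : ℤ) ^ nς - 0) = ((2 ^ nς : ℕ) : ℤ) := by push_cast; ring
        rw [h, Int.toNat_natCast]
      rw [this, hς]
      push_cast
      rw [← pow_mul, mul_comm nς 2, pow_mul, ← mul_pow, ← mul_pow]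
      norm_num
    have hterm : ∀ e ∈ Ent, ∑ cl ∈ cells, (k7pBase W P χ qd g ς).A (fm (e, cl)).1 * ENNReal.ofReal (a ^ d) = P.cT χ a d qd (qd * g) e.1 := by
      intro e _
      have h1 : ∀ cl ∈ cells, (k7pBase W P χ qd g ς).A (fm (e, cl)).1 * ENNReal.ofReal (a ^ d) =
          ENNReal.ofReal (ς ^ 2 * qd * (qd * g) * χ) * W.palχ χ (P.vi e.1) * ENNReal.ofReal (a ^ d) := fun cl _ => rfl
      rw [Finset.sum_congr rfl h1, Finset.sum_const, nsmul_eq_mul]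
      unfold K7aLayer.cT
      have had : 0 ≤ a ^ d := Real.rpow_nonneg ha.le _
      rw [← ENNReal.ofReal_natCast, mul_right_comm (ENNReal.ofReal (ς ^ 2 * qd * (qd * g) * χ)), ← ENNReal.ofReal_mul (by positivity), ← mul_assoc,
        ← ENNReal.ofReal_mul (Nat.cast_nonneg _)]
      congr 2
      calc (cells.card : ℝ) * (ς ^ 2 * qd * (qd * g) * χ * a ^ d) = ((cells.card : ℝ) * ς ^ 2) * (qd * (qd * g) * (χ * a ^ d)) := by ring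
        _ = qd * (qd * g) * (χ * a ^ d) := by rw [hcard, one_mul]
    rw [Finset.sum_congr rfl hterm]
    refine hsum.trans (ENNReal.ofReal_le_ofReal (le_of_eq ?_))
    ring

/-- the geometry of one box in the adapted coordinates of a projected label (pure real arithmetic) -/
theorem k7p_col2_geo {qd g ς β K Y0 Y1 c0 c1 : ℝ} {kk sb yb i j : ℤ} (hK : 1 ≤ K) (hq : 0 < qd) (hg : 0 < g) (hς : 0 < ς) (hβ : 0 < β)
    (hi0 : (0 : ℝ) ≤ i) (hi1 : ((i : ℝ) + 1) * ς ≤ 1) (hj0 : (0 : ℝ) ≤ j) (hj1 : ((j : ℝ) + 1) * ς ≤ 1)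
    (hk0 : 0 ≤ (kk : ℝ) * qd) (hk1 : (kk : ℝ) * qd + qd ≤ 1)
    (hdom : ∀ t ∈ Set.Icc ((kk : ℝ) * qd) (kk * qd + qd), 0 ≤ (Y0 + Y1 * t) - (yb * (qd * g) + sb * g * (t - kk * qd)) ∧
      (Y0 + Y1 * t) - (yb * (qd * g) + sb * g * (t - kk * qd)) ≤ qd * g + g * qd)
    (hY1 : Y1 ∈ Set.Ico ((sb : ℝ) * g) (sb * g + g))
    (hfit : ∀ t ∈ Set.Icc (0 : ℝ) 1, |(Y0 + Y1 * t) - (c0 + c1 * t)| ≤ K * β) (hm : qd * g ≤ K * β)
    (κ : K7pBx) (hκ : κ.2 = ((kk, sb, yb), (i, j))) :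
    (∀ u1 ∈ Set.Icc (0 : ℝ) 1, ∀ u2 ∈ Set.Icc (0 : ℝ) 1, k7pCt qd ς κ u1 ∈ Set.Icc (0 : ℝ) 1 ∧
        |(k7pCy qd g ς κ u1 u2 - (c0 + c1 * k7pCt qd ς κ u1)) / β| ≤ 3 * K) ∧
      (∀ u1 u2 u1' u2' : ℝ, |k7pCt qd ς κ u1 - k7pCt qd ς κ u1'| ≤ |u1 - u1'| ∧
        |(k7pCy qd g ς κ u1 u2 - (c0 + c1 * k7pCt qd ς κ u1)) / β - (k7pCy qd g ς κ u1' u2' - (c0 + c1 * k7pCt qd ς κ u1')) / β|
          ≤ 3 * K * (|u1 - u1'| + |u2 - u2'|)) := by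
  have e1 : κ.2.1.1 = kk := by rw [hκ]
  have e2 : κ.2.1.2.1 = sb := by rw [hκ]
  have e3 : κ.2.1.2.2 = yb := by rw [hκ]
  have e4 : κ.2.2.1 = i := by rw [hκ]
  have e5 : κ.2.2.2 = j := by rw [hκ]
  have hCt : ∀ u1, k7pCt qd ς κ u1 = ((kk : ℝ) + ((i : ℝ) + u1) * ς) * qd := fun u1 => by
    unfold k7pCt
    rw [e1, e4]
  have hCy : ∀ u1 u2, k7pCy qd g ς κ u1 u2 = (yb : ℝ) * (qd * g) + (sb : ℝ) * g * (((i : ℝ) + u1) * ς * qd) + ((j : ℝ) + u2) * ς * (2 * (qd * g)) := fun u1 u2 => by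
    unfold k7pCy
    rw [e2, e3, e4, e5]
  have hς1 : ς ≤ 1 := by nlinarith
  have hq1 : qd ≤ 1 := by linarith
  have hK0 : 0 < K := by linarith
  have hKβ : 0 < K * β := mul_pos hK0 hβ
  have hm0 : 0 < qd * g := mul_pos hq hg
  have hςq : ς * qd ≤ 1 := by nlinarith
  have hςq0 : 0 < ς * qd := mul_pos hς hq
  constructor
  · intro u1 hu1 u2 hu2
    have a1 : 0 ≤ ((i : ℝ) + u1) * ς := mul_nonneg (by linarith [hu1.1]) hς.le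
    have a2 : ((i : ℝ) + u1) * ς ≤ 1 := le_trans (mul_le_mul_of_nonneg_right (by linarith [hu1.2]) hς.le) hi1
    have b1 : 0 ≤ ((j : ℝ) + u2) * ς := mul_nonneg (by linarith [hu2.1]) hς.le
    have b2 : ((j : ℝ) + u2) * ς ≤ 1 := le_trans (mul_le_mul_of_nonneg_right (by linarith [hu2.2]) hς.le) hj1
    obtain ⟨x, hx⟩ : ∃ x : ℝ, x = ((i : ℝ) + u1) * ς := ⟨_, rfl⟩
    obtain ⟨y, hy⟩ : ∃ y : ℝ, y = ((j : ℝ) + u2) * ς := ⟨_, rfl⟩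
    rw [← hx] at a1 a2
    rw [← hy] at b1 b2
    have ht : k7pCt qd ς κ u1 = (kk : ℝ) * qd + x * qd := by rw [hCt, ← hx]; ring
    have hxq0 : 0 ≤ x * qd := mul_nonneg a1 hq.le
    have hxq1 : x * qd ≤ qd := by nlinarith
    have htm : k7pCt qd ς κ u1 ∈ Set.Icc ((kk : ℝ) * qd) (kk * qd + qd) := by
      rw [ht]
      exact ⟨by linarith, by linarith⟩
    have ht01 : k7pCt qd ς κ u1 ∈ Set.Icc (0 : ℝ) 1 := ⟨by linarith [htm.1], by linarith [htm.2]⟩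
    refine ⟨ht01, ?_⟩
    obtain ⟨d1, d2⟩ := hdom _ htm
    have f1 := abs_le.1 (hfit _ ht01)
    have hy' : k7pCy qd g ς κ u1 u2 = (yb : ℝ) * (qd * g) + (sb : ℝ) * g * (k7pCt qd ς κ u1 - kk * qd) + y * (2 * (qd * g)) := by
      rw [hCy, ht, ← hx, ← hy]
      ring
    have hy0 : 0 ≤ y * (2 * (qd * g)) := mul_nonneg b1 (by positivity)
    have hy1 : y * (2 * (qd * g)) ≤ 2 * (qd * g) := by nlinarith
    rw [abs_div, abs_of_pos hβ, div_le_iff₀ hβ, abs_le]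
    constructor
    · rw [hy']
      nlinarith [f1.1, f1.2]
    · rw [hy']
      nlinarith [f1.1, f1.2]
  · intro u1 u2 u1' u2'
    have t1 : k7pCt qd ς κ u1 - k7pCt qd ς κ u1' = (ς * qd) * (u1 - u1') := by
      rw [hCt, hCt]
      ring
    constructor
    · rw [t1, abs_mul, abs_of_pos hςq0]
      exact mul_le_of_le_one_left (abs_nonneg _) hςq
    · have f0 := abs_le.1 (hfit 0 ⟨le_rfl, zero_le_one⟩)
      have f1 := abs_le.1 (hfit 1 ⟨zero_le_one, le_rfl⟩)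
      have hs : |(sb : ℝ) * g - c1| ≤ g + 2 * (K * β) := by
        rw [abs_le]
        constructor <;> linarith [hY1.1, hY1.2, f0.1, f0.2, f1.1, f1.2]
      have e : (k7pCy qd g ς κ u1 u2 - (c0 + c1 * k7pCt qd ς κ u1)) / β - (k7pCy qd g ς κ u1' u2' - (c0 + c1 * k7pCt qd ς κ u1')) / β
          = ((((sb : ℝ) * g - c1) * (ς * qd)) * (u1 - u1') + (2 * (ς * (qd * g))) * (u2 - u2')) / β := by
        rw [hCy, hCy, hCt, hCt]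
        field_simp
        ring
      rw [e, abs_div, abs_of_pos hβ, div_le_iff₀ hβ]
      have c1' : |((sb : ℝ) * g - c1) * (ς * qd)| ≤ 3 * (K * β) := by
        rw [abs_mul, abs_of_pos hςq0]
        calc |(sb : ℝ) * g - c1| * (ς * qd) ≤ (g + 2 * (K * β)) * (ς * qd) := mul_le_mul_of_nonneg_right hs hςq0.le
          _ = ς * (qd * g) + 2 * (K * β) * (ς * qd) := by ring
          _ ≤ 1 * (K * β) + 2 * (K * β) * 1 := by
              refine add_le_add ?_ (mul_le_mul_of_nonneg_left hςq (by positivity))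
              exact mul_le_mul hς1 hm hm0.le zero_le_one
          _ = 3 * (K * β) := by ring
      have c2' : |2 * (ς * (qd * g))| ≤ 3 * (K * β) := by
        rw [abs_of_pos (by positivity)]
        have : ς * (qd * g) ≤ 1 * (K * β) := mul_le_mul hς1 hm hm0.le zero_le_one
        linarith
      calc |(((sb : ℝ) * g - c1) * (ς * qd)) * (u1 - u1') + (2 * (ς * (qd * g))) * (u2 - u2')|
          ≤ |((sb : ℝ) * g - c1) * (ς * qd)| * |u1 - u1'| + |2 * (ς * (qd * g))| * |u2 - u2'| := by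
            refine (abs_add_le _ _).trans (le_of_eq ?_)
            rw [abs_mul _ (u1 - u1'), abs_mul _ (u2 - u2')]
        _ ≤ 3 * (K * β) * |u1 - u1'| + 3 * (K * β) * |u2 - u2'| :=
            add_le_add (mul_le_mul_of_nonneg_right c1' (abs_nonneg _)) (mul_le_mul_of_nonneg_right c2' (abs_nonneg _))
        _ = 3 * K * (|u1 - u1'| + |u2 - u2'|) * β := by ring

/-- **L-252-S7p-D3** (07 l.474-478).   `qd = 2^{-n}`, `ς = 2^{-nς}`, `m = qd g`.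
PROOF.  Structural fields: countable; `m_ix`: `k7p_box_meas`, `hP.meas`; `box`: `rfl`; `T_eq`: `if_pos (hAd ..)`; `bud`: `tsum_eq_sum` (zero off `Ad`); `fit`: `k7p_chart` + `hP.fit` (`K a ≤ K' a`); `cls`: a quadratic polynomial composed with the affine maps `Ct`, `Cy` (explicit coefficients, `ring`).
`nrm`, `lip`: let `z₀ = (l,t) ∈ Sp`, `lab l = some φ`, `κ = box z₀ = (_, (kk,sb,yb), (i,j))`.   For `u ∈ [0,1]²`: `(i + u₁) ς, (j + u₂) ς ∈ [0,1]` (`k7p_cell_mem`), `t' = Ct κ u₁ ∈ [kk qd, (kk+1) qd] ⊆ [0,1]` (`0 ≤ t < 1`, `qd = 2^{-n}`: `0 ≤ kk ≤ 2^n - 1`);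
`Cy κ u - (yb m + sb g (t' - kk qd)) ∈ [0, 2m]`, the same for `Y_l(t')` (`k7wc_sdom_box`): `|Cy κ u - Y_l(t')| ≤ 2m ≤ 2Kβ`, `|Y_l(t') - cen t'| ≤ Kβ`.   So `f u = Ft t' w`, `Ft t w := F t (cen t + β w)`, `w = (Cy κ u - cen t')/β`, `|w| ≤ 3K`.
`k7a_quad_lip` (`A = K`, `lam = 3K`): `|f u| ≤ 432 K³`, `|f u - f u'| ≤ 144 K² (|t' - t''| + |w - w'|)`; `|t' - t''| = ς qd |Δu₁| ≤ |Δu₁|`; `β (w - w') = (sb g - c1) ς qd Δu₁ + 2 ς m Δu₂`, `|sb g - c1| ≤ |sb g - Y1| + |Y1 - c1| ≤ g + 2Kβ`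
(the affine function `Y_l - cen` is `≤ Kβ` at `0` and `1`), `(g + 2Kβ) qd ≤ 3Kβ`, `2m ≤ 2Kβ`: `|w - w'| ≤ 3K (|Δu₁| + |Δu₂|)`.     `C = 576`, `c = 3` suffice. -/
theorem k7p_col2_ok : ∃ (C : ℝ) (c : ℕ), 1 ≤ C ∧ ∀ (W : K7aLn) (P : K7aLayer W) (N K d S χ g a β K' ϑ : ℝ) (Ms Ws : Finset ℝ) (n nς : ℕ) (Ad : Finset (K7pBx × Option P.Ph)),
    W.Ok N K d S Ms Ws → P.Ok K χ a β d → 1 ≤ K → 0 < a → 0 < g → 0 < β → (∀ z ∈ W.Ev0, z.2 < 1) → (1 / 2 : ℝ) ^ n * g ≤ K * β →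
    (∀ z ∈ W.Ev0, P.lab z.1 ≠ none → (k7pBox W χ ((1 / 2 : ℝ) ^ n) g ((1 / 2 : ℝ) ^ nς) z, P.lab z.1) ∈ Ad) →
    ∑ i ∈ Ad, (k7pBase W P χ ((1 / 2 : ℝ) ^ n) g ((1 / 2 : ℝ) ^ nς)).A i.1 * ENNReal.ofReal (a ^ d) ≤ ENNReal.ofReal K' → C * K ^ c ≤ K' → K' * ϑ ≤ a →
    (k7pC2 W P χ ((1 / 2 : ℝ) ^ n) g ((1 / 2 : ℝ) ^ nς) a d Ad).Ok k7pQuad K' d a ϑ := by
  classical
  refine ⟨576, 3, by norm_num, ?_⟩
  intro W P N K d S χ g a β K' ϑ Ms Ws n nς Ad hW hP hK ha hg hβ ht1 hm hAd hbud hK' htiny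
  obtain ⟨qd, hqd⟩ : ∃ qd : ℝ, qd = (1 / 2 : ℝ) ^ n := ⟨_, rfl⟩
  obtain ⟨ς, hςd⟩ : ∃ ς : ℝ, ς = (1 / 2 : ℝ) ^ nς := ⟨_, rfl⟩
  have hq : 0 < qd := by rw [hqd]; positivity
  have hς : 0 < ς := by rw [hςd]; positivity
  have hK0 : 0 < K := by linarith
  have hK3 : K ≤ K ^ 3 := by nlinarith [mul_pos hK0 hK0]
  have hKK' : K ≤ K' := by nlinarith
  have h2n : qd * 2 ^ n = 1 := by
    rw [hqd, ← mul_pow]
    norm_num
  have h2ς : ς * 2 ^ nς = 1 := by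
    rw [hςd, ← mul_pow]
    norm_num
  rw [← hqd, ← hςd] at hAd hbud ⊢
  rw [← hqd] at hm
  -- the geometry at one incidence
  have hgeo : ∀ z ∈ W.Ev0, ∀ φ, P.lab z.1 = some φ →
      (∀ u1 ∈ Set.Icc (0 : ℝ) 1, ∀ u2 ∈ Set.Icc (0 : ℝ) 1, k7pCt qd ς (k7pBox W χ qd g ς z) u1 ∈ Set.Icc (0 : ℝ) 1 ∧
        |(k7pCy qd g ς (k7pBox W χ qd g ς z) u1 u2 - ((P.G φ).c0 + (P.G φ).c1 * k7pCt qd ς (k7pBox W χ qd g ς z) u1)) / β| ≤ 3 * K) ∧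
      (∀ u1 u2 u1' u2' : ℝ, |k7pCt qd ς (k7pBox W χ qd g ς z) u1 - k7pCt qd ς (k7pBox W χ qd g ς z) u1'| ≤ |u1 - u1'| ∧
        |(k7pCy qd g ς (k7pBox W χ qd g ς z) u1 u2 - ((P.G φ).c0 + (P.G φ).c1 * k7pCt qd ς (k7pBox W χ qd g ς z) u1)) / β
            - (k7pCy qd g ς (k7pBox W χ qd g ς z) u1' u2' - ((P.G φ).c0 + (P.G φ).c1 * k7pCt qd ς (k7pBox W χ qd g ς z) u1')) / β|
          ≤ 3 * K * (|u1 - u1'| + |u2 - u2'|)) := by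
    intro z hz φ hφ
    have hzt := (hW.Ev0_sub hz).2
    have hzt1 := ht1 z hz
    obtain ⟨kk, sb, yb, hD⟩ : ∃ kk sb yb : ℤ, W.sdom qd g (qd * g) z = (kk, sb, yb) := ⟨_, _, _, rfl⟩
    obtain ⟨b1, b2, b3⟩ := k7wc_sdom_box W hq hg (mul_pos hq hg) z kk sb yb hD
    have hcell := k7p_cell_mem W hq hg nς z
    rw [← hςd, Finset.mem_product, Finset.mem_Ico, Finset.mem_Ico] at hcell
    obtain ⟨⟨i0, i1⟩, ⟨j0, j1⟩⟩ := hcell
    have hfl : ∀ x : ℤ, x < 2 ^ nς → ((x : ℝ) + 1) * ς ≤ 1 := fun x hx => by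
      have h1 : (x : ℝ) + 1 ≤ 2 ^ nς := by exact_mod_cast Int.add_one_le_iff.2 hx
      calc ((x : ℝ) + 1) * ς ≤ 2 ^ nς * ς := mul_le_mul_of_nonneg_right h1 hς.le
        _ = 1 := by rw [mul_comm]; exact h2ς
    have hkk : kk = ⌊z.2 / qd⌋ := (congrArg Prod.fst hD).symm
    have hk0 : 0 ≤ (kk : ℝ) * qd := by
      have : (0 : ℤ) ≤ kk := by
        rw [hkk]
        exact Int.floor_nonneg.2 (div_nonneg hzt.1 hq.le)
      have : (0 : ℝ) ≤ kk := by exact_mod_cast this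
      positivity
    have hk1 : (kk : ℝ) * qd + qd ≤ 1 := by
      have h1 : kk < 2 ^ n := by
        rw [hkk, Int.floor_lt, div_lt_iff₀ hq]
        push_cast
        rw [mul_comm, h2n]
        exact hzt1
      have h2 : (kk : ℝ) + 1 ≤ 2 ^ n := by exact_mod_cast Int.add_one_le_iff.2 h1
      calc (kk : ℝ) * qd + qd = ((kk : ℝ) + 1) * qd := by ring
        _ ≤ 2 ^ n * qd := mul_le_mul_of_nonneg_right h2 hq.le
        _ = 1 := by rw [mul_comm]; exact h2n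
    refine k7p_col2_geo (Y0 := W.Y0 z.1) (Y1 := W.Y1 z.1) (kk := kk) (sb := sb) (yb := yb) (i := (k7pCell ς (k7pNu W qd g z)).1) (j := (k7pCell ς (k7pNu W qd g z)).2)
      hK hq hg hς hβ (by exact_mod_cast i0) (hfl _ i1) (by exact_mod_cast j0) (hfl _ j1) hk0 hk1 (fun t ht => b3 t ht) b2
      (fun t ht => (hP.fit z.1 φ hφ t ht).1) hm _ ?_
    show (W.sdom qd g (qd * g) z, k7pCell ς (k7pNu W qd g z)) = _
    rw [hD]
  have hval : ∀ z : W.L × ℝ, ∀ φ, P.lab z.1 = some φ → ∀ u1 u2 : ℝ,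
      (k7pC2 W P χ qd g ς a d Ad).f ((k7pC2 W P χ qd g ς a d Ad).ix z) u1 u2
        = (fun t w => (P.G φ).F t ((P.G φ).c0 + (P.G φ).c1 * t + β * w)) (k7pCt qd ς (k7pBox W χ qd g ς z) u1)
            ((k7pCy qd g ς (k7pBox W χ qd g ς z) u1 u2 - ((P.G φ).c0 + (P.G φ).c1 * k7pCt qd ς (k7pBox W χ qd g ς z) u1)) / β) := by
    intro z φ hφ u1 u2
    show (P.lab z.1).elim 0 (fun φ => (P.G φ).F (k7pCt qd ς (k7pBox W χ qd g ς z) u1) (k7pCy qd g ς (k7pBox W χ qd g ς z) u1 u2)) = _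
    rw [hφ]
    show (P.G φ).F (k7pCt qd ς (k7pBox W χ qd g ς z) u1) (k7pCy qd g ς (k7pBox W χ qd g ς z) u1 u2) = _
    congr 1
    field_simp
    ring
  have hlab : ∀ ω ∈ (k7pBase W P χ qd g ς).Sp, ω ∈ W.Ev0 ∧ ∃ φ, P.lab ω.1 = some φ := fun ω hω =>
    ⟨hω.1, Option.ne_none_iff_exists'.1 hω.2⟩
  have h3K : (1 : ℝ) ≤ 3 * K := by linarith
  have hab : ∀ x ∈ Set.Icc (0 : ℝ) 1, |x| ≤ 3 * K := fun x hx => by
    rw [abs_of_nonneg hx.1]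
    linarith [hx.2]
  refine
  { cI := ?_, m_ix := ?_, a_pos := ha, box := fun ω _ => rfl, T_eq := ?_, bud := ?_, fit := ?_, cls := ?_, nrm := ?_, lip := ?_, tiny := htiny }
  · show Countable (K7pBx × Option P.Ph)
    infer_instance
  · intro i
    have e : (k7pC2 W P χ qd g ς a d Ad).ix ⁻¹' {i} = k7pBox W χ qd g ς ⁻¹' {i.1} ∩ {z : W.L × ℝ | P.lab z.1 = i.2} := by
      ext z
      show (k7pBox W χ qd g ς z, P.lab z.1) = i ↔ _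
      exact Prod.ext_iff
    rw [e]
    exact ((k7p_box_meas W hW χ qd g ς).1 (measurableSet_singleton _)).inter (k7wc_meas_lab W P hP _)
  · intro ω hω
    exact if_pos (hAd ω hω.1 hω.2)
  · have h0 : ∀ i ∉ Ad, (k7pC2 W P χ qd g ς a d Ad).T i = 0 := fun i hi => if_neg hi
    have h1 : ∀ i ∈ Ad, (k7pC2 W P χ qd g ς a d Ad).T i = (k7pBase W P χ qd g ς).A i.1 * ENNReal.ofReal (a ^ d) := fun i hi => if_pos hi
    have h2 : ∑' i, (k7pC2 W P χ qd g ς a d Ad).T i = ∑ i ∈ Ad, (k7pC2 W P χ qd g ς a d Ad).T i := tsum_eq_sum h0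
    exact (h2.trans (Finset.sum_congr rfl h1)).le.trans hbud
  · intro ω hω
    obtain ⟨hE, φ, hφ⟩ := hlab ω hω
    obtain ⟨-, c1, c2⟩ := k7p_chart W (χ := χ) hq hg hς ω
    show |W.X ω.1 ω.2 - (P.lab ω.1).elim 0 (fun φ => (P.G φ).F (k7pCt qd ς (k7pBox W χ qd g ς ω) (k7pU W qd g ς ω).1)
      (k7pCy qd g ς (k7pBox W χ qd g ς ω) (k7pU W qd g ς ω).1 (k7pU W qd g ς ω).2))| ≤ K' * a
    rw [hφ]
    show |W.X ω.1 ω.2 - (P.G φ).F (k7pCt qd ς (k7pBox W χ qd g ς ω) (k7pU W qd g ς ω).1)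
      (k7pCy qd g ς (k7pBox W χ qd g ς ω) (k7pU W qd g ς ω).1 (k7pU W qd g ς ω).2)| ≤ K' * a
    rw [c1, c2]
    exact ((hP.fit ω.1 φ hφ ω.2 (hW.Ev0_sub hE).2).2).trans (mul_le_mul_of_nonneg_right hKK' ha.le)
  · intro ω hω
    obtain ⟨hE, φ, hφ⟩ := hlab ω hω
    obtain ⟨e0, e1, e2, e3, e4, e5, hF⟩ := hP.quad φ
    obtain ⟨κ, hκ⟩ : ∃ κ : K7pBx, κ = k7pBox W χ qd g ς ω := ⟨_, rfl⟩
    -- `Ct = A0 + A1 u1`, `Cy = B0 + B1 u1 + B2 u2`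
    obtain ⟨A0, hA0⟩ : ∃ A0 : ℝ, A0 = ((κ.2.1.1 : ℝ) + (κ.2.2.1 : ℝ) * ς) * qd := ⟨_, rfl⟩
    obtain ⟨A1, hA1⟩ : ∃ A1 : ℝ, A1 = ς * qd := ⟨_, rfl⟩
    obtain ⟨B0, hB0⟩ : ∃ B0 : ℝ, B0 = (κ.2.1.2.2 : ℝ) * (qd * g) + (κ.2.1.2.1 : ℝ) * g * ((κ.2.2.1 : ℝ) * ς * qd) + (κ.2.2.2 : ℝ) * ς * (2 * (qd * g)) := ⟨_, rfl⟩
    obtain ⟨B1, hB1⟩ : ∃ B1 : ℝ, B1 = (κ.2.1.2.1 : ℝ) * g * (ς * qd) := ⟨_, rfl⟩
    obtain ⟨B2, hB2⟩ : ∃ B2 : ℝ, B2 = ς * (2 * (qd * g)) := ⟨_, rfl⟩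
    have hct : ∀ u1, k7pCt qd ς κ u1 = A0 + A1 * u1 := fun u1 => by
      unfold k7pCt
      rw [hA0, hA1]
      ring
    have hcy : ∀ u1 u2, k7pCy qd g ς κ u1 u2 = B0 + B1 * u1 + B2 * u2 := fun u1 u2 => by
      unfold k7pCy
      rw [hB0, hB1, hB2]
      ring
    show K7aQuad (fun u1 u2 => (P.lab ω.1).elim 0 (fun φ => (P.G φ).F (k7pCt qd ς (k7pBox W χ qd g ς ω) u1) (k7pCy qd g ς (k7pBox W χ qd g ς ω) u1 u2)))
    rw [hφ, ← hκ]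
    refine ⟨e0 + e1 * A0 + e2 * B0 + e3 * A0 ^ 2 + e4 * A0 * B0 + e5 * B0 ^ 2,
      e1 * A1 + e2 * B1 + 2 * e3 * A0 * A1 + e4 * (A0 * B1 + A1 * B0) + 2 * e5 * B0 * B1,
      e2 * B2 + e4 * A0 * B2 + 2 * e5 * B0 * B2,
      e3 * A1 ^ 2 + e4 * A1 * B1 + e5 * B1 ^ 2,
      e4 * A1 * B2 + 2 * e5 * B1 * B2,
      e5 * B2 ^ 2, fun u1 u2 => ?_⟩
    show (P.G φ).F (k7pCt qd ς κ u1) (k7pCy qd g ς κ u1 u2) = _
    rw [hF, hct, hcy]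
    ring
  · intro ω hω t ht y hy
    obtain ⟨hE, φ, hφ⟩ := hlab ω hω
    obtain ⟨g1, -⟩ := hgeo ω hE φ hφ
    obtain ⟨a1, a2⟩ := g1 t ht y hy
    rw [hval ω φ hφ]
    have hq' := k7p_quad_adapt (hP.quad φ) (P.G φ).c0 (P.G φ).c1 β
    have h1 := (k7a_quad_lip hq' (hP.norm φ) h3K (hab _ a1) (hab _ a1) a2 a2).1
    refine h1.trans ?_
    calc 48 * K * (3 * K) ^ 2 = 432 * K ^ 3 := by ring
      _ ≤ 576 * K ^ 3 := by nlinarith [pow_pos hK0 3]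
      _ ≤ K' := hK'
  · intro ω hω t ht y hy t' ht' y' hy'
    obtain ⟨hE, φ, hφ⟩ := hlab ω hω
    obtain ⟨g1, g2⟩ := hgeo ω hE φ hφ
    obtain ⟨a1, a2⟩ := g1 t ht y hy
    obtain ⟨a1', a2'⟩ := g1 t' ht' y' hy'
    obtain ⟨l1, l2⟩ := g2 t y t' y'
    rw [hval ω φ hφ, hval ω φ hφ]
    have hq' := k7p_quad_adapt (hP.quad φ) (P.G φ).c0 (P.G φ).c1 β
    have h1 := (k7a_quad_lip hq' (hP.norm φ) h3K (hab _ a1) (hab _ a1') a2 a2').2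
    refine h1.trans ?_
    have hD : 0 ≤ |t - t'| + |y - y'| := by positivity
    have h2 : |k7pCt qd ς (k7pBox W χ qd g ς ω) t - k7pCt qd ς (k7pBox W χ qd g ς ω) t'|
        + |(k7pCy qd g ς (k7pBox W χ qd g ς ω) t y - ((P.G φ).c0 + (P.G φ).c1 * k7pCt qd ς (k7pBox W χ qd g ς ω) t)) / β
            - (k7pCy qd g ς (k7pBox W χ qd g ς ω) t' y' - ((P.G φ).c0 + (P.G φ).c1 * k7pCt qd ς (k7pBox W χ qd g ς ω) t')) / β|
        ≤ 4 * K * (|t - t'| + |y - y'|) := by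
      have : |t - t'| ≤ K * (|t - t'| + |y - y'|) := by nlinarith [abs_nonneg (t - t'), abs_nonneg (y - y')]
      linarith
    calc 48 * K * (3 * K) * _ ≤ 48 * K * (3 * K) * (4 * K * (|t - t'| + |y - y'|)) := mul_le_mul_of_nonneg_left h2 (by positivity)
      _ = 576 * K ^ 3 * (|t - t'| + |y - y'|) := by ring
      _ ≤ K' * (|t - t'| + |y - y'|) := mul_le_mul_of_nonneg_right hK' hD

/-! ## D4-D5. Colour 1: the graph entries of the true labels -/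

/-- **L-252-S7p-D4**.  The chart is affine (componentwise `ring` after unfolding; `Prod.ext`). -/
theorem k7p_ch_aff (χ qd g ς : ℝ) (κ : K7pBx) (u1 u2 : ℝ) :
    k7pCh χ qd g ς κ u1 u2 = k7pAff (k7pCh χ qd g ς κ 0 0) (ς * qd, (κ.1.1 : ℝ) * kbDy χ * (ς * qd), (κ.2.1.2.1 : ℝ) * g * (ς * qd)) (0, 0, ς * (2 * (qd * g))) u1 u2 := by
  simp only [k7pCh, k7pAff, k7pCt, k7pCz, k7pCy, Prod.smul_mk, Prod.mk_add_mk, smul_eq_mul]
  refine Prod.ext ?_ (Prod.ext ?_ ?_)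
  · simp only []; ring
  · simp only []; ring
  · simp only []; ring

/-- **L-252-S7p-D4** (07 l.461-466) **the linear part of the chart in packet coordinates is `≤ C K² ς`.**
PROOF.  `p = (l,t) ∈ Ev0`, `Q = labQ p ∈ Qa`, `l ∈ asg Q ⊆ Sp` (`hW.lab`), `κ = box p = ((mv,zz),(kk,sb,yb),_)`, `χ' = kbDy χ < 2χ`, `0 ≤ v - mv χ' < χ'`, `0 ≤ Y1 - sb g < g`.   Differences of the three packet coordinates (`Prod.dist_eq`, `Real.dist_eq`, `max_le`), `Δ_i = u_i - u_i'`: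
 time `ς qd Δ₁ / h`, `qd ≤ q ≤ K h`;      major `mv χ' ς qd Δ₁ / h`, `|mv χ'| ≤ |v| + 2χ ≤ K + 1`;
 transverse `ς qd ((sb g - r1 - r2 mv χ') Δ₁ + 2 g Δ₂)/(h g)`, `|sb g - r1 - r2 mv χ'| ≤ |sb g - Y1| + |Y1 - r1 - r2 v| + |r2| |v - mv χ'| ≤ g + K g + 2Kχ ≤ (K + 2) g` (`hW.slope`, `hW.row_bd`, `hχ`).      `C = 3`, `c = 2` suffice. -/
theorem k7p_ch_lin : ∃ (C : ℝ) (c : ℕ), 1 ≤ C ∧ ∀ (W : K7aW) (N K d S a h g χ qd ς : ℝ) (Ms Ws : Finset ℝ), W.Ok N K d S a h g Ms Ws → 1 ≤ K → 0 < h → 0 < g → 0 < χ → 2 * K * χ ≤ g → g ≤ 1 →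
    0 < qd → qd ≤ W.q → 0 < ς → ∀ p ∈ W.Ev0, ∀ u1 u2 u1' u2' : ℝ,
      dist (k7pPk W h g (W.labQ p) (k7pCh χ qd g ς (k7pBox W.toK7aLn χ qd g ς p) u1 u2)) (k7pPk W h g (W.labQ p) (k7pCh χ qd g ς (k7pBox W.toK7aLn χ qd g ς p) u1' u2'))
        ≤ C * K ^ c * ς * (|u1 - u1'| + |u2 - u2'|) := by
  refine ⟨3, 2, by norm_num, ?_⟩
  intro W N K d S a h g χ qd ς Ms Ws hW hK hh hg hχ hχg hg1 hq hqq hς p hp u1 u2 u1' u2'
  obtain ⟨hQ, hinc⟩ := hW.lab p hp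
  have hl : p.1 ∈ W.asg (W.labQ p) := hinc.1
  have hSp : p.1 ∈ W.Sp := hW.asg_Sp _ hQ hl
  obtain ⟨-, hv, -, -, -⟩ := hW.ln.bd _ hSp
  have hslope := hW.slope _ hQ _ hl
  obtain ⟨-, -, -, hr2⟩ := hW.row_bd _ hQ
  obtain ⟨hdy0, -, hdy2⟩ := k7wc_dy hχ
  obtain ⟨hb0, hb1⟩ := k7p_bin_facts (χ := χ) (x := W.v p.1) rfl
  have s1 := Int.floor_le (W.Y1 p.1 / g)
  have s2 := Int.lt_floor_add_one (W.Y1 p.1 / g)
  rw [le_div_iff₀ hg] at s1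
  rw [div_lt_iff₀ hg] at s2
  have hqh := hW.q_hi
  -- abstractions
  obtain ⟨A, hA⟩ : ∃ A : ℝ, A = (kbBin χ (W.v p.1) : ℝ) * kbDy χ := ⟨_, rfl⟩
  obtain ⟨B, hB⟩ : ∃ B : ℝ, B = (⌊W.Y1 p.1 / g⌋ : ℝ) * g := ⟨_, rfl⟩
  rw [← hA] at hb0 hb1
  rw [← hB] at s1
  have s2' : W.Y1 p.1 < B + g := by rw [hB]; linarith
  obtain ⟨r1, hr1d⟩ : ∃ r : ℝ, r = W.r1 (W.labQ p) := ⟨_, rfl⟩
  obtain ⟨r2, hr2d⟩ : ∃ r : ℝ, r = W.r2 (W.labQ p) := ⟨_, rfl⟩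
  rw [← hr1d, ← hr2d] at hslope
  rw [← hr2d] at hr2
  obtain ⟨vv, hvv⟩ : ∃ r : ℝ, r = W.v p.1 := ⟨_, rfl⟩
  obtain ⟨y1, hy1⟩ : ∃ r : ℝ, r = W.Y1 p.1 := ⟨_, rfl⟩
  rw [← hvv] at hv hslope hb0 hb1
  rw [← hy1] at hslope s1 s2'
  have hK0 : 0 < K := by linarith
  have h2χ : 2 * χ ≤ g := by
    have := mul_le_mul_of_nonneg_right hK hχ.le
    linarith
  have hAabs : |A| ≤ K + 1 := by
    obtain ⟨v1, v2⟩ := abs_le.mp hv
    rw [abs_le]; constructor <;> linarith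
  have hT : |B - r1 - r2 * A| ≤ (K + 2) * g := by
    have e : B - r1 - r2 * A = (B - y1) + (y1 - (r1 + r2 * vv)) + r2 * (vv - A) := by ring
    have t1 : |B - y1| ≤ g := by rw [abs_le]; constructor <;> linarith
    have t3 : |r2 * (vv - A)| ≤ K * (2 * χ) := by
      rw [abs_mul]
      refine mul_le_mul hr2 ?_ (abs_nonneg _) hK0.le
      rw [abs_le]; constructor <;> linarith
    rw [e]
    calc |(B - y1) + (y1 - (r1 + r2 * vv)) + r2 * (vv - A)|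
        ≤ |(B - y1) + (y1 - (r1 + r2 * vv))| + |r2 * (vv - A)| := abs_add_le _ _
      _ ≤ |B - y1| + |y1 - (r1 + r2 * vv)| + |r2 * (vv - A)| := by gcongr; exact abs_add_le _ _
      _ ≤ g + K * g + K * (2 * χ) := by gcongr
      _ ≤ (K + 2) * g := by linarith
  obtain ⟨R, hR⟩ : ∃ R : ℝ, R = ς * qd / h := ⟨_, rfl⟩
  have hR0 : 0 ≤ R := by rw [hR]; positivity
  have hR1 : R ≤ K * ς := by
    rw [hR, div_le_iff₀ hh]
    have : qd ≤ K * h := hqq.trans hqh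
    calc ς * qd ≤ ς * (K * h) := mul_le_mul_of_nonneg_left this hς.le
      _ = K * ς * h := by ring
  obtain ⟨D1, hD1⟩ : ∃ D : ℝ, D = u1 - u1' := ⟨_, rfl⟩
  obtain ⟨D2, hD2⟩ : ∃ D : ℝ, D = u2 - u2' := ⟨_, rfl⟩
  rw [← hD1, ← hD2]
  have hn1 := abs_nonneg D1
  have hn2 := abs_nonneg D2
  have hKς : 0 ≤ K * ς := by positivity
  have c1 : (k7pPk W h g (W.labQ p) (k7pCh χ qd g ς (k7pBox W.toK7aLn χ qd g ς p) u1 u2)).1
      - (k7pPk W h g (W.labQ p) (k7pCh χ qd g ς (k7pBox W.toK7aLn χ qd g ς p) u1' u2')).1 = R * D1 := by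
    simp only [k7pPk, k7pCh, k7pCt]
    rw [hR, hD1]; field_simp; ring
  have c2 : (k7pPk W h g (W.labQ p) (k7pCh χ qd g ς (k7pBox W.toK7aLn χ qd g ς p) u1 u2)).2.1
      - (k7pPk W h g (W.labQ p) (k7pCh χ qd g ς (k7pBox W.toK7aLn χ qd g ς p) u1' u2')).2.1 = A * (R * D1) := by
    simp only [k7pPk, k7pCh, k7pCt, k7pCz, k7pBox]
    rw [hR, hD1, hA]; field_simp; ring
  have c3 : (k7pPk W h g (W.labQ p) (k7pCh χ qd g ς (k7pBox W.toK7aLn χ qd g ς p) u1 u2)).2.2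
      - (k7pPk W h g (W.labQ p) (k7pCh χ qd g ς (k7pBox W.toK7aLn χ qd g ς p) u1' u2')).2.2
      = R * ((B - r1 - r2 * A) / g * D1 + 2 * D2) := by
    simp only [k7pPk, k7pCh, k7pCt, k7pCz, k7pCy, k7pBox, K7aW.YQ, K7aLn.sdom]
    rw [hR, hD1, hD2, hA, hB, hr1d, hr2d]; field_simp; ring
  have hRD1 : |R * D1| ≤ K * ς * |D1| := by
    rw [abs_mul, abs_of_nonneg hR0]; exact mul_le_mul_of_nonneg_right hR1 hn1
  have hgoal : ∀ x : ℝ, x ≤ K * ς * ((K + 2) * |D1| + 2 * |D2|) → x ≤ 3 * K ^ 2 * ς * (|D1| + |D2|) := by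
    intro x hx
    refine hx.trans ?_
    have e : 3 * K ^ 2 * ς * (|D1| + |D2|) = K * ς * (3 * K * |D1| + 3 * K * |D2|) := by ring
    rw [e]
    refine mul_le_mul_of_nonneg_left ?_ hKς
    have a1 : (K + 2) * |D1| ≤ 3 * K * |D1| := mul_le_mul_of_nonneg_right (by linarith) hn1
    have a2 : 2 * |D2| ≤ 3 * K * |D2| := mul_le_mul_of_nonneg_right (by linarith) hn2
    linarith
  rw [Prod.dist_eq, Prod.dist_eq, Real.dist_eq, Real.dist_eq, Real.dist_eq, c1, c2, c3]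
  refine max_le ?_ (max_le ?_ ?_)
  · refine hgoal _ (hRD1.trans ?_)
    refine mul_le_mul_of_nonneg_left ?_ hKς
    have a1 : 1 * |D1| ≤ (K + 2) * |D1| := mul_le_mul_of_nonneg_right (by linarith) hn1
    linarith
  · refine hgoal _ ?_
    rw [abs_mul]
    calc |A| * |R * D1| ≤ (K + 1) * (K * ς * |D1|) := mul_le_mul hAabs hRD1 (abs_nonneg _) (by linarith)
      _ = K * ς * ((K + 1) * |D1|) := by ring
      _ ≤ K * ς * ((K + 2) * |D1| + 2 * |D2|) := by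
          refine mul_le_mul_of_nonneg_left ?_ hKς
          have a1 : (K + 1) * |D1| ≤ (K + 2) * |D1| := mul_le_mul_of_nonneg_right (by linarith) hn1
          linarith
  · refine hgoal _ ?_
    rw [abs_mul, abs_of_nonneg hR0]
    refine mul_le_mul hR1 ?_ (abs_nonneg _) hKς
    have hTg : |(B - r1 - r2 * A) / g| ≤ K + 2 := by
      rw [abs_div, abs_of_pos hg, div_le_iff₀ hg]; exact hT
    calc |(B - r1 - r2 * A) / g * D1 + 2 * D2| ≤ |(B - r1 - r2 * A) / g * D1| + |2 * D2| := abs_add_le _ _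
      _ = |(B - r1 - r2 * A) / g| * |D1| + 2 * |D2| := by
          rw [abs_mul, abs_mul, abs_of_pos (by norm_num : (0:ℝ) < 2)]
      _ ≤ (K + 2) * |D1| + 2 * |D2| := by gcongr

/-- **L-252-S7p-D4** (07 l.467-469) **replacing `Z` by `Z_α(t)`.**
PROOF.  By `k7p_chart` the chart point is `(t, Z_α(t), Y(t))`, the base is `(t, Z(t), Y(t))`; `0 ≤ Z(t) - Z_α(t) = (Z0 - zz χ') + (v - mv χ') t < 2χ' < 4χ` (`t ∈ [0,1]`).   Packet differences: `0`, `(Z_α - Z)/h`, `- r2 (Z_α - Z)/(h g)`; `|r2| ≤ K`, `g ≤ 1 ≤ K`. -/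
theorem k7p_ch_base (W : K7aW) {N K d S a h g χ qd ς : ℝ} {Ms Ws : Finset ℝ} (hW : W.Ok N K d S a h g Ms Ws) (hK : 1 ≤ K) (hh : 0 < h) (hg : 0 < g) (hg1 : g ≤ 1) (hχ : 0 < χ) (hq : 0 < qd) (hς : 0 < ς)
    {p : W.L × ℝ} (hp : p ∈ W.Ev0) :
    dist (k7pPk W h g (W.labQ p) (k7pCh χ qd g ς (k7pBox W.toK7aLn χ qd g ς p) (k7pU W.toK7aLn qd g ς p).1 (k7pU W.toK7aLn qd g ς p).2)) (k7pPk W h g (W.labQ p) (W.base p)) ≤ 4 * K * χ / (h * g) := by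
  obtain ⟨hQ, -⟩ := hW.lab p hp
  obtain ⟨-, -, -, hr2⟩ := hW.row_bd _ hQ
  obtain ⟨-, ht0, ht1⟩ := hW.ln.Ev0_sub hp
  obtain ⟨hdy0, -, hdy2⟩ := k7wc_dy hχ
  obtain ⟨hb0, hb1⟩ := k7p_bin_facts (χ := χ) (x := W.v p.1) rfl
  obtain ⟨hz0, hz1⟩ := k7p_bin_facts (χ := χ) (x := W.Z0 p.1) rfl
  obtain ⟨-, hCt, hCy⟩ := k7p_chart W.toK7aLn (χ := χ) hq hg hς p
  have hK0 : 0 < K := by linarith
  have hhg : 0 < h * g := mul_pos hh hg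
  obtain ⟨δ, hδ⟩ : ∃ δ : ℝ, δ = W.Z p.1 p.2 - k7pCz χ (k7pBox W.toK7aLn χ qd g ς p) p.2 := ⟨_, rfl⟩
  have hδe : δ = (W.Z0 p.1 - (kbBin χ (W.Z0 p.1) : ℝ) * kbDy χ) + (W.v p.1 - (kbBin χ (W.v p.1) : ℝ) * kbDy χ) * p.2 := by
    rw [hδ]; simp only [k7pCz, k7pBox, K7aLn.Z]; ring
  have hδ0 : 0 ≤ δ := by
    rw [hδe]; exact add_nonneg hz0 (mul_nonneg hb0 ht0)
  have hδ1 : δ ≤ 4 * χ := by
    rw [hδe]
    have : (W.v p.1 - (kbBin χ (W.v p.1) : ℝ) * kbDy χ) * p.2 ≤ kbDy χ * 1 :=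
      mul_le_mul hb1.le ht1 ht0 hdy0.le
    linarith
  have c1 : (k7pPk W h g (W.labQ p) (k7pCh χ qd g ς (k7pBox W.toK7aLn χ qd g ς p) (k7pU W.toK7aLn qd g ς p).1 (k7pU W.toK7aLn qd g ς p).2)).1
      - (k7pPk W h g (W.labQ p) (W.base p)).1 = 0 := by
    simp only [k7pPk, k7pCh, K7aLn.base]
    rw [hCt]; ring
  have c2 : (k7pPk W h g (W.labQ p) (k7pCh χ qd g ς (k7pBox W.toK7aLn χ qd g ς p) (k7pU W.toK7aLn qd g ς p).1 (k7pU W.toK7aLn qd g ς p).2)).2.1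
      - (k7pPk W h g (W.labQ p) (W.base p)).2.1 = -δ / h := by
    simp only [k7pPk, k7pCh, K7aLn.base]
    rw [hCt, hδ]; ring
  have c3 : (k7pPk W h g (W.labQ p) (k7pCh χ qd g ς (k7pBox W.toK7aLn χ qd g ς p) (k7pU W.toK7aLn qd g ς p).1 (k7pU W.toK7aLn qd g ς p).2)).2.2
      - (k7pPk W h g (W.labQ p) (W.base p)).2.2 = W.r2 (W.labQ p) * δ / (h * g) := by
    simp only [k7pPk, k7pCh, K7aLn.base, K7aW.YQ]
    rw [hCt, hCy, hδ]; ring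
  have hpos : 0 ≤ 4 * K * χ / (h * g) := by positivity
  rw [Prod.dist_eq, Prod.dist_eq, Real.dist_eq, Real.dist_eq, Real.dist_eq, c1, c2, c3]
  refine max_le (by simpa using hpos) (max_le ?_ ?_)
  · rw [abs_div, abs_neg, abs_of_nonneg hδ0, abs_of_pos hh, div_le_div_iff₀ hh hhg]
    have h1 : δ * (h * g) ≤ 4 * χ * (h * 1) := by
      refine mul_le_mul hδ1 (mul_le_mul_of_nonneg_left hg1 hh.le) hhg.le (by positivity)
    have h2 : 4 * χ * (h * 1) ≤ 4 * K * χ * h := by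
      have h3 : 0 ≤ χ * h := by positivity
      have h4 := mul_le_mul_of_nonneg_right hK h3
      linarith
    linarith
  · rw [abs_div, abs_mul, abs_of_nonneg hδ0, abs_of_pos hhg]
    refine div_le_div_of_nonneg_right ?_ hhg.le
    calc |W.r2 (W.labQ p)| * δ ≤ K * (4 * χ) := mul_le_mul hr2 hδ1 hδ0 hK0.le
      _ = 4 * K * χ := by ring

theorem k7p_col1_num {C₁ K : ℝ} {c₁ : ℕ} (hC : 1 ≤ C₁) (hK : 1 ≤ K) :
    16 * K ^ 2 ≤ 16 * C₁ * K ^ (c₁ + 2) ∧ 12 * (C₁ * K ^ c₁) * K ≤ 16 * C₁ * K ^ (c₁ + 2) ∧ 0 < C₁ * K ^ c₁ := by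
  have hK0 : 0 < K := lt_of_lt_of_le one_pos hK
  have h1 : 1 ≤ K ^ c₁ := one_le_pow₀ hK
  have h2 : 1 ≤ C₁ * K ^ c₁ := by nlinarith
  have h3 : K ≤ K ^ 2 := by nlinarith
  have e : 16 * C₁ * K ^ (c₁ + 2) = 16 * (C₁ * K ^ c₁) * K ^ 2 := by rw [pow_add]; ring
  rw [e]
  refine ⟨?_, ?_, by positivity⟩
  · have : 0 ≤ K ^ 2 := by positivity
    nlinarith
  · have : 0 ≤ C₁ * K ^ c₁ := by positivity
    nlinarith

/-- **L-252-S7p-D5** (07 l.459-473).   `(C₁, c₁)` from `k7p_ch_lin`; take `C := 16 C₁`, `c := c₁ + 2` (say).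
PROOF.  Let `p ∈ Sp ⊆ Ev0`, `κ = box p`, `e = ent p`, `U = k7pU p ∈ [0,1)²`, `D(z,z') := dist (Pk z) (Pk z')` in the packet coordinates of `labQ p`.   `D (Ch κ U) (base p) ≤ 4Kχ/(h g) =: η₀` (`k7p_ch_base`), `K η₀ ≤ a` and `η₀ ≤ ρ/2` by `hχs` (`1 ≤ K ρ`).
For `u ∈ [-1,2]²`: `D (Ch κ u) (Ch κ U) ≤ C₁ K^c₁ ς · 6 ≤ ρ/2` (`hςs`), so `Ch κ u ∈ k7pNb W h g ρ p` (`dist_triangle`).
`fit`: `hΓ.fit p` + `hΓ.lip p (base p) (Ch κ U)`: `≤ K a + K η₀ ≤ 2 K a`.      `cls`: `hΓ.sheet p` with `k7p_ch_aff`.      `nrm`: `|eF e (Ch κ u)| ≤ |X| + K a + K D(Ch κ u, base p) ≤ K + K + K ρ ≤ 3K`.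
`lip`: `hΓ.lip` + `k7p_ch_lin`: `K C₁ K^c₁ ς (|Δ₁| + |Δ₂|) ≤ |Δ₁| + |Δ₂|`.      Structural fields as in `k7p_col2_ok` (`m_ix`: `k7p_box_meas`, `hΓ.m_ent`). -/
theorem k7p_col1_ok : ∃ (C : ℝ) (c : ℕ), 1 ≤ C ∧ ∀ (W : K7aW) (Γ : K7pGr W) (P : K7aLayer W.toK7aLn) (Sh : Set (ℝ → ℝ → ℝ)) (N K d S a h g ρ χ qd ς K' ϑ : ℝ) (Ms Ws : Finset ℝ) (Ad : Finset (K7pBx × Γ.Ent)),
    W.Ok N K d S a h g Ms Ws → Γ.Ok Sh K a h g ρ → 1 ≤ K → 0 < a → a ≤ 1 → 0 < h → h ≤ 1 → 0 < g → g ≤ 1 → 0 < χ → 0 < qd → qd ≤ W.q → 0 < ς → C * K ^ c * ς ≤ 1 → C * K ^ c * χ ≤ a * h * g →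
    (∀ z ∈ W.Ev0, (k7pBox W.toK7aLn χ qd g ς z, Γ.ent z) ∈ Ad) →
    ∑ i ∈ Ad, (k7pBase W.toK7aLn P χ qd g ς).A i.1 * ENNReal.ofReal (a ^ d) ≤ ENNReal.ofReal K' → C * K ^ c ≤ K' → K' * ϑ ≤ a →
    (k7pC1 W Γ P χ qd g ς a d Ad).Ok Sh K' d a ϑ := by
  classical
  obtain ⟨C₁, c₁, hC₁, hlin⟩ := k7p_ch_lin
  refine ⟨16 * C₁, c₁ + 2, by linarith, ?_⟩
  intro W Γ P Sh N K d S a h g ρ χ qd ς K' ϑ Ms Ws Ad hW hΓ hK ha ha1 hh hh1 hg hg1 hχ hq hqW hς hςs hχs hAd hbud hK' htiny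
  have hK0 : 0 < K := lt_of_lt_of_le one_pos hK
  obtain ⟨n1, n2, n3⟩ := k7p_col1_num (c₁ := c₁) hC₁ hK
  obtain ⟨B, hB⟩ : ∃ B : ℝ, B = C₁ * K ^ c₁ := ⟨_, rfl⟩
  obtain ⟨CC, hCC⟩ : ∃ CC : ℝ, CC = 16 * C₁ * K ^ (c₁ + 2) := ⟨_, rfl⟩
  rw [← hCC] at hςs hχs hK' n1 n2
  rw [← hB] at n2 n3
  have hhg : 0 < h * g := mul_pos hh hg
  have hahg : a * h * g ≤ h * g := by
    rw [mul_assoc]
    exact mul_le_of_le_one_left hhg.le ha1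
  have hhg1 : h * g ≤ g := mul_le_of_le_one_left hg.le hh1
  have hK2 : K ≤ K ^ 2 := by nlinarith
  -- consequences of the smallness of χ
  have hχ16 : 16 * K ^ 2 * χ ≤ a * h * g := le_trans (mul_le_mul_of_nonneg_right n1 hχ.le) hχs
  have hχg : 2 * K * χ ≤ g := by nlinarith
  obtain ⟨η₀, hη₀⟩ : ∃ η₀ : ℝ, η₀ = 4 * K * χ / (h * g) := ⟨_, rfl⟩
  have hη0 : 0 ≤ η₀ := by rw [hη₀]; positivity
  have hKη : K * η₀ ≤ a := by
    rw [hη₀, mul_div_assoc', div_le_iff₀ hhg]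
    nlinarith
  have hρK : 1 ≤ K * ρ := hΓ.ρ_lo
  have hηρ : η₀ ≤ ρ / 2 := by
    have h1 : 2 * (K * η₀) ≤ 1 := by
      rw [hη₀, mul_div_assoc', mul_div_assoc', div_le_one hhg]
      nlinarith
    have h2 : K * (2 * η₀) ≤ K * ρ := by linarith
    have := le_of_mul_le_mul_left h2 hK0
    linarith
  have hBς : 12 * B * ς ≤ ρ := by
    have h1 : 12 * B * K * ς ≤ 1 := le_trans (mul_le_mul_of_nonneg_right n2 hς.le) hςs
    have h2 : K * (12 * B * ς) ≤ K * ρ := by linarith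
    exact le_of_mul_le_mul_left h2 hK0
  have hKBς : K * (B * ς) ≤ 1 := by
    have h1 : 12 * B * K * ς ≤ 1 := le_trans (mul_le_mul_of_nonneg_right n2 hς.le) hςs
    have : 0 ≤ B * K * ς := by positivity
    nlinarith
  have hK'3 : 3 * K ≤ K' := by nlinarith
  have hK'1 : 1 ≤ K' := by nlinarith
  -- the geometry at one incidence
  have hSp : ∀ ω ∈ (k7pBase W.toK7aLn P χ qd g ς).Sp, ω ∈ W.Ev0 := fun ω hω => hω.1
  have hbase : ∀ p ∈ W.Ev0, W.base p ∈ k7pNb W h g ρ p := by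
    intro p _
    show dist _ _ ≤ ρ
    rw [dist_self]
    exact hΓ.ρ_pos.le
  have hU : ∀ p : W.L × ℝ, k7pU W.toK7aLn qd g ς p ∈ Set.Ico (0 : ℝ) 1 ×ˢ Set.Ico (0 : ℝ) 1 := fun p =>
    (k7p_chart W.toK7aLn (χ := χ) hq hg hς p).1
  have hUb : ∀ p ∈ W.Ev0, dist (k7pPk W h g (W.labQ p) (k7pCh χ qd g ς (k7pBox W.toK7aLn χ qd g ς p) (k7pU W.toK7aLn qd g ς p).1 (k7pU W.toK7aLn qd g ς p).2))
      (k7pPk W h g (W.labQ p) (W.base p)) ≤ η₀ := fun p hp => by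
    rw [hη₀]
    exact k7p_ch_base W hW hK hh hg hg1 hχ hq hς hp
  have hl : ∀ p ∈ W.Ev0, ∀ u1 u2 u1' u2' : ℝ,
      dist (k7pPk W h g (W.labQ p) (k7pCh χ qd g ς (k7pBox W.toK7aLn χ qd g ς p) u1 u2)) (k7pPk W h g (W.labQ p) (k7pCh χ qd g ς (k7pBox W.toK7aLn χ qd g ς p) u1' u2'))
        ≤ B * ς * (|u1 - u1'| + |u2 - u2'|) := fun p hp u1 u2 u1' u2' => by
    rw [hB]
    exact hlin W N K d S a h g χ qd ς Ms Ws hW hK hh hg hχ hχg hg1 hq hqW hς p hp u1 u2 u1' u2'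
  have hnb : ∀ p ∈ W.Ev0, ∀ u1 ∈ Set.Icc (-1 : ℝ) 2, ∀ u2 ∈ Set.Icc (-1 : ℝ) 2,
      k7pCh χ qd g ς (k7pBox W.toK7aLn χ qd g ς p) u1 u2 ∈ k7pNb W h g ρ p := by
    intro p hp u1 hu1 u2 hu2
    show dist _ _ ≤ ρ
    refine (dist_triangle _ (k7pPk W h g (W.labQ p) (k7pCh χ qd g ς (k7pBox W.toK7aLn χ qd g ς p) (k7pU W.toK7aLn qd g ς p).1 (k7pU W.toK7aLn qd g ς p).2)) _).trans ?_
    have h1 := hl p hp u1 u2 (k7pU W.toK7aLn qd g ς p).1 (k7pU W.toK7aLn qd g ς p).2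
    have h2 := hUb p hp
    obtain ⟨⟨a1, a2⟩, ⟨b1, b2⟩⟩ := hU p
    have h3 : |u1 - (k7pU W.toK7aLn qd g ς p).1| ≤ 2 := abs_le.2 ⟨by linarith [hu1.1], by linarith [hu1.2]⟩
    have h4 : |u2 - (k7pU W.toK7aLn qd g ς p).2| ≤ 2 := abs_le.2 ⟨by linarith [hu2.1], by linarith [hu2.2]⟩
    have h5 : B * ς * (|u1 - (k7pU W.toK7aLn qd g ς p).1| + |u2 - (k7pU W.toK7aLn qd g ς p).2|) ≤ B * ς * 4 :=
      mul_le_mul_of_nonneg_left (by linarith) (by positivity)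
    have h6 : 0 ≤ B * ς := by positivity
    linarith
  have h01 : ∀ t ∈ Set.Icc (0 : ℝ) 1, t ∈ Set.Icc (-1 : ℝ) 2 := fun t ht => ⟨by linarith [ht.1], by linarith [ht.2]⟩
  have hUnb : ∀ p ∈ W.Ev0, k7pCh χ qd g ς (k7pBox W.toK7aLn χ qd g ς p) (k7pU W.toK7aLn qd g ς p).1 (k7pU W.toK7aLn qd g ς p).2 ∈ k7pNb W h g ρ p := by
    intro p hp
    obtain ⟨⟨a1, a2⟩, ⟨b1, b2⟩⟩ := hU p
    exact hnb p hp _ ⟨by linarith, by linarith⟩ _ ⟨by linarith, by linarith⟩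
  refine
  { cI := ?_, m_ix := ?_, a_pos := ha, box := fun ω _ => rfl, T_eq := ?_, bud := ?_, fit := ?_, cls := ?_, nrm := ?_, lip := ?_, tiny := htiny }
  · show Countable (K7pBx × Γ.Ent)
    infer_instance
  · intro i
    have e : (k7pC1 W Γ P χ qd g ς a d Ad).ix ⁻¹' {i} = k7pBox W.toK7aLn χ qd g ς ⁻¹' {i.1} ∩ Γ.ent ⁻¹' {i.2} := by
      ext z
      show (k7pBox W.toK7aLn χ qd g ς z, Γ.ent z) = i ↔ _
      exact Prod.ext_iff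
    rw [e]
    exact ((k7p_box_meas W.toK7aLn hW.ln χ qd g ς).1 (measurableSet_singleton _)).inter (hΓ.m_ent _)
  · intro ω hω
    exact if_pos (hAd ω (hSp ω hω))
  · have h0 : ∀ i ∉ Ad, (k7pC1 W Γ P χ qd g ς a d Ad).T i = 0 := fun i hi => if_neg hi
    have h1 : ∀ i ∈ Ad, (k7pC1 W Γ P χ qd g ς a d Ad).T i = (k7pBase W.toK7aLn P χ qd g ς).A i.1 * ENNReal.ofReal (a ^ d) := fun i hi => if_pos hi
    have h2 : ∑' i, (k7pC1 W Γ P χ qd g ς a d Ad).T i = ∑ i ∈ Ad, (k7pC1 W Γ P χ qd g ς a d Ad).T i := tsum_eq_sum h0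
    exact (h2.trans (Finset.sum_congr rfl h1)).le.trans hbud
  · intro p hp'
    have hp := hSp p hp'
    show |W.X p.1 p.2 - Γ.eF (Γ.ent p) (k7pCh χ qd g ς (k7pBox W.toK7aLn χ qd g ς p) (k7pU W.toK7aLn qd g ς p).1 (k7pU W.toK7aLn qd g ς p).2)| ≤ K' * a
    have h1 := hΓ.fit p hp
    have h2 := hΓ.lip p hp _ (hbase p hp) _ (hUnb p hp)
    rw [dist_comm] at h2
    have h3 := mul_le_mul_of_nonneg_left (hUb p hp) hK0.le
    have h4 : |W.X p.1 p.2 - Γ.eF (Γ.ent p) (k7pCh χ qd g ς (k7pBox W.toK7aLn χ qd g ς p) (k7pU W.toK7aLn qd g ς p).1 (k7pU W.toK7aLn qd g ς p).2)|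
        ≤ |W.X p.1 p.2 - Γ.eF (Γ.ent p) (W.base p)| + |Γ.eF (Γ.ent p) (W.base p) - Γ.eF (Γ.ent p) (k7pCh χ qd g ς (k7pBox W.toK7aLn χ qd g ς p) (k7pU W.toK7aLn qd g ς p).1 (k7pU W.toK7aLn qd g ς p).2)| :=
      abs_sub_le _ _ _
    have h5 : 3 * K * a ≤ K' * a := mul_le_mul_of_nonneg_right hK'3 ha.le
    nlinarith
  · intro p hp'
    have hp := hSp p hp'
    have h1 := hΓ.sheet p hp (k7pCh χ qd g ς (k7pBox W.toK7aLn χ qd g ς p) 0 0)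
      (ς * qd, ((k7pBox W.toK7aLn χ qd g ς p).1.1 : ℝ) * kbDy χ * (ς * qd), ((k7pBox W.toK7aLn χ qd g ς p).2.1.2.1 : ℝ) * g * (ς * qd)) (0, 0, ς * (2 * (qd * g)))
      (fun t ht y hy => by
        rw [← k7p_ch_aff]
        exact hnb p hp t ht y hy)
    simp only [← k7p_ch_aff] at h1
    exact h1
  · intro p hp' t ht y hy
    have hp := hSp p hp'
    show |Γ.eF (Γ.ent p) (k7pCh χ qd g ς (k7pBox W.toK7aLn χ qd g ς p) t y)| ≤ K'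
    have h0 : k7pCh χ qd g ς (k7pBox W.toK7aLn χ qd g ς p) t y ∈ k7pNb W h g ρ p := hnb p hp t (h01 t ht) y (h01 y hy)
    have h1 := hΓ.fit p hp
    have h2 := hΓ.lip p hp _ h0 _ (hbase p hp)
    have h3 : dist (k7pPk W h g (W.labQ p) (k7pCh χ qd g ς (k7pBox W.toK7aLn χ qd g ς p) t y)) (k7pPk W h g (W.labQ p) (W.base p)) ≤ ρ := h0
    have h4 := hW.ln.Ev0_sub hp
    have h5 := (hW.ln.bd p.1 h4.1).2.2.2.2 p.2 h4.2
    have h6 : K * dist (k7pPk W h g (W.labQ p) (k7pCh χ qd g ς (k7pBox W.toK7aLn χ qd g ς p) t y)) (k7pPk W h g (W.labQ p) (W.base p)) ≤ K * 1 :=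
      mul_le_mul_of_nonneg_left (h3.trans hΓ.ρ_le) hK0.le
    have h7 : K * a ≤ K * 1 := mul_le_mul_of_nonneg_left ha1 hK0.le
    have h8 : |Γ.eF (Γ.ent p) (k7pCh χ qd g ς (k7pBox W.toK7aLn χ qd g ς p) t y)|
        ≤ |Γ.eF (Γ.ent p) (k7pCh χ qd g ς (k7pBox W.toK7aLn χ qd g ς p) t y) - Γ.eF (Γ.ent p) (W.base p)|
          + |W.X p.1 p.2 - Γ.eF (Γ.ent p) (W.base p)| + |W.X p.1 p.2| := by
      have e : Γ.eF (Γ.ent p) (k7pCh χ qd g ς (k7pBox W.toK7aLn χ qd g ς p) t y)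
          = (Γ.eF (Γ.ent p) (k7pCh χ qd g ς (k7pBox W.toK7aLn χ qd g ς p) t y) - Γ.eF (Γ.ent p) (W.base p))
            - (W.X p.1 p.2 - Γ.eF (Γ.ent p) (W.base p)) + W.X p.1 p.2 := by ring
      calc _ = |(Γ.eF (Γ.ent p) (k7pCh χ qd g ς (k7pBox W.toK7aLn χ qd g ς p) t y) - Γ.eF (Γ.ent p) (W.base p))
            - (W.X p.1 p.2 - Γ.eF (Γ.ent p) (W.base p)) + W.X p.1 p.2| := by rw [← e]
        _ ≤ _ := (abs_add_le _ _).trans (add_le_add (abs_sub _ _) le_rfl)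
    linarith
  · intro p hp' t ht y hy t' ht' y' hy'
    have hp := hSp p hp'
    show |Γ.eF (Γ.ent p) (k7pCh χ qd g ς (k7pBox W.toK7aLn χ qd g ς p) t y) - Γ.eF (Γ.ent p) (k7pCh χ qd g ς (k7pBox W.toK7aLn χ qd g ς p) t' y')| ≤ K' * (|t - t'| + |y - y'|)
    have h2 := hΓ.lip p hp _ (hnb p hp t (h01 t ht) y (h01 y hy)) _ (hnb p hp t' (h01 t' ht') y' (h01 y' hy'))
    have h3 := mul_le_mul_of_nonneg_left (hl p hp t y t' y') hK0.le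
    have h4 : 0 ≤ |t - t'| + |y - y'| := by positivity
    have h5 : K * (B * ς * (|t - t'| + |y - y'|)) ≤ 1 * (|t - t'| + |y - y'|) := by
      rw [← mul_assoc]
      exact mul_le_mul_of_nonneg_right hKBς h4
    have h6 : 1 * (|t - t'| + |y - y'|) ≤ K' * (|t - t'| + |y - y'|) := mul_le_mul_of_nonneg_right hK'1 h4
    linarith

/-! ## D6-D7. The budget of the true labels -/

/-- the major motion of a line of the group `(mv, zz)` stays within `4 χ` of the representative motion -/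
theorem k7p_grp_Z (W : K7aLn) {χ : ℝ} (hχ : 0 < χ) {l : W.L} {mv zz : ℤ} (hv : kbBin χ (W.v l) = mv) (hz : kbBin χ (W.Z0 l) = zz) {τ : ℝ} (h0 : 0 ≤ τ) (h1 : τ ≤ 1) :
    |W.Z l τ - ((zz : ℝ) * kbDy χ + (mv : ℝ) * kbDy χ * τ)| ≤ 4 * χ := by
  obtain ⟨hD0, -, hD2⟩ := k7wc_dy hχ
  have a1 := (k7wc_bin_iff χ _ _).1 hv
  have a2 := (k7wc_bin_iff χ _ _).1 hz
  unfold k7aBinI at a1 a2
  obtain ⟨b1, b2⟩ := a1
  obtain ⟨c1, c2⟩ := a2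
  unfold K7aLn.Z
  have e : W.Z0 l + W.v l * τ - ((zz : ℝ) * kbDy χ + (mv : ℝ) * kbDy χ * τ) = (W.Z0 l - zz * kbDy χ) + (W.v l - mv * kbDy χ) * τ := by ring
  rw [e, abs_le]
  have p1 : 0 ≤ (W.v l - mv * kbDy χ) * τ := mul_nonneg (by linarith) h0
  have p2 : (W.v l - mv * kbDy χ) * τ ≤ kbDy χ * 1 := mul_le_mul (by linarith) h1 h0 hD0.le
  constructor <;> linarith

/-- **L-252-S7p-D6** (07 l.447-451).  Subblocks and position slices of one true label in one group.   `qd = 2^{-n}`, `m = qd g`.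
PROOF.  `p = (l,t) ∈ Ev0`, `labQ p = Q`, bins `(mv, zz)`, `kk = ⌊t/qd⌋`.   `k7p_t_lt`: `kk ∈ Ico (iv 2^(n-lev)) ((iv+1) 2^(n-lev))` (`2^(n-lev)` values, `2^(n-lev) qd = q`), `kk qd ∈ blk Q ⊆ [0,1]`.
`hW.box` at `kk qd`: `|Y(kk qd) - YQ(kk qd, Z(kk qd))| ≤ K h g`; `|Z(kk qd) - (zz χ' + mv χ' kk qd)| ≤ 4χ`, `|r2| ≤ K`: `|Y(kk qd) - YQ Q (kk qd) (zz χ' + mv χ' kk qd)| ≤ K h g + 4Kχ ≤ (K+1) h g`:
`⌊Y(kk qd)/m⌋` lies in an `Icc` with `≤ 2(K+1) h g/m + 2 ≤ (4K+2) h g/m` elements (`k7wc_bin_window`, `k7wc_card_Icc`; `m ≤ q g ≤ K h g`).   `T := (Ico ..).biUnion fun kk => (Icc ..).image (kk, ·)`. -/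
theorem k7p_loc_kyb : ∃ (C : ℝ) (c : ℕ), 1 ≤ C ∧ ∀ (W : K7aW) (N K d S a h g χ : ℝ) (Ms Ws : Finset ℝ) (n : ℕ), W.Ok N K d S a h g Ms Ws → 1 ≤ K → 0 < h → 0 < g → 0 < χ → 4 * K * χ ≤ h * g → W.lev ≤ n →
    ∀ Q ∈ W.Qa, ∀ mv zz : ℤ, ∃ T : Finset (ℤ × ℤ), (T.card : ℝ) * ((1 / 2 : ℝ) ^ n * ((1 / 2 : ℝ) ^ n * g)) ≤ C * K ^ c * (W.q * (h * g)) ∧
      ∀ p ∈ W.Ev0, W.labQ p = Q → kbBin χ (W.v p.1) = mv → kbBin χ (W.Z0 p.1) = zz →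
        ((W.sdom ((1 / 2 : ℝ) ^ n) g ((1 / 2 : ℝ) ^ n * g) p).1, (W.sdom ((1 / 2 : ℝ) ^ n) g ((1 / 2 : ℝ) ^ n * g) p).2.2) ∈ T := by
  classical
  refine ⟨6, 1, by norm_num, fun W N K d S a h g χ Ms Ws n hW hK hh hg hχ hsm hn Q hQ mv zz => ?_⟩
  obtain ⟨qd, hqd⟩ : ∃ qd : ℝ, qd = (1 / 2 : ℝ) ^ n := ⟨_, rfl⟩
  rw [← hqd]
  have hqd0 : 0 < qd := by rw [hqd]; positivity
  have hm0 : 0 < qd * g := mul_pos hqd0 hg
  have hq0 : 0 < W.q := by unfold K7aW.q; positivity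
  have hqq : (2 : ℝ) ^ (n - W.lev) * qd = W.q := by
    rw [hqd]
    unfold K7aW.q
    obtain ⟨k, rfl⟩ := Nat.exists_eq_add_of_le hn
    have : W.lev + k - W.lev = k := by omega
    rw [this, pow_add, mul_comm ((1 / 2 : ℝ) ^ W.lev), ← mul_assoc, ← mul_pow]
    norm_num
  have hqdq : qd ≤ W.q := by
    rw [← hqq]
    exact le_mul_of_one_le_left hqd0.le (one_le_pow₀ (by norm_num))
  obtain ⟨cen, hcen⟩ : ∃ cen : ℤ → ℝ, cen = fun kk : ℤ => W.YQ Q ((kk : ℝ) * qd) ((zz : ℝ) * kbDy χ + (mv : ℝ) * kbDy χ * ((kk : ℝ) * qd)) := ⟨_, rfl⟩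
  obtain ⟨M, hM⟩ : ∃ M : ℝ, M = (K + 1) * (h * g) := ⟨_, rfl⟩
  have hM0 : 0 ≤ M := by rw [hM]; positivity
  refine ⟨(Finset.Ico ((W.iv Q : ℤ) * 2 ^ (n - W.lev)) (((W.iv Q : ℤ) + 1) * 2 ^ (n - W.lev))).biUnion fun kk =>
    (Finset.Icc ⌊(cen kk - M) / (qd * g)⌋ ⌊(cen kk + M) / (qd * g)⌋).image fun yb => (kk, yb), ?_, ?_⟩
  · have h1 : ∀ kk ∈ Finset.Ico ((W.iv Q : ℤ) * 2 ^ (n - W.lev)) (((W.iv Q : ℤ) + 1) * 2 ^ (n - W.lev)),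
        ((((Finset.Icc ⌊(cen kk - M) / (qd * g)⌋ ⌊(cen kk + M) / (qd * g)⌋).image fun yb => (kk, yb)).card : ℕ) : ℝ) ≤ 2 * M / (qd * g) + 2 := by
      intro kk _
      have h2 := k7wc_card_Icc (a := (cen kk - M) / (qd * g)) (b := (cen kk + M) / (qd * g)) (div_le_div_of_nonneg_right (by linarith) hm0.le)
      have h3 : ((((Finset.Icc ⌊(cen kk - M) / (qd * g)⌋ ⌊(cen kk + M) / (qd * g)⌋).image fun yb => (kk, yb)).card : ℕ) : ℝ)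
          ≤ ((Finset.Icc ⌊(cen kk - M) / (qd * g)⌋ ⌊(cen kk + M) / (qd * g)⌋).card : ℝ) := by exact_mod_cast Finset.card_image_le
      refine h3.trans (h2.trans (le_of_eq ?_))
      ring
    have hcI : ((Finset.Ico ((W.iv Q : ℤ) * 2 ^ (n - W.lev)) (((W.iv Q : ℤ) + 1) * 2 ^ (n - W.lev))).card : ℝ) = 2 ^ (n - W.lev) := by
      rw [Int.card_Ico]
      have : ((W.iv Q : ℤ) + 1) * 2 ^ (n - W.lev) - (W.iv Q : ℤ) * 2 ^ (n - W.lev) = ((2 ^ (n - W.lev) : ℕ) : ℤ) := by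
        push_cast
        ring
      rw [this, Int.toNat_natCast]
      push_cast
      rfl
    have hcard : ((((Finset.Ico ((W.iv Q : ℤ) * 2 ^ (n - W.lev)) (((W.iv Q : ℤ) + 1) * 2 ^ (n - W.lev))).biUnion fun kk =>
        (Finset.Icc ⌊(cen kk - M) / (qd * g)⌋ ⌊(cen kk + M) / (qd * g)⌋).image fun yb => (kk, yb)).card : ℕ) : ℝ) ≤ 2 ^ (n - W.lev) * (2 * M / (qd * g) + 2) := by
      calc _ ≤ ((∑ kk ∈ Finset.Ico ((W.iv Q : ℤ) * 2 ^ (n - W.lev)) (((W.iv Q : ℤ) + 1) * 2 ^ (n - W.lev)),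
            ((Finset.Icc ⌊(cen kk - M) / (qd * g)⌋ ⌊(cen kk + M) / (qd * g)⌋).image fun yb => (kk, yb)).card : ℕ) : ℝ) := by
            exact_mod_cast Finset.card_biUnion_le
        _ = ∑ kk ∈ Finset.Ico ((W.iv Q : ℤ) * 2 ^ (n - W.lev)) (((W.iv Q : ℤ) + 1) * 2 ^ (n - W.lev)),
            ((((Finset.Icc ⌊(cen kk - M) / (qd * g)⌋ ⌊(cen kk + M) / (qd * g)⌋).image fun yb => (kk, yb)).card : ℕ) : ℝ) := by push_cast; rfl
        _ ≤ ∑ _kk ∈ Finset.Ico ((W.iv Q : ℤ) * 2 ^ (n - W.lev)) (((W.iv Q : ℤ) + 1) * 2 ^ (n - W.lev)), (2 * M / (qd * g) + 2) := Finset.sum_le_sum h1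
        _ = _ := by rw [Finset.sum_const, nsmul_eq_mul, hcI]
    calc _ ≤ 2 ^ (n - W.lev) * (2 * M / (qd * g) + 2) * (qd * (qd * g)) := by gcongr
      _ = (2 ^ (n - W.lev) * qd) * (2 * M + 2 * (qd * g)) := by
          field_simp
      _ = W.q * (2 * M + 2 * (qd * g)) := by rw [hqq]
      _ ≤ W.q * (2 * M + 2 * (K * h * g)) := by
          have := hqdq.trans hW.q_hi
          gcongr
      _ = (4 * K + 2) * (W.q * (h * g)) := by rw [hM]; ring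
      _ ≤ 6 * K ^ 1 * (W.q * (h * g)) := by
          have : 0 ≤ W.q * (h * g) := by positivity
          rw [pow_one]
          gcongr
          linarith
  · intro p hp hQp hv hz
    obtain ⟨t1, -, t3, t4⟩ := k7p_t_lt W hW hn hp
    rw [← hqd, hQp] at t3 t4
    obtain ⟨hQa, hinc⟩ := hW.lab p hp
    rw [hQp] at hinc
    have hl : p.1 ∈ W.asg Q := hinc.1
    obtain ⟨kk, hkk⟩ : ∃ kk : ℤ, kk = ⌊p.2 / qd⌋ := ⟨_, rfl⟩
    rw [← hkk] at t3 t4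
    have hτ0 : 0 ≤ (kk : ℝ) * qd := by
      have := t3.1
      have h2 : 0 ≤ (W.iv Q : ℝ) * W.q := by positivity
      linarith
    have hτ1 : (kk : ℝ) * qd ≤ 1 := by
      have h2 : (kk : ℝ) ≤ p.2 / qd := hkk ▸ Int.floor_le _
      rw [le_div_iff₀ hqd0] at h2
      linarith
    have b1 := (hW.box Q hQ p.1 hl _ t3).2
    have b2 := k7p_grp_Z W.toK7aLn hχ hv hz hτ0 hτ1
    have b3 := (hW.row_bd Q hQ).2.2.2
    have b4 : |W.Y p.1 ((kk : ℝ) * qd) - cen kk| ≤ M := by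
      have e : W.Y p.1 ((kk : ℝ) * qd) - cen kk = (W.Y p.1 ((kk : ℝ) * qd) - W.YQ Q ((kk : ℝ) * qd) (W.Z p.1 ((kk : ℝ) * qd)))
          + W.r2 Q * (W.Z p.1 ((kk : ℝ) * qd) - ((zz : ℝ) * kbDy χ + (mv : ℝ) * kbDy χ * ((kk : ℝ) * qd))) := by
        rw [hcen]
        unfold K7aW.YQ
        ring
      rw [e]
      refine (abs_add_le _ _).trans ?_
      rw [abs_mul]
      have := mul_le_mul b3 b2 (abs_nonneg _) (by linarith)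
      rw [hM]
      nlinarith
    have b5 := k7wc_bin_window hm0 b4
    refine Finset.mem_biUnion.2 ⟨kk, t4, Finset.mem_image.2 ⟨_, b5, ?_⟩⟩
    unfold K7aLn.sdom
    simp only [← hkk]

/-- **L-252-S7p-D6**.  The palette weights of finitely many dyadic bins (`k7aBinI χ m` are measurable (`k7wc_meas_binI`) and pairwise disjoint (`k7wc_bin_iff`: a point has one bin); `measure_biUnion_finset`, `hW.pal_le`). -/
theorem k7p_pal_fin (W : K7aLn) {N K d S : ℝ} {Ms Ws : Finset ℝ} (hW : W.Ok N K d S Ms Ws) (χ : ℝ) (MV : Finset ℤ) : ∑ mv ∈ MV, W.palχ χ mv ≤ 1 := by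
  unfold K7aLn.palχ
  rw [← measure_biUnion_finset (fun m _ m' _ hne => ?_) (fun m _ => k7wc_meas_binI χ m)]
  · exact (measure_mono (Set.subset_univ _)).trans hW.pal_le
  · refine Set.disjoint_left.2 fun x h1 h2 => hne ?_
    exact ((k7wc_bin_iff χ x m).2 h1).symm.trans ((k7wc_bin_iff χ x m').2 h2)

/-- the number of grid cells of a domain -/
theorem k7p_b1_cells_card (nς : ℕ) : ((Finset.Ico (0 : ℤ) (2 ^ nς) ×ˢ Finset.Ico (0 : ℤ) (2 ^ nς)).card : ℝ) = 4 ^ nς := by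
  rw [Finset.card_product, Int.card_Ico, sub_zero]
  have h1 : ((2 : ℤ) ^ nς).toNat = 2 ^ nς := by
    have : ((2 : ℤ) ^ nς) = ((2 ^ nς : ℕ) : ℤ) := by push_cast; rfl
    rw [this, Int.toNat_natCast]
  rw [h1]
  push_cast
  rw [← mul_pow]
  norm_num

/-- subadditivity of finite sums over a `biUnion` -/
theorem k7p_b1_sum_biUnion {ι κ : Type*} [DecidableEq κ] (s : Finset ι) (t : ι → Finset κ) (f : κ → ℝ≥0∞) :
    ∑ x ∈ s.biUnion t, f x ≤ ∑ i ∈ s, ∑ x ∈ t i, f x := by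
  classical
  induction s using Finset.induction_on with
  | empty => simp
  | insert i s hi ih =>
    rw [Finset.biUnion_insert, Finset.sum_insert hi]
    calc ∑ x ∈ t i ∪ s.biUnion t, f x ≤ ∑ x ∈ t i ∪ s.biUnion t, f x + ∑ x ∈ t i ∩ s.biUnion t, f x := le_self_add
      _ = ∑ x ∈ t i, f x + ∑ x ∈ s.biUnion t, f x := Finset.sum_union_inter
      _ ≤ ∑ x ∈ t i, f x + ∑ i ∈ s, ∑ x ∈ t i, f x := add_le_add le_rfl ih

/-- a sum of `n` terms `≤ ofReal x * π` with `n x ≤ y` -/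
theorem k7p_b1_sum_le {ι : Type*} (s : Finset ι) (f : ι → ℝ≥0∞) {x y : ℝ} (π : ℝ≥0∞) (hx : 0 ≤ x) (hf : ∀ i ∈ s, f i ≤ ENNReal.ofReal x * π)
    (h : (s.card : ℝ) * x ≤ y) : ∑ i ∈ s, f i ≤ ENNReal.ofReal y * π := by
  calc ∑ i ∈ s, f i ≤ s.card • (ENNReal.ofReal x * π) := Finset.sum_le_card_nsmul _ _ _ hf
    _ = ENNReal.ofReal ((s.card : ℝ) * x) * π := by
        rw [nsmul_eq_mul, ← mul_assoc, ENNReal.ofReal_mul (Nat.cast_nonneg _), ENNReal.ofReal_natCast]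
    _ ≤ _ := mul_le_mul' (ENNReal.ofReal_le_ofReal h) le_rfl

/-- the entries of the labels of the depth -/
theorem k7p_b1_ent_card (W : K7aW) (Γ : K7pGr W) {Sh : Set (ℝ → ℝ → ℝ)} {K a h g ρ : ℝ} (hΓ : Γ.Ok Sh K a h g ρ) [DecidablePred fun e => Γ.eQ e ∈ W.Qa] :
    ((Finset.univ.filter (fun e => Γ.eQ e ∈ W.Qa)).card : ℝ) ≤ (W.Qa.ncard : ℝ) * K := by
  classical
  obtain ⟨F, hF⟩ : ∃ F : Finset W.Q, F = (Set.toFinite W.Qa).toFinset := ⟨_, rfl⟩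
  have hmem : ∀ Q, Q ∈ F ↔ Q ∈ W.Qa := fun Q => by rw [hF]; exact Set.Finite.mem_toFinset _
  have hcard : W.Qa.ncard = F.card := by rw [hF]; exact Set.ncard_eq_toFinset_card _ _
  have hsub : Finset.univ.filter (fun e => Γ.eQ e ∈ W.Qa) ⊆ F.biUnion fun Q => Finset.univ.filter (fun e => Γ.eQ e = Q) := by
    intro e he
    exact Finset.mem_biUnion.2 ⟨Γ.eQ e, (hmem _).2 (Finset.mem_filter.1 he).2, Finset.mem_filter.2 ⟨Finset.mem_univ _, rfl⟩⟩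
  have h1 : ∀ Q ∈ F, ((Finset.univ.filter (fun e => Γ.eQ e = Q)).card : ℝ) ≤ K := by
    intro Q _
    have h1 := hΓ.card Q
    have h2 : Set.ncard {e | Γ.eQ e = Q} = (Finset.univ.filter (fun e => Γ.eQ e = Q)).card := by
      rw [← Set.ncard_coe_finset]
      congr 1
      ext e
      simp
    rwa [h2] at h1
  calc ((Finset.univ.filter (fun e => Γ.eQ e ∈ W.Qa)).card : ℝ) ≤ ((F.biUnion fun Q => Finset.univ.filter (fun e => Γ.eQ e = Q)).card : ℝ) := by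
        exact_mod_cast Finset.card_le_card hsub
    _ ≤ ((∑ Q ∈ F, (Finset.univ.filter (fun e => Γ.eQ e = Q)).card : ℕ) : ℝ) := by exact_mod_cast Finset.card_biUnion_le
    _ = ∑ Q ∈ F, ((Finset.univ.filter (fun e => Γ.eQ e = Q)).card : ℝ) := by push_cast; rfl
    _ ≤ ∑ _Q ∈ F, K := Finset.sum_le_sum h1
    _ = _ := by rw [Finset.sum_const, nsmul_eq_mul, hcard]

/-- **L-252-S7p-D7** (07 l.447-452) **the budget of the true labels**.   `qd = 2^{-n}`, `m = qd g`, `ς = 2^{-nς}`.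
PROOF.  `σ := a h/(8K²)`: `K7pSm K a h g χ σ` holds by `hχs`.   `k7p_loc_grp`: for `Q ∈ Qa`, `mv`: `T₁ Q mv ∋ (zz, γ0, sb)`, `card ≤ C₁ K^c₁ h/χ`.   `k7p_loc_kyb`: `T₂ Q mv zz ∋ (kk, yb)`, `card · qd m ≤ C₂ K^c₂ q h g`.   `MV := Icc (-nn) nn`, `nn = ⌈K/χ⌉ + 1` (contains `kbBin χ v` for `|v| ≤ K`).
`Ad := ` the image of `(e, mv, x ∈ T₁ (eQ e) mv, y ∈ T₂ (eQ e) mv x.1, cl ∈ cells) ↦ (((mv, x.1), (y.1, x.2.2, y.2), cl), e)` over the entries `e` with `eQ e ∈ Qa` (iterated `Finset.biUnion`).   Membership: `hΓ.lab`, `hW.lab`, `k7p_cell_mem`; `(k7pGrp ..).2 = (zz, ⌊Y0/g⌋, ⌊Y1/g⌋)`.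
Sum (`Finset.sum_biUnion_le`-type bounds): `≤ ∑_e ∑_{mv ∈ MV} card T₁ · max card T₂ · 4^nς · ofReal (ς² qd m χ a^d) π(mv) ≤ ∑_e C₁C₂ K^(c₁+c₂) q h (h g) a^d ∑_mv π(mv)`; `k7p_pal_fin`; `#{e | eQ e ∈ Qa} ≤ K #Qa` (`hΓ.card`); `k7p_Q_card`. -/
theorem k7p_bud1 : ∃ (C : ℝ) (c : ℕ), 1 ≤ C ∧ ∀ (W : K7aW) (Γ : K7pGr W) (P : K7aLayer W.toK7aLn) (Sh : Set (ℝ → ℝ → ℝ)) (N K d S a h g ρ χ : ℝ) (Ms Ws : Finset ℝ) (n nς : ℕ),
    W.Ok N K d S a h g Ms Ws → Γ.Ok Sh K a h g ρ → 1 ≤ K → 0 < a → a ≤ 1 → 0 < h → h ≤ 1 → 0 < g → g ≤ 1 → 0 < χ → 64 * K ^ 4 * χ ≤ a ^ 2 * h ^ 2 * g → W.lev ≤ n →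
    ∃ Ad : Finset (K7pBx × Γ.Ent), (∀ z ∈ W.Ev0, (k7pBox W.toK7aLn χ ((1 / 2 : ℝ) ^ n) g ((1 / 2 : ℝ) ^ nς) z, Γ.ent z) ∈ Ad) ∧
      ∑ i ∈ Ad, (k7pBase W.toK7aLn P χ ((1 / 2 : ℝ) ^ n) g ((1 / 2 : ℝ) ^ nς)).A i.1 * ENNReal.ofReal (a ^ d) ≤ ENNReal.ofReal (C * K ^ c) := by
  classical
  obtain ⟨C₁, c₁, hC₁, H₁⟩ := k7p_loc_grp
  obtain ⟨C₂, c₂, hC₂, H₂⟩ := k7p_loc_kyb
  refine ⟨C₁ * C₂, c₁ + c₂ + 2, by nlinarith, fun W Γ P Sh N K d S a h g ρ χ Ms Ws n nς hW hΓ hK ha ha1 hh hh1 hg hg1 hχ hsm hn => ?_⟩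
  have hK0 : 0 < K := by linarith
  obtain ⟨qd, hqd⟩ : ∃ qd : ℝ, qd = (1 / 2 : ℝ) ^ n := ⟨_, rfl⟩
  obtain ⟨ς, hς⟩ : ∃ ς : ℝ, ς = (1 / 2 : ℝ) ^ nς := ⟨_, rfl⟩
  have hqd0 : 0 < qd := by rw [hqd]; positivity
  have hς0 : 0 < ς := by rw [hς]; positivity
  have hq0 : 0 < W.q := by unfold K7aW.q; positivity
  have had : 0 < a ^ d := Real.rpow_pos_of_pos ha d
  have hς4 : (4 : ℝ) ^ nς * ς ^ 2 = 1 := by
    rw [hς, ← pow_mul, mul_comm nς 2, pow_mul, ← mul_pow]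
    norm_num
  -- the smallness
  have hSm : K7pSm K a h g χ (a * h / (8 * K ^ 2)) := by
    refine ⟨hK, ha, ha1, hh, hh1, hg, hg1, by positivity, hχ, le_of_eq (by field_simp), ?_⟩
    have e : a * h * g * (a * h / (8 * K ^ 2)) = a ^ 2 * h ^ 2 * g / (8 * K ^ 2) := by ring
    rw [e, le_div_iff₀ (by positivity)]
    calc 8 * K ^ 2 * χ * (8 * K ^ 2) = 64 * K ^ 4 * χ := by ring
      _ ≤ _ := hsm
  have hsm2 : 4 * K * χ ≤ h * g := by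
    have h1 : 4 * K * χ ≤ 64 * K ^ 4 * χ := by
      have : K ≤ K ^ 4 := by
        calc K = K ^ 1 := (pow_one K).symm
          _ ≤ K ^ 4 := pow_le_pow_right₀ hK (by norm_num)
      nlinarith
    have h2 : a ^ 2 * h ^ 2 * g ≤ 1 * h * g := by
      have h3 : a ^ 2 ≤ 1 := pow_le_one₀ ha.le ha1
      have h4 : h ^ 2 ≤ h := by nlinarith
      gcongr
    linarith
  obtain ⟨B₁, hB₁⟩ : ∃ B₁ : ℝ, B₁ = C₁ * K ^ c₁ * (h / χ) := ⟨_, rfl⟩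
  obtain ⟨B₂, hB₂⟩ : ∃ B₂ : ℝ, B₂ = C₂ * K ^ c₂ * (W.q * (h * g)) := ⟨_, rfl⟩
  have hB₁0 : 0 ≤ B₁ := by rw [hB₁]; positivity
  have hB₂0 : 0 ≤ B₂ := by rw [hB₂]; positivity
  have hT1 : ∀ (Q : W.Q) (mv : ℤ), ∃ T : Finset (ℤ × ℤ × ℤ), (T.card : ℝ) ≤ B₁ ∧
      ∀ p ∈ W.Ev0, W.labQ p = Q → kbBin χ (W.v p.1) = mv → (k7pGrp W.toK7aLn χ g p.1).2 ∈ T := by
    intro Q mv
    by_cases hQ : Q ∈ W.Qa
    · exact hB₁ ▸ H₁ W N K d S a h g χ _ Ms Ws hW hSm Q hQ mv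
    · exact ⟨∅, by simpa using hB₁0, fun p hp hQp => absurd (hQp ▸ (hW.lab p hp).1) hQ⟩
  have hT2 : ∀ (Q : W.Q) (mv zz : ℤ), ∃ T : Finset (ℤ × ℤ), (T.card : ℝ) * (qd * (qd * g)) ≤ B₂ ∧
      ∀ p ∈ W.Ev0, W.labQ p = Q → kbBin χ (W.v p.1) = mv → kbBin χ (W.Z0 p.1) = zz →
        ((W.sdom qd g (qd * g) p).1, (W.sdom qd g (qd * g) p).2.2) ∈ T := by
    intro Q mv zz
    by_cases hQ : Q ∈ W.Qa
    · exact hB₂ ▸ hqd ▸ H₂ W N K d S a h g χ Ms Ws n hW hK hh hg hχ hsm2 hn Q hQ mv zz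
    · exact ⟨∅, by simpa using hB₂0, fun p hp hQp => absurd (hQp ▸ (hW.lab p hp).1) hQ⟩
  choose T₁ hT₁c hT₁m using hT1
  choose T₂ hT₂c hT₂m using hT2
  obtain ⟨cells, hcells⟩ : ∃ cells : Finset (ℤ × ℤ), cells = Finset.Ico (0 : ℤ) (2 ^ nς) ×ˢ Finset.Ico (0 : ℤ) (2 ^ nς) := ⟨_, rfl⟩
  have hcc : (cells.card : ℝ) = 4 ^ nς := hcells ▸ k7p_b1_cells_card nς
  obtain ⟨MV, hMV⟩ : ∃ MV : Finset ℤ, MV = Finset.Icc ⌊(0 - K) / kbDy χ⌋ ⌊(0 + K) / kbDy χ⌋ := ⟨_, rfl⟩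
  obtain ⟨E₀, hE₀⟩ : ∃ E₀ : Finset Γ.Ent, E₀ = Finset.univ.filter (fun e => Γ.eQ e ∈ W.Qa) := ⟨_, rfl⟩
  rw [← hqd, ← hς]
  refine ⟨E₀.biUnion fun e => MV.biUnion fun mv => (T₁ (Γ.eQ e) mv).biUnion fun x => (T₂ (Γ.eQ e) mv x.1).biUnion fun y =>
    cells.biUnion fun cl => {(((mv, x.1), (y.1, x.2.2, y.2), cl), e)}, ?_, ?_⟩
  · intro z hz
    have hlab := hΓ.lab z hz
    have hQa := (hW.lab z hz).1
    have hSp : z.1 ∈ W.Sp := (hW.ln.Ev0_sub hz).1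
    have hv : |W.v z.1 - 0| ≤ K := by rw [sub_zero]; exact (hW.ln.bd z.1 hSp).2.1
    refine Finset.mem_biUnion.2 ⟨Γ.ent z, ?_, Finset.mem_biUnion.2 ⟨kbBin χ (W.v z.1), ?_, Finset.mem_biUnion.2 ⟨(k7pGrp W.toK7aLn χ g z.1).2, ?_,
      Finset.mem_biUnion.2 ⟨((W.sdom qd g (qd * g) z).1, (W.sdom qd g (qd * g) z).2.2), ?_,
        Finset.mem_biUnion.2 ⟨k7pCell ς (k7pNu W.toK7aLn qd g z), ?_, ?_⟩⟩⟩⟩⟩
    · rw [hE₀]
      exact Finset.mem_filter.2 ⟨Finset.mem_univ _, hlab ▸ hQa⟩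
    · rw [hMV]
      exact k7wc_bin_window (k7wc_dy_pos χ) hv
    · exact hT₁m _ _ z hz hlab.symm rfl
    · exact hT₂m _ _ _ z hz hlab.symm rfl rfl
    · rw [hcells, hς]
      exact k7p_cell_mem W.toK7aLn hqd0 hg nς z
    · exact Finset.mem_singleton.2 rfl
  · -- the sum
    obtain ⟨f, hf⟩ : ∃ f : K7pBx × Γ.Ent → ℝ≥0∞, f = fun i => (k7pBase W.toK7aLn P χ qd g ς).A i.1 * ENNReal.ofReal (a ^ d) := ⟨_, rfl⟩
    have hfv : ∀ (mv zz : ℤ) (D : ℤ × ℤ × ℤ) (cl : ℤ × ℤ) (e : Γ.Ent), f (((mv, zz), D, cl), e) = ENNReal.ofReal (ς ^ 2 * qd * (qd * g) * χ * a ^ d) * W.palχ χ mv := by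
      intro mv zz D cl e
      rw [hf]
      show ENNReal.ofReal (ς ^ 2 * qd * (qd * g) * χ) * W.palχ χ mv * ENNReal.ofReal (a ^ d) = _
      rw [ENNReal.ofReal_mul (by positivity) (q := a ^ d)]
      ring
    have s5 : ∀ (e : Γ.Ent) (mv : ℤ) (x : ℤ × ℤ × ℤ) (y : ℤ × ℤ), ∑ i ∈ cells.biUnion fun cl => {(((mv, x.1), (y.1, x.2.2, y.2), cl), e)}, f i
        ≤ ENNReal.ofReal (qd * (qd * g) * (χ * a ^ d)) * W.palχ χ mv := by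
      intro e mv x y
      refine (k7p_b1_sum_biUnion _ _ _).trans (k7p_b1_sum_le _ _ _ (x := ς ^ 2 * qd * (qd * g) * χ * a ^ d) (by positivity) (fun cl _ => ?_) (le_of_eq ?_))
      · rw [Finset.sum_singleton, hfv]
      · rw [hcc]
        calc (4 : ℝ) ^ nς * (ς ^ 2 * qd * (qd * g) * χ * a ^ d) = (4 ^ nς * ς ^ 2) * (qd * (qd * g) * (χ * a ^ d)) := by ring
          _ = _ := by rw [hς4, one_mul]
    have s4 : ∀ (e : Γ.Ent) (mv : ℤ) (x : ℤ × ℤ × ℤ), ∑ i ∈ (T₂ (Γ.eQ e) mv x.1).biUnion fun y => cells.biUnion fun cl => {(((mv, x.1), (y.1, x.2.2, y.2), cl), e)}, f i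
        ≤ ENNReal.ofReal (B₂ * (χ * a ^ d)) * W.palχ χ mv := by
      intro e mv x
      refine (k7p_b1_sum_biUnion _ _ _).trans (k7p_b1_sum_le _ _ _ (by positivity) (fun y _ => s5 e mv x y) ?_)
      rw [← mul_assoc]
      exact mul_le_mul_of_nonneg_right (hT₂c _ _ _) (by positivity)
    have s3 : ∀ (e : Γ.Ent) (mv : ℤ), ∑ i ∈ (T₁ (Γ.eQ e) mv).biUnion fun x => (T₂ (Γ.eQ e) mv x.1).biUnion fun y =>
        cells.biUnion fun cl => {(((mv, x.1), (y.1, x.2.2, y.2), cl), e)}, f i ≤ ENNReal.ofReal (B₁ * (B₂ * (χ * a ^ d))) * W.palχ χ mv := by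
      intro e mv
      refine (k7p_b1_sum_biUnion _ _ _).trans (k7p_b1_sum_le _ _ _ (by positivity) (fun x _ => s4 e mv x) ?_)
      exact mul_le_mul_of_nonneg_right (hT₁c _ _) (by positivity)
    have s2 : ∀ e : Γ.Ent, ∑ i ∈ MV.biUnion fun mv => (T₁ (Γ.eQ e) mv).biUnion fun x => (T₂ (Γ.eQ e) mv x.1).biUnion fun y =>
        cells.biUnion fun cl => {(((mv, x.1), (y.1, x.2.2, y.2), cl), e)}, f i ≤ ENNReal.ofReal (B₁ * (B₂ * (χ * a ^ d))) * 1 := by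
      intro e
      refine (k7p_b1_sum_biUnion _ _ _).trans ((Finset.sum_le_sum fun mv _ => s3 e mv).trans ?_)
      rw [← Finset.mul_sum]
      exact mul_le_mul' le_rfl (k7p_pal_fin W.toK7aLn hW.ln χ MV)
    have s1 := (k7p_b1_sum_biUnion E₀ (fun e => MV.biUnion fun mv => (T₁ (Γ.eQ e) mv).biUnion fun x => (T₂ (Γ.eQ e) mv x.1).biUnion fun y =>
        cells.biUnion fun cl => {(((mv, x.1), (y.1, x.2.2, y.2), cl), e)}) f).trans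
      (k7p_b1_sum_le E₀ _ 1 (y := C₁ * C₂ * K ^ (c₁ + c₂ + 2)) (by positivity) (fun e _ => s2 e) ?_)
    · rw [mul_one, hf] at s1
      exact s1
    · have k1 : (E₀.card : ℝ) ≤ (W.Qa.ncard : ℝ) * K := hE₀ ▸ k7p_b1_ent_card W Γ hΓ
      have k2 := k7p_Q_card W hW hK ha hh hg
      have e1 : B₁ * (B₂ * (χ * a ^ d)) = C₁ * C₂ * K ^ (c₁ + c₂) * (W.q * (a ^ d * h * (h * g))) := by
        rw [hB₁, hB₂, pow_add]
        field_simp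
      rw [e1]
      calc (E₀.card : ℝ) * (C₁ * C₂ * K ^ (c₁ + c₂) * (W.q * (a ^ d * h * (h * g))))
          ≤ ((W.Qa.ncard : ℝ) * K) * (C₁ * C₂ * K ^ (c₁ + c₂) * (W.q * (a ^ d * h * (h * g)))) := by gcongr
        _ = (C₁ * C₂ * K ^ (c₁ + c₂) * K) * ((W.Qa.ncard : ℝ) * (W.q * (a ^ d * h * (h * g)))) := by ring
        _ ≤ (C₁ * C₂ * K ^ (c₁ + c₂) * K) * K := by gcongr
        _ = _ := by ring

/-! ## D8. From the lists of indices to the lists of labels -/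

/-- the number of grid cells of a domain -/
theorem k7p_cells_card (nς : ℕ) : ((Finset.Ico (0 : ℤ) (2 ^ nς) ×ˢ Finset.Ico (0 : ℤ) (2 ^ nς)).card : ℝ) = 4 ^ nς := by
  rw [Finset.card_product, Int.card_Ico, sub_zero]
  have h1 : ((2 : ℤ) ^ nς).toNat = 2 ^ nς := by
    have : ((2 : ℤ) ^ nς) = ((2 ^ nς : ℕ) : ℤ) := by push_cast; rfl
    rw [this, Int.toNat_natCast]
  rw [h1]
  push_cast
  rw [← mul_pow]
  norm_num

/-- **L-252-S7p-D8** (07 l.541-549).   `cells := Ico 0 2^nς ×ˢ Ico 0 2^nς` (`4^nς` cells, `k7p_cell_mem`).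
`fwd` `(Q, mv, z, D)`: `S := ` the `φ` with `(κ, some φ) ∈ Sf₁₂ (((mv,z), D, cl), e)` for some `cl ∈ cells` and some entry `e` with `eQ e = Q` (`≤ K` entries: `hΓ.card`, `Set.ncard_eq_toFinset_card'`): `Finset.biUnion` + `Finset.filterMap`/`image` of `·.2` (drop `none`);  an incidence `p` as in `fwd` has
`P.lab p.1 = some φ ≠ none`, `box p = ((mv,z), D, cell p)`, `eQ (ent p) = Q` (`hΓ.lab`).      `bwd` `(φ, D)`: `S := ⋃_{cl} (Sf₂₁ (((vi φ, zi φ), D, cl), some φ)).image (eQ ∘ snd)` (`hP.grp`; `labQ p = eQ (ent p)`); `4^nς B ≤ K 4^nς B`. -/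
theorem k7p_lists_of (W : K7aW) (Γ : K7pGr W) (P : K7aLayer W.toK7aLn) {Sh : Set (ℝ → ℝ → ℝ)} {K a h g ρ χ qd β d B : ℝ} (hΓ : Γ.Ok Sh K a h g ρ) (hP : P.Ok K χ a β d) (hK : 1 ≤ K) (hq : 0 < qd) (hg : 0 < g)
    (nς : ℕ) (hB : 0 ≤ B) (Zx : Set (W.L × ℝ))
    (h12 : ∀ i : K7pBx × Γ.Ent, ∃ Sf : Finset (K7pBx × Option P.Ph), (Sf.card : ℝ) ≤ B ∧ ∀ ω ∈ (W.Ev0 ∩ {z | P.lab z.1 ≠ none}) \ Zx,
      (k7pBox W.toK7aLn χ qd g ((1 / 2 : ℝ) ^ nς) ω, Γ.ent ω) = i → (k7pBox W.toK7aLn χ qd g ((1 / 2 : ℝ) ^ nς) ω, P.lab ω.1) ∈ Sf)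
    (h21 : ∀ j : K7pBx × Option P.Ph, ∃ Sf : Finset (K7pBx × Γ.Ent), (Sf.card : ℝ) ≤ B ∧ ∀ ω ∈ (W.Ev0 ∩ {z | P.lab z.1 ≠ none}) \ Zx,
      (k7pBox W.toK7aLn χ qd g ((1 / 2 : ℝ) ^ nς) ω, P.lab ω.1) = j → (k7pBox W.toK7aLn χ qd g ((1 / 2 : ℝ) ^ nς) ω, Γ.ent ω) ∈ Sf) :
    K7aLists W P (W.Ev0 \ Zx) (K * 4 ^ nς * B) χ qd g (qd * g) := by
  classical
  choose S12 hS12c hS12m using h12
  choose S21 hS21c hS21m using h21
  obtain ⟨cells, hcells⟩ : ∃ cells : Finset (ℤ × ℤ), cells = Finset.Ico (0 : ℤ) (2 ^ nς) ×ˢ Finset.Ico (0 : ℤ) (2 ^ nς) := ⟨_, rfl⟩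
  have hcc : (cells.card : ℝ) = 4 ^ nς := hcells ▸ k7p_cells_card nς
  have hcm : ∀ z : W.L × ℝ, k7pCell ((1 / 2 : ℝ) ^ nς) (k7pNu W.toK7aLn qd g z) ∈ cells := fun z => hcells ▸ k7p_cell_mem W.toK7aLn hq hg nς z
  constructor
  · intro Q mv z D
    obtain ⟨EQ, hEQ⟩ : ∃ EQ : Finset Γ.Ent, EQ = Finset.univ.filter (fun e => Γ.eQ e = Q) := ⟨_, rfl⟩
    have hEQc : (EQ.card : ℝ) ≤ K := by
      have h1 := hΓ.card Q
      have h2 : Set.ncard {e | Γ.eQ e = Q} = EQ.card := by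
        rw [hEQ, ← Set.ncard_coe_finset]
        congr 1
        ext e
        simp
      rwa [h2] at h1
    refine ⟨(cells ×ˢ EQ).biUnion fun x => (S12 (((mv, z), D, x.1), x.2)).biUnion fun y => y.2.toFinset, ?_, ?_⟩
    · have h1 : ∀ x ∈ cells ×ˢ EQ, (((S12 (((mv, z), D, x.1), x.2)).biUnion fun y => y.2.toFinset).card : ℝ) ≤ B := by
        intro x _
        refine le_trans ?_ (hS12c (((mv, z), D, x.1), x.2))
        have := Finset.card_biUnion_le_card_mul (S12 (((mv, z), D, x.1), x.2)) (fun y => y.2.toFinset) 1 (fun y _ => by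
          cases y.2 <;> simp)
        rw [mul_one] at this
        exact_mod_cast this
      calc ((((cells ×ˢ EQ).biUnion fun x => (S12 (((mv, z), D, x.1), x.2)).biUnion fun y => y.2.toFinset).card : ℕ) : ℝ)
          ≤ ((∑ x ∈ cells ×ˢ EQ, ((S12 (((mv, z), D, x.1), x.2)).biUnion fun y => y.2.toFinset).card : ℕ) : ℝ) := by
            exact_mod_cast Finset.card_biUnion_le
        _ = ∑ x ∈ cells ×ˢ EQ, (((S12 (((mv, z), D, x.1), x.2)).biUnion fun y => y.2.toFinset).card : ℝ) := by push_cast; rfl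
        _ ≤ ∑ _x ∈ cells ×ˢ EQ, B := Finset.sum_le_sum h1
        _ = (cells.card : ℝ) * (EQ.card : ℝ) * B := by rw [Finset.sum_const, nsmul_eq_mul, Finset.card_product]; push_cast; rfl
        _ ≤ 4 ^ nς * K * B := by rw [hcc]; gcongr
        _ = _ := by ring
    · intro p hp hQ hmv hz hD φ hφ
      have hp' : p ∈ (W.Ev0 ∩ {z | P.lab z.1 ≠ none}) \ Zx := ⟨⟨hp.1, by simp [hφ]⟩, hp.2⟩
      have hbox : k7pBox W.toK7aLn χ qd g ((1 / 2 : ℝ) ^ nς) p = ((mv, z), D, k7pCell ((1 / 2 : ℝ) ^ nς) (k7pNu W.toK7aLn qd g p)) := by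
        unfold k7pBox
        rw [hmv, hz, hD]
      have h1 := hS12m _ p hp' rfl
      rw [hφ, hbox] at h1
      refine Finset.mem_biUnion.2 ⟨(k7pCell ((1 / 2 : ℝ) ^ nς) (k7pNu W.toK7aLn qd g p), Γ.ent p), Finset.mem_product.2 ⟨hcm p, ?_⟩,
        Finset.mem_biUnion.2 ⟨_, h1, by simp⟩⟩
      rw [hEQ]
      exact Finset.mem_filter.2 ⟨Finset.mem_univ _, (hΓ.lab p hp.1).trans hQ⟩
  · intro φ D
    refine ⟨cells.biUnion fun cl => (S21 (((P.vi φ, P.zi φ), D, cl), some φ)).image fun y => Γ.eQ y.2, ?_, ?_⟩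
    · have h1 : ∀ cl ∈ cells, ((((S21 (((P.vi φ, P.zi φ), D, cl), some φ)).image fun y => Γ.eQ y.2).card : ℕ) : ℝ) ≤ B := by
        intro cl _
        refine le_trans ?_ (hS21c (((P.vi φ, P.zi φ), D, cl), some φ))
        exact_mod_cast Finset.card_image_le
      calc (((cells.biUnion fun cl => (S21 (((P.vi φ, P.zi φ), D, cl), some φ)).image fun y => Γ.eQ y.2).card : ℕ) : ℝ)
          ≤ ((∑ cl ∈ cells, ((S21 (((P.vi φ, P.zi φ), D, cl), some φ)).image fun y => Γ.eQ y.2).card : ℕ) : ℝ) := by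
            exact_mod_cast Finset.card_biUnion_le
        _ = ∑ cl ∈ cells, ((((S21 (((P.vi φ, P.zi φ), D, cl), some φ)).image fun y => Γ.eQ y.2).card : ℕ) : ℝ) := by push_cast; rfl
        _ ≤ ∑ _cl ∈ cells, B := Finset.sum_le_sum h1
        _ = 1 * 4 ^ nς * B := by rw [Finset.sum_const, nsmul_eq_mul, hcc, one_mul]
        _ ≤ _ := by gcongr
    · intro p hp hφ hD
      have hp' : p ∈ (W.Ev0 ∩ {z | P.lab z.1 ≠ none}) \ Zx := ⟨⟨hp.1, by simp [hφ]⟩, hp.2⟩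
      obtain ⟨-, g1, g2⟩ := hP.grp p.1 φ hφ
      have hbox : k7pBox W.toK7aLn χ qd g ((1 / 2 : ℝ) ^ nς) p = ((P.vi φ, P.zi φ), D, k7pCell ((1 / 2 : ℝ) ^ nς) (k7pNu W.toK7aLn qd g p)) := by
        unfold k7pBox
        rw [g1, g2, hD]
      have h1 := hS21m _ p hp' rfl
      rw [hφ, hbox] at h1
      refine Finset.mem_biUnion.2 ⟨_, hcm p, Finset.mem_image.2 ⟨_, h1, ?_⟩⟩
      exact hΓ.lab p hp.1

/-! ## D9. Lemma 7.2 at one scale -/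

/-- comparison of two monomial constants -/
theorem k7p_mono_const {C C' K : ℝ} {c c' : ℕ} (hC : 0 ≤ C) (hCC : C ≤ C') (hc : c ≤ c') (hK : 1 ≤ K) : C * K ^ c ≤ C' * K ^ c' := by
  have h1 : K ^ c ≤ K ^ c' := pow_le_pow_right₀ hK hc
  have h0 : (0 : ℝ) ≤ K ^ c := by positivity
  exact mul_le_mul hCC h1 h0 (hC.trans hCC)

/-- the restriction to a smaller set, as a restriction of the restriction -/
theorem k7p_restr_inter {α : Type*} [MeasurableSpace α] (μ : Measure α) {E L Z : Set α} (hZ : MeasurableSet Z) (hS : MeasurableSet (E ∩ L)) :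
    (μ.restrict E) (Z ∩ (E ∩ L)) = (μ.restrict (E ∩ L)) Z := by
  rw [Measure.restrict_apply (hZ.inter hS), Measure.restrict_apply hZ]
  congr 1
  rw [Set.inter_assoc]
  congr 1
  exact Set.inter_eq_left.mpr (fun z hz => hz.1)

/-- **L-252-S7p-D9** **Lemma 7.2 at one scale.**   `qd = 2^{-n}`, `ς = 2^{-nς}`, `ϑ = 2^{-k}`.
PROOF.  `(ε, C₀')` from `k7p_core Sh k7pQuad hM m0 C0 hC0 hC d hd`; `(C_i, c_i)` from `k7p_bud1`, `k7p_bud2`, `k7p_col1_ok`, `k7p_col2_ok`;  `C := max` of all constants, `64`, `192 · 9`, `c := max` of all exponents, `4` (`K^c_i ≤ K^c` as `1 ≤ K`).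
`χ > 0` (`hW.ln.χ0_pos`), `χ ≤ 1`, `qd ≤ q ≤ 1` (`k7p_t_lt`... or `pow_le_pow_of_le_one`).   `Ad₁`, `Ad₂` from the budgets;  `Z := k7pBase ..`, `c₁ := k7pC1 .. Ad₁`, `c₂ := k7pC2 .. Ad₂`;  `k7p_base_ok`, `k7p_col1_ok`, `k7p_col2_ok` with the common slack `K'`.
`k7p_core` at `a0 = a1 = a2 = a`, `d0 = d` (`max a a = a`, `x a / a = x`): `Zx'`.   `Zx := Zx' ∩ Z.Sp`: `lam0 Zx = prior (Zx' ∩ Sp) = Z.μ Zx'` (`Measure.restrict_apply`, `Sp ⊆ Ev0`).   `Z.Sp \ Zx' = Sp \ Zx`.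
`card · a^d ≤ K' K₁ (2 (K' a + Θ a))^d = K' K₁ (2 (K' + Θ))^d a^d` (`Real.mul_rpow`), cancel `a^d > 0`.   `k7p_lists_of` with `B := K' K₁ (2 (K' + Θ))^d`. -/
theorem k7p_cmp_one (Sh : Set (ℝ → ℝ → ℝ)) (hM : K7pMatch Sh k7pQuad) (m0 : ℕ) (C0 : ℝ) (hC0 : 1 ≤ C0) (hC : K7pCode Sh k7pQuad m0 C0) (d : ℝ) (hd0 : 0 ≤ d) (hd : d < 1) :
    ∃ (ε C : ℝ) (c : ℕ), 0 < ε ∧ 1 ≤ C ∧ ∀ (W : K7aW) (Γ : K7pGr W) (P : K7aLayer W.toK7aLn) (N K S a h g ρ χ β M Kn K' Θ K1 δ : ℝ) (Ms Ws : Finset ℝ) (n nς k Lg : ℕ),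
      W.Ok N K d S a h g Ms Ws → Γ.Ok Sh K a h g ρ → P.Ok K χ a β d → 1 < N → 1 ≤ K → 0 < a → a ≤ 1 → 0 < h → h ≤ 1 → 0 < g → g ≤ 1 → 0 < β →
      M ∈ Ms → (0 : ℝ) ∈ Ws → 1 ≤ Kn → (∀ p, a ≤ p → p ≤ 1 → ∃ r ∈ Ws, N ^ (-r) ≤ p ∧ p ≤ Kn * N ^ (-r)) → W.χ0 ≤ χ → W.lev ≤ n → (1 / 2 : ℝ) ^ n * g ≤ K * β → β ≤ K * g →
      C * K ^ c * (1 / 2 : ℝ) ^ nς ≤ 1 → C * K ^ c * χ ≤ a ^ 2 * h ^ 2 * g → C * K ^ c * Kn ≤ K' → K' * (1 / 2 : ℝ) ^ k ≤ a →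
      2 * (K + 2) * N ^ (-M) ≤ (1 / 2 : ℝ) ^ k * (1 / 2 : ℝ) ^ nς * ((1 / 2 : ℝ) ^ n * g) → 2 * K * N ^ (-M) ≤ χ →
      1 ≤ K1 → 0 < δ → δ ≤ 1 → 1 ≤ Θ → 2 * K' ≤ 2 ^ Lg * (Θ * a) → C * (K' ^ 4 * K1 / δ) ≤ Θ ^ ε →
      ∃ Zx : Set (W.L × ℝ), MeasurableSet Zx ∧ W.lam0 Zx ≤ ENNReal.ofReal (2 * K' / K1 + Lg * δ) ∧
        K7aLists W P (W.Ev0 \ Zx) (K * 4 ^ nς * (K' * K1 * (2 * (K' + Θ)) ^ d)) χ ((1 / 2 : ℝ) ^ n) g ((1 / 2 : ℝ) ^ n * g) := by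
  obtain ⟨ε, Cc, hε, hCc, Hcore⟩ := k7p_core Sh k7pQuad hM m0 C0 hC0 hC d hd
  obtain ⟨C1, c1, hC1, Hb1⟩ := k7p_bud1
  obtain ⟨C2, c2, hC2, Hb2⟩ := k7p_bud2
  obtain ⟨C3, c3, hC3, Hc1⟩ := k7p_col1_ok
  obtain ⟨C4, c4, hC4, Hc2⟩ := k7p_col2_ok
  refine ⟨ε, Cc + C1 + C2 + C3 + C4 + 64 + 1728, c1 + c2 + c3 + c4 + 4, hε, by linarith, ?_⟩
  intro W Γ P N K S a h g ρ χ β M Kn K' Θ K1 δ Ms Ws n nς k Lg hW hΓ hP hN hK ha ha1 hh hh1 hg hg1 hβ hMs h0Ws hKn hnet hχ0 hlev hqβ hβg hCς hCχ hCK' hK'k hmesh hχM hK1 hδ hδ1 hΘ hLg hsm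
  set C : ℝ := Cc + C1 + C2 + C3 + C4 + 64 + 1728 with hCdef
  set c : ℕ := c1 + c2 + c3 + c4 + 4 with hcdef
  set qd : ℝ := (1 / 2 : ℝ) ^ n with hqd
  set ς : ℝ := (1 / 2 : ℝ) ^ nς with hς
  set ϑ : ℝ := (1 / 2 : ℝ) ^ k with hϑ
  have hq : 0 < qd := by positivity
  have hς0 : 0 < ς := by positivity
  have hq1 : qd ≤ 1 := pow_le_one₀ (by norm_num) (by norm_num)
  have hqW : qd ≤ W.q := pow_le_pow_of_le_one (by norm_num) (by norm_num) hlev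
  have hχ : 0 < χ := lt_of_lt_of_le hW.ln.χ0_pos hχ0
  have hKc : (1 : ℝ) ≤ K ^ c := one_le_pow₀ hK
  have hCK1 : (1 : ℝ) ≤ C * K ^ c := by
    have : (1 : ℝ) ≤ C := by rw [hCdef]; linarith
    exact one_le_mul_of_one_le_of_one_le this hKc
  have e1 : C1 * K ^ c1 ≤ C * K ^ c := k7p_mono_const (by linarith) (by rw [hCdef]; linarith) (by omega) hK
  have e2 : C2 * K ^ c2 ≤ C * K ^ c := k7p_mono_const (by linarith) (by rw [hCdef]; linarith) (by omega) hK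
  have e3 : C3 * K ^ c3 ≤ C * K ^ c := k7p_mono_const (by linarith) (by rw [hCdef]; linarith) (by omega) hK
  have e4 : C4 * K ^ c4 ≤ C * K ^ c := k7p_mono_const (by linarith) (by rw [hCdef]; linarith) (by omega) hK
  have e5 : 64 * K ^ 4 ≤ C * K ^ c := k7p_mono_const (by norm_num) (by rw [hCdef]; linarith) (by omega) hK
  have e6 : 1728 * K ^ 2 ≤ C * K ^ c := k7p_mono_const (by norm_num) (by rw [hCdef]; linarith) (by omega) hK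
  have hCKK' : C * K ^ c ≤ K' := by
    refine le_trans ?_ hCK'
    exact le_mul_of_one_le_right (by linarith) hKn
  have hK'1 : 1 ≤ K' := hCK1.trans hCKK'
  have hahg : a ^ 2 * h ^ 2 * g ≤ a * h * g := by
    have h1 : a ^ 2 ≤ a := by
      rw [pow_two]; exact mul_le_of_le_one_left ha.le ha1
    have h2 : h ^ 2 ≤ h := by
      rw [pow_two]; exact mul_le_of_le_one_left hh.le hh1
    have h3 : a ^ 2 * h ^ 2 ≤ a * h := mul_le_mul h1 h2 (by positivity) ha.le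
    exact mul_le_mul_of_nonneg_right h3 hg.le
  have hahg1 : a * h * g ≤ 1 := by
    have h3 : a * h ≤ 1 := mul_le_one₀ ha1 hh.le hh1
    exact mul_le_one₀ h3 hg.le hg1
  have hχ1 : χ ≤ 1 := by
    have : 1 * χ ≤ C * K ^ c * χ := mul_le_mul_of_nonneg_right hCK1 hχ.le
    linarith
  have ht1 : ∀ z ∈ W.Ev0, z.2 < 1 := fun z hz => (k7p_t_lt W hW hlev hz).1
  obtain ⟨Ad1, hAd1, hS1⟩ := Hb1 W Γ P Sh N K d S a h g ρ χ Ms Ws n nς hW hΓ hK ha ha1 hh hh1 hg hg1 hχ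
    ((mul_le_mul_of_nonneg_right e5 hχ.le).trans hCχ) hlev
  obtain ⟨Ad2, hAd2, hS2⟩ := Hb2 W.toK7aLn P N K d S χ qd g a β Ms Ws nς hW.ln hP hK hχ ha hq hq1 hg hβ hqβ hβg
  have hZ : (k7pBase W.toK7aLn P χ qd g ς).Ok K' d a ϑ := by
    refine k7p_base_ok W.toK7aLn P hW.ln hP.meas hN hK hd0 hMs h0Ws hKn hnet ha hq hg hg1 hς0 hχ0 hχ1 k hχM hmesh ?_
    have hKKn : K ≤ K * Kn := le_mul_of_one_le_right (by linarith) hKn
    have hKnK : Kn ≤ K * Kn := le_mul_of_one_le_left (by linarith) hK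
    have h1KKn : 1 ≤ K * Kn := one_le_mul_of_one_le_of_one_le hK hKn
    have : 192 * K * (2 * (Kn + K) + 5) ≤ 1728 * K ^ 2 * Kn := by
      have : 2 * (Kn + K) + 5 ≤ 9 * (K * Kn) := by linarith
      calc 192 * K * (2 * (Kn + K) + 5) ≤ 192 * K * (9 * (K * Kn)) := by
            apply mul_le_mul_of_nonneg_left this (by positivity)
        _ = 1728 * K ^ 2 * Kn := by ring
    refine this.trans (le_trans ?_ hCK')
    exact mul_le_mul_of_nonneg_right e6 (by linarith)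
  have h1 : (k7pC1 W Γ P χ qd g ς a d Ad1).Ok Sh K' d a ϑ :=
    Hc1 W Γ P Sh N K d S a h g ρ χ qd ς K' ϑ Ms Ws Ad1 hW hΓ hK ha ha1 hh hh1 hg hg1 hχ hq hqW hς0
      ((mul_le_mul_of_nonneg_right e3 hς0.le).trans hCς)
      (((mul_le_mul_of_nonneg_right e3 hχ.le).trans hCχ).trans hahg) hAd1
      (hS1.trans (ENNReal.ofReal_le_ofReal (e1.trans hCKK'))) (e3.trans hCKK') hK'k
  have h2 : (k7pC2 W.toK7aLn P χ qd g ς a d Ad2).Ok k7pQuad K' d a ϑ :=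
    Hc2 W.toK7aLn P N K d S χ g a β K' ϑ Ms Ws n nς Ad2 hW.ln hP hK ha hg hβ ht1 hqβ hAd2
      (hS2.trans (ENNReal.ofReal_le_ofReal (e2.trans hCKK'))) (e4.trans hCKK') hK'k
  have hΘ0 : 0 < Θ := by linarith
  obtain ⟨Zx', hZm, hZμ, -, h12, h21⟩ := Hcore (k7pBase W.toK7aLn P χ qd g ς) (k7pC1 W Γ P χ qd g ς a d Ad1) (k7pC2 W.toK7aLn P χ qd g ς a d Ad2)
    K' d a a a ϑ Θ K1 δ Lg hZ h1 h2 hK'1 hd0 hd.le (by simp) hK1 hδ hδ1 hΘ (by simpa using hLg)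
    (by
      intro x hx
      have : x * max a a / a = x := by
        rw [max_self]; field_simp
      rw [this]
      exact ⟨le_rfl, le_rfl⟩)
    (by
      refine le_trans ?_ hsm
      have : 0 ≤ K' ^ 4 * K1 / δ := by positivity
      exact mul_le_mul_of_nonneg_right (by rw [hCdef]; linarith) this)
  have hSpm : MeasurableSet (W.Ev0 ∩ {z : W.L × ℝ | P.lab z.1 ≠ none}) := hZ.m_Sp
  have hZm' : MeasurableSet (Zx' : Set (W.L × ℝ)) := hZm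
  have had : 0 < a ^ d := Real.rpow_pos_of_pos ha d
  have hB : 0 ≤ K' * K1 * (2 * (K' + Θ)) ^ d := by positivity
  have hcancel : ∀ x : ℝ, x * a ^ d ≤ K' * K1 * (2 * (K' * a + Θ * max a a)) ^ d → x ≤ K' * K1 * (2 * (K' + Θ)) ^ d := by
    intro x hx
    have e : (2 * (K' * a + Θ * max a a)) ^ d = (2 * (K' + Θ)) ^ d * a ^ d := by
      rw [max_self, ← Real.mul_rpow (by positivity) ha.le]
      congr 1; ring
    rw [e, ← mul_assoc] at hx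
    exact le_of_mul_le_mul_right hx had
  have hdiff : (W.Ev0 ∩ {z : W.L × ℝ | P.lab z.1 ≠ none}) \ (Zx' ∩ (W.Ev0 ∩ {z : W.L × ℝ | P.lab z.1 ≠ none})) = (W.Ev0 ∩ {z : W.L × ℝ | P.lab z.1 ≠ none}) \ Zx' := by
    exact Set.sdiff_inter_self_eq_sdiff
  refine ⟨Zx' ∩ (W.Ev0 ∩ {z : W.L × ℝ | P.lab z.1 ≠ none}), hZm'.inter hSpm, ?_, ?_⟩
  · refine le_trans (le_of_eq ?_) hZμ
    exact k7p_restr_inter W.prior hZm' hSpm
  · refine k7p_lists_of W Γ P hΓ hP hK hq hg nς hB _ ?_ ?_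
    · intro i
      obtain ⟨Sf, hcard, hSf⟩ := h12 i
      refine ⟨Sf, hcancel _ hcard, ?_⟩
      intro ω hω hi
      rw [hdiff] at hω
      exact hSf ω hω hi
    · intro j
      obtain ⟨Sf, hcard, hSf⟩ := h21 j
      refine ⟨Sf, hcancel _ hcard, ?_⟩
      intro ω hω hj
      rw [hdiff] at hω
      exact hSf ω hω hj

/-! ## D10. Exponents -/

/-- **L-252-S7p-D10a**.  The constant of the code may be taken `≥ 1`.
PROOF.  Same `J`.  `η ≥ 0`: `C η ≤ max C 1 η` (`k7p_close_mono`).   `η < 0`: `k7pClose f g η` is false (at `t = y = 0`: `0 ≤ |..| ≤ η`); `∀ k, |..| ≤ η` is false if `m > 0`; and `m = 0` is impossible: apply `hC` to `f = fun _ _ => 0`, `g = fun _ _ => 1` (both `K7aQuad`) and `η = 0`: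
the hypothesis is vacuous, the conclusion `|0 - 1| ≤ C * 0` is false. -/
theorem k7p_code_one {Sh : Set (ℝ → ℝ → ℝ)} {m : ℕ} {C : ℝ} (hC : K7pCode Sh k7pQuad m C) : K7pCode Sh k7pQuad m (max C 1) := by
  obtain ⟨J, hJ⟩ := hC
  have hm : 0 < m := by
    rcases Nat.eq_zero_or_pos m with h0 | h0
    · exfalso
      subst h0
      have q0 : (fun _ _ => (0 : ℝ)) ∈ k7pQuad := ⟨0, 0, 0, 0, 0, 0, fun t y => by ring⟩
      have q1 : (fun _ _ => (1 : ℝ)) ∈ k7pQuad := ⟨1, 0, 0, 0, 0, 0, fun t y => by ring⟩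
      have := (hJ _ (Or.inr q0) _ q1 0).2 (fun k => k.elim0) 0 ⟨le_rfl, zero_le_one⟩ 0 ⟨le_rfl, zero_le_one⟩
      norm_num at this
    · exact h0
  refine ⟨J, fun f hf g hg η => ?_⟩
  rcases le_or_gt 0 η with hη | hη
  · have hle : C * η ≤ max C 1 * η := mul_le_mul_of_nonneg_right (le_max_left _ _) hη
    exact ⟨fun h k => ((hJ f hf g hg η).1 h k).trans hle, fun h => k7p_close_mono ((hJ f hf g hg η).2 h) hle⟩
  · constructor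
    · intro h
      exfalso
      have := h 0 ⟨le_rfl, zero_le_one⟩ 0 ⟨le_rfl, zero_le_one⟩
      linarith [abs_nonneg (f 0 0 - g 0 0)]
    · intro h
      exfalso
      have := h ⟨0, hm⟩
      linarith [abs_nonneg (J f ⟨0, hm⟩ - J g ⟨0, hm⟩)]

/-- a power of two in `[x, 2x]` -/
theorem k7p_dy {x : ℝ} (hx : 1 ≤ x) : ∃ n : ℕ, x ≤ 2 ^ n ∧ (2 : ℝ) ^ n ≤ 2 * x := by
  obtain ⟨n, h1, h2⟩ := exists_nat_pow_near hx (one_lt_two : (1 : ℝ) < 2)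
  refine ⟨n + 1, h2.le, ?_⟩
  rw [pow_succ]
  linarith

/-- a constant is eventually below a positive power -/
theorem k7p_ev (A γ : ℝ) (hγ : 0 < γ) : ∃ N0 : ℝ, ∀ N, N0 ≤ N → A ≤ N ^ γ := by
  have := (tendsto_rpow_atTop hγ).eventually_ge_atTop A
  exact Filter.eventually_atTop.mp this

/-- a logarithm is eventually below a positive power -/
theorem k7p_ev_log (A γ : ℝ) (hA : 0 ≤ A) (hγ : 0 < γ) : ∃ N0 : ℝ, ∀ N, N0 ≤ N → 1 + A * Real.logb 2 N ≤ N ^ γ := by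
  have hl2 : 0 < Real.log 2 := Real.log_pos one_lt_two
  obtain ⟨N0, hN0⟩ := k7p_ev (1 + A / Real.log 2 / (γ / 2)) (γ / 2) (by linarith)
  refine ⟨max N0 1, fun N hN => ?_⟩
  have hN1 : 1 ≤ N := (le_max_right _ _).trans hN
  have hN00 : 0 < N := by linarith
  have h1 := hN0 N ((le_max_left _ _).trans hN)
  have h2 : Real.log N ≤ N ^ (γ / 2) / (γ / 2) := Real.log_le_rpow_div hN00.le (by linarith)
  have h3 : (1 : ℝ) ≤ N ^ (γ / 2) := Real.one_le_rpow hN1 (by linarith)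
  have h4 : N ^ γ = N ^ (γ / 2) * N ^ (γ / 2) := by
    rw [← Real.rpow_add hN00]; congr 1; ring
  have h5 : A * Real.logb 2 N ≤ A / Real.log 2 / (γ / 2) * N ^ (γ / 2) := by
    have : A * Real.logb 2 N = A / Real.log 2 * Real.log N := by
      rw [Real.logb]; field_simp
    rw [this]
    calc A / Real.log 2 * Real.log N ≤ A / Real.log 2 * (N ^ (γ / 2) / (γ / 2)) := mul_le_mul_of_nonneg_left h2 (by positivity)
      _ = A / Real.log 2 / (γ / 2) * N ^ (γ / 2) := by ring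
  rw [h4]
  calc 1 + A * Real.logb 2 N ≤ N ^ (γ / 2) + A / Real.log 2 / (γ / 2) * N ^ (γ / 2) := add_le_add h3 h5
    _ = (1 + A / Real.log 2 / (γ / 2)) * N ^ (γ / 2) := by ring
    _ ≤ N ^ (γ / 2) * N ^ (γ / 2) := mul_le_mul_of_nonneg_right h1 (by linarith)

/-- the `τ`-net of width exponents -/
theorem k7p_net (s τ : ℝ) (hs : 0 < s) (hτ : 0 < τ) : ∃ Ws : Finset ℝ, (0 : ℝ) ∈ Ws ∧ (∀ r ∈ Ws, 0 ≤ r ∧ r ≤ s + τ) ∧
    ∀ N : ℝ, 1 < N → ∀ p, N ^ (-s) ≤ p → p ≤ 1 → ∃ r ∈ Ws, N ^ (-r) ≤ p ∧ p ≤ N ^ τ * N ^ (-r) := by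
  refine ⟨(Finset.range (⌈s / τ⌉₊ + 1)).image (fun j : ℕ => (j : ℝ) * τ), ?_, ?_, ?_⟩
  · exact Finset.mem_image.mpr ⟨0, Finset.mem_range.mpr (Nat.succ_pos _), by simp⟩
  · intro r hr
    obtain ⟨j, hj, rfl⟩ := Finset.mem_image.mp hr
    refine ⟨by positivity, ?_⟩
    have h1 : j ≤ ⌈s / τ⌉₊ := Nat.lt_succ_iff.mp (Finset.mem_range.mp hj)
    have h2 : (⌈s / τ⌉₊ : ℝ) < s / τ + 1 := Nat.ceil_lt_add_one (by positivity)
    have h3 : (j : ℝ) ≤ s / τ + 1 := le_trans (by exact_mod_cast h1) h2.le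
    have h4 : (j : ℝ) * τ ≤ (s / τ + 1) * τ := mul_le_mul_of_nonneg_right h3 hτ.le
    have h5 : (s / τ + 1) * τ = s + τ := by field_simp
    linarith
  · intro N hN p hp hp1
    have hN0 : 0 < N := by linarith
    have hp0 : 0 < p := lt_of_lt_of_le (Real.rpow_pos_of_pos hN0 _) hp
    set x : ℝ := -Real.logb N p with hx
    have hpx : p = N ^ (-x) := by
      rw [hx, neg_neg, Real.rpow_logb hN0 hN.ne' hp0]
    have hx0 : 0 ≤ x := by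
      rw [hx, neg_nonneg]
      exact Real.logb_nonpos hN hp0.le hp1
    have hxs : x ≤ s := by
      rw [hpx] at hp
      have := (Real.rpow_le_rpow_left_iff hN).mp hp
      linarith
    refine ⟨(⌈x / τ⌉₊ : ℝ) * τ, Finset.mem_image.mpr ⟨⌈x / τ⌉₊, Finset.mem_range.mpr (Nat.lt_succ_of_le (Nat.ceil_mono (div_le_div_of_nonneg_right hxs hτ.le))), rfl⟩, ?_, ?_⟩
    · rw [hpx]
      apply Real.rpow_le_rpow_of_exponent_le hN.le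
      have : x / τ ≤ ⌈x / τ⌉₊ := Nat.le_ceil _
      rw [div_le_iff₀ hτ] at this
      linarith
    · rw [hpx, ← Real.rpow_add hN0]
      apply Real.rpow_le_rpow_of_exponent_le hN.le
      have : (⌈x / τ⌉₊ : ℝ) < x / τ + 1 := Nat.ceil_lt_add_one (by positivity)
      have h2 : (⌈x / τ⌉₊ : ℝ) * τ < (x / τ + 1) * τ := mul_lt_mul_of_pos_right this hτ
      have h3 : (x / τ + 1) * τ = x + τ := by field_simp
      linarith

/-- the choice of the small exponents of L7.2 -/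
theorem k7p_L72_exp (ε τ' : ℝ) (c : ℕ) (hε : 0 < ε) (hτ' : 0 < τ') : ∃ θ κ₁ σ τ : ℝ, 0 < θ ∧ 0 < κ₁ ∧ 0 < σ ∧ 0 < τ ∧ θ = τ' / 4 ∧ κ₁ ≤ ε * θ / 4 ∧ κ₁ ≤ θ / 4 ∧ σ ≤ 1 / 2 ∧ σ ≤ κ₁ / 2 ∧
    τ * ((4 * c + 12 : ℕ) : ℝ) = σ ∧ τ ≤ σ / 12 := by
  have hθ : 0 < τ' / 4 := by linarith
  have hm : 0 < min ε 1 := lt_min hε one_pos
  have hκ : 0 < min ε 1 * (τ' / 4) / 4 := by positivity
  have hσ : 0 < min 1 (min ε 1 * (τ' / 4) / 4) / 2 := by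
    have : 0 < min 1 (min ε 1 * (τ' / 4) / 4) := lt_min one_pos hκ
    linarith
  have hc : (0 : ℝ) < ((4 * c + 12 : ℕ) : ℝ) := by positivity
  refine ⟨τ' / 4, min ε 1 * (τ' / 4) / 4, min 1 (min ε 1 * (τ' / 4) / 4) / 2, min 1 (min ε 1 * (τ' / 4) / 4) / 2 / ((4 * c + 12 : ℕ) : ℝ), hθ, hκ, hσ, by positivity, rfl, ?_, ?_, ?_, ?_, ?_, ?_⟩
  · have : min ε 1 * (τ' / 4) ≤ ε * (τ' / 4) := mul_le_mul_of_nonneg_right (min_le_left _ _) hθ.le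
    linarith
  · have : min ε 1 * (τ' / 4) ≤ 1 * (τ' / 4) := mul_le_mul_of_nonneg_right (min_le_right _ _) hθ.le
    linarith
  · have := min_le_left 1 (min ε 1 * (τ' / 4) / 4)
    linarith
  · have := min_le_right 1 (min ε 1 * (τ' / 4) / 4)
    linarith
  · field_simp
  · apply div_le_div_of_nonneg_left hσ.le (by norm_num)
    push_cast
    have : (0 : ℝ) ≤ c := Nat.cast_nonneg c
    linarith

/-- the numerical content of L7.2 at one `N` -/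
theorem k7p_L72_at (ε C : ℝ) (c : ℕ) (hC : 1 ≤ C) (d s eh eg Bmax Mχ τ' θ κ₁ σ τ N : ℝ) (hd0 : 0 ≤ d) (hd : d ≤ 1) (hs : 0 < s) (heh : 0 < eh) (heg : 0 < eg) (hB : eg ≤ Bmax)
    (hMχ : 2 * s + 2 * eh + eg + 1 ≤ Mχ) (hθ : 0 < θ) (hκ : 0 < κ₁) (hσ : 0 < σ) (hτ : 0 < τ) (hθτ : θ = τ' / 4) (hκε : κ₁ ≤ ε * θ / 4) (hκθ : κ₁ ≤ θ / 4) (hσ1 : σ ≤ 1 / 2) (hσκ : σ ≤ κ₁ / 2)
    (hτσ : τ * ((4 * c + 12 : ℕ) : ℝ) = σ) (hτ12 : τ ≤ σ / 12) (hN : 1 < N) (hNC : C ≤ N ^ τ) (hN2 : 2 ≤ N ^ τ) (hNl : 1 + (s + 1) * Real.logb 2 N ≤ N ^ (κ₁ / 4))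
    (β : ℝ) (n : ℕ) (hβ1 : N ^ (-Bmax) ≤ β) (hβ2 : β ≤ N ^ (-eg + τ)) (hn1 : N ^ (-τ) * min (N ^ (-eh)) (β / N ^ (-eg)) ≤ (1 / 2 : ℝ) ^ n)
    (hn2 : (1 / 2 : ℝ) ^ n ≤ N ^ τ * min (N ^ (-eh)) (β / N ^ (-eg))) :
    ∃ (K' Θ K1 δ : ℝ) (nς k Lg : ℕ),
      (1 / 2 : ℝ) ^ n * N ^ (-eg) ≤ N ^ τ * β ∧ β ≤ N ^ τ * N ^ (-eg) ∧
      C * (N ^ τ) ^ c * (1 / 2 : ℝ) ^ nς ≤ 1 ∧ C * (N ^ τ) ^ c * N ^ (-Mχ) ≤ (N ^ (-s)) ^ 2 * (N ^ (-eh)) ^ 2 * N ^ (-eg) ∧ C * (N ^ τ) ^ c * N ^ τ ≤ K' ∧ K' * (1 / 2 : ℝ) ^ k ≤ N ^ (-s) ∧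
      2 * (N ^ τ + 2) * N ^ (-(s + eh + Bmax + Mχ + 1)) ≤ (1 / 2 : ℝ) ^ k * (1 / 2 : ℝ) ^ nς * ((1 / 2 : ℝ) ^ n * N ^ (-eg)) ∧ 2 * N ^ τ * N ^ (-(s + eh + Bmax + Mχ + 1)) ≤ N ^ (-Mχ) ∧
      1 ≤ K1 ∧ 0 < δ ∧ δ ≤ 1 ∧ 1 ≤ Θ ∧ 2 * K' ≤ 2 ^ Lg * (Θ * N ^ (-s)) ∧ C * (K' ^ 4 * K1 / δ) ≤ Θ ^ ε ∧
      2 * K' / K1 + Lg * δ ≤ N ^ (-(κ₁ / 2)) ∧ N ^ τ * 4 ^ nς * (K' * K1 * (2 * (K' + Θ)) ^ d) ≤ N ^ τ' := by
  have hN0 : 0 < N := by linarith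
  have hE : ∀ x : ℝ, 0 < N ^ x := fun x => Real.rpow_pos_of_pos hN0 x
  have hadd : ∀ x y : ℝ, N ^ x * N ^ y = N ^ (x + y) := fun x y => (Real.rpow_add hN0 x y).symm
  have hmono : ∀ {x y : ℝ}, x ≤ y → N ^ x ≤ N ^ y := fun h => Real.rpow_le_rpow_of_exponent_le hN.le h
  have hinv : ∀ x : ℝ, N ^ (-x) = (N ^ x)⁻¹ := fun x => Real.rpow_neg hN0.le x
  set T : ℝ := N ^ τ with hT
  have hT0 : 0 < T := hE τ
  have hT1 : 1 ≤ T := by linarith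
  have hTj : ∀ j : ℕ, j ≤ 4 * c + 12 → T ^ j ≤ N ^ σ := by
    intro j hj
    calc T ^ j ≤ T ^ (4 * c + 12) := pow_le_pow_right₀ hT1 hj
      _ = N ^ σ := by rw [hT, ← Real.rpow_natCast, ← Real.rpow_mul hN0.le, hτσ]
  have hTc : (1 : ℝ) ≤ T ^ c := one_le_pow₀ hT1
  have hx1 : 1 ≤ C * T ^ c := one_le_mul_of_one_le_of_one_le hC hTc
  have hx1le : C * T ^ c ≤ T ^ (c + 1) := by
    rw [pow_succ, mul_comm]; exact mul_le_mul_of_nonneg_left hNC (by positivity)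
  have hK'1 : 1 ≤ C * T ^ c * T := one_le_mul_of_one_le_of_one_le hx1 hT1
  have hK'le : C * T ^ c * T ≤ T ^ (c + 2) := by
    rw [pow_succ]; exact mul_le_mul_of_nonneg_right hx1le hT0.le
  set K' : ℝ := C * T ^ c * T with hK'
  have hK'0 : 0 < K' := by linarith
  have hNs1 : 1 ≤ N ^ s := Real.one_le_rpow hN.le hs.le
  obtain ⟨nς, hς1, hς2⟩ := k7p_dy hx1
  obtain ⟨k, hk1, hk2⟩ := k7p_dy (one_le_mul_of_one_le_of_one_le hK'1 hNs1)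
  obtain ⟨Lg, hL1, hL2⟩ := k7p_dy (one_le_mul_of_one_le_of_one_le (one_le_mul_of_one_le_of_one_le one_le_two hK'1) hNs1)
  have hhalf : ∀ j : ℕ, (1 / 2 : ℝ) ^ j = ((2 : ℝ) ^ j)⁻¹ := fun j => by rw [one_div, inv_pow]
  have h2j : ∀ j : ℕ, (0 : ℝ) < 2 ^ j := fun j => by positivity
  have hς3 : (2 : ℝ) ^ nς ≤ T ^ (c + 2) := by
    calc (2 : ℝ) ^ nς ≤ 2 * (C * T ^ c) := hς2
      _ ≤ T * T ^ (c + 1) := mul_le_mul hN2 hx1le (by linarith) hT0.le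
      _ = T ^ (c + 2) := by ring
  have hk3 : (2 : ℝ) ^ k ≤ T ^ (c + 3) * N ^ s := by
    calc (2 : ℝ) ^ k ≤ 2 * (K' * N ^ s) := hk2
      _ = (2 * K') * N ^ s := by ring
      _ ≤ (T * T ^ (c + 2)) * N ^ s := mul_le_mul_of_nonneg_right (mul_le_mul hN2 hK'le hK'0.le hT0.le) (hE s).le
      _ = T ^ (c + 3) * N ^ s := by ring
  have hL3 : (2 : ℝ) ^ Lg ≤ N ^ (s + 1) := by
    calc (2 : ℝ) ^ Lg ≤ 2 * (2 * K' * N ^ s) := hL2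
      _ = (2 * (2 * K')) * N ^ s := by ring
      _ ≤ (T * (T * T ^ (c + 2))) * N ^ s :=
          mul_le_mul_of_nonneg_right (mul_le_mul hN2 (mul_le_mul hN2 hK'le hK'0.le hT0.le) (by positivity) hT0.le) (hE s).le
      _ = T ^ (c + 4) * N ^ s := by ring
      _ ≤ N ^ σ * N ^ s := mul_le_mul_of_nonneg_right (hTj _ (by omega)) (hE s).le
      _ = N ^ (σ + s) := hadd _ _
      _ ≤ N ^ (s + 1) := hmono (by linarith)
  have hLg : (Lg : ℝ) ≤ (s + 1) * Real.logb 2 N := by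
    have h1 : Real.logb 2 ((2 : ℝ) ^ Lg) ≤ Real.logb 2 (N ^ (s + 1)) := Real.logb_le_logb_of_le one_lt_two (h2j Lg) hL3
    rw [Real.logb_rpow_eq_mul_logb_of_pos hN0, Real.logb_pow, Real.logb_self_eq_one one_lt_two, mul_one] at h1
    exact h1
  have hg0 : 0 < N ^ (-eg) := hE _
  have hΘ1 : 1 ≤ N ^ θ := Real.one_le_rpow hN.le hθ.le
  have h2K' : 2 * K' ≤ T ^ (c + 3) := by
    calc 2 * K' ≤ T * T ^ (c + 2) := mul_le_mul hN2 hK'le hK'0.le hT0.le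
      _ = T ^ (c + 3) := by ring
  have hTq : T ^ (c + 3) = N ^ (σ / 4) := by
    rw [hT, ← Real.rpow_natCast, ← Real.rpow_mul hN0.le]
    congr 1
    push_cast at hτσ ⊢
    linarith
  refine ⟨K', N ^ θ, N ^ κ₁, N ^ (-κ₁), nς, k, Lg, ?_, ?_, ?_, ?_, le_rfl, ?_, ?_, ?_, Real.one_le_rpow hN.le hκ.le, hE _,
    Real.rpow_le_one_of_one_le_of_nonpos hN.le (by linarith), hΘ1, ?_, ?_, ?_, ?_⟩
  · have h1 : (1 / 2 : ℝ) ^ n ≤ T * (β / N ^ (-eg)) := hn2.trans (mul_le_mul_of_nonneg_left (min_le_right _ _) hT0.le)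
    calc (1 / 2 : ℝ) ^ n * N ^ (-eg) ≤ T * (β / N ^ (-eg)) * N ^ (-eg) := mul_le_mul_of_nonneg_right h1 hg0.le
      _ = T * β := by field_simp
  · refine hβ2.trans (le_of_eq ?_)
    rw [hT, hadd]; congr 1; ring
  · rw [hhalf]
    exact mul_inv_le_one_of_le₀ hς1 (h2j _).le
  · have e : (N ^ (-s)) ^ 2 * (N ^ (-eh)) ^ 2 * N ^ (-eg) = N ^ (-s + -s + (-eh + -eh) + -eg) := by
      rw [pow_two, pow_two, hadd, hadd, hadd, hadd]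
    rw [e]
    calc C * T ^ c * N ^ (-Mχ) ≤ N ^ σ * N ^ (-Mχ) := mul_le_mul_of_nonneg_right (hx1le.trans (hTj _ (by omega))) (hE _).le
      _ = N ^ (σ + -Mχ) := hadd _ _
      _ ≤ _ := hmono (by linarith)
  · rw [hhalf, hinv, ← div_eq_mul_inv, div_le_iff₀ (h2j k), inv_mul_eq_div, le_div_iff₀ (hE s)]
    exact hk1
  · have hmin : N ^ (-eh - Bmax + eg) ≤ min (N ^ (-eh)) (β / N ^ (-eg)) := by
      apply le_min
      · exact hmono (by linarith)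
      · rw [le_div_iff₀ hg0, hadd]
        exact (hmono (by linarith)).trans hβ1
    have hq0 : N ^ (-τ + (-eh - Bmax + eg)) ≤ (1 / 2 : ℝ) ^ n := by
      rw [← hadd]; exact (mul_le_mul_of_nonneg_left hmin (hE _).le).trans hn1
    have h23 : 2 * (T + 2) ≤ T ^ 3 := by nlinarith [mul_self_nonneg (T - 2), mul_nonneg hT0.le hT0.le]
    rw [hhalf k, hhalf nς]
    have hAB : 0 < (2 : ℝ) ^ k * 2 ^ nς := by positivity
    have e : ((2 : ℝ) ^ k)⁻¹ * ((2 : ℝ) ^ nς)⁻¹ * ((1 / 2 : ℝ) ^ n * N ^ (-eg)) = ((1 / 2 : ℝ) ^ n * N ^ (-eg)) / ((2 : ℝ) ^ k * 2 ^ nς) := by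
      field_simp
    rw [e, le_div_iff₀ hAB]
    calc 2 * (T + 2) * N ^ (-(s + eh + Bmax + Mχ + 1)) * ((2 : ℝ) ^ k * 2 ^ nς)
        ≤ T ^ 3 * N ^ (-(s + eh + Bmax + Mχ + 1)) * (T ^ (c + 3) * N ^ s * T ^ (c + 2)) := by
          apply mul_le_mul (mul_le_mul_of_nonneg_right h23 (hE _).le) (mul_le_mul hk3 hς3 (h2j _).le (by positivity)) hAB.le (by positivity)
      _ = T ^ (2 * c + 8) * (N ^ (-(s + eh + Bmax + Mχ + 1)) * N ^ s) := by ring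
      _ ≤ N ^ σ * (N ^ (-(s + eh + Bmax + Mχ + 1)) * N ^ s) := mul_le_mul_of_nonneg_right (hTj _ (by omega)) (by positivity)
      _ = N ^ (σ + (-(s + eh + Bmax + Mχ + 1) + s)) := by rw [hadd, hadd]
      _ ≤ N ^ (-τ + (-eh - Bmax + eg) + -eg) := hmono (by linarith)
      _ = N ^ (-τ + (-eh - Bmax + eg)) * N ^ (-eg) := (hadd _ _).symm
      _ ≤ (1 / 2 : ℝ) ^ n * N ^ (-eg) := mul_le_mul_of_nonneg_right hq0 hg0.le
  · calc 2 * T * N ^ (-(s + eh + Bmax + Mχ + 1)) ≤ T ^ 2 * N ^ (-(s + eh + Bmax + Mχ + 1)) := by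
          apply mul_le_mul_of_nonneg_right _ (hE _).le
          rw [pow_two]; exact mul_le_mul_of_nonneg_right hN2 hT0.le
      _ ≤ N ^ σ * N ^ (-(s + eh + Bmax + Mχ + 1)) := mul_le_mul_of_nonneg_right (hTj _ (by omega)) (hE _).le
      _ = N ^ (σ + -(s + eh + Bmax + Mχ + 1)) := hadd _ _
      _ ≤ N ^ (-Mχ) := hmono (by linarith)
  · have h1 : 2 * K' ≤ 2 ^ Lg * N ^ (-s) := by
      rw [hinv, ← div_eq_mul_inv, le_div_iff₀ (hE s)]; exact hL1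
    refine h1.trans (mul_le_mul_of_nonneg_left ?_ (h2j _).le)
    exact le_mul_of_one_le_left (hE _).le hΘ1
  · rw [← Real.rpow_mul hN0.le, hinv, mul_div_assoc, div_inv_eq_mul, hadd]
    calc C * (K' ^ 4 * N ^ (κ₁ + κ₁)) = (C * K' ^ 4) * N ^ (κ₁ + κ₁) := by ring
      _ ≤ (T * (T ^ (c + 2)) ^ 4) * N ^ (κ₁ + κ₁) := by
          apply mul_le_mul_of_nonneg_right _ (hE _).le
          exact mul_le_mul hNC (pow_le_pow_left₀ hK'0.le hK'le 4) (by positivity) hT0.le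
      _ = T ^ (4 * c + 9) * N ^ (κ₁ + κ₁) := by ring
      _ ≤ N ^ σ * N ^ (κ₁ + κ₁) := mul_le_mul_of_nonneg_right (hTj _ (by omega)) (hE _).le
      _ = N ^ (σ + (κ₁ + κ₁)) := hadd _ _
      _ ≤ N ^ (θ * ε) := hmono (by linarith)
  · have h1 : 2 * K' ≤ N ^ (κ₁ / 4) := by
      rw [hTq] at h2K'
      exact h2K'.trans (hmono (by linarith))
    have h2 : (Lg : ℝ) ≤ N ^ (κ₁ / 4) := by linarith
    have h3 : 2 * K' + Lg ≤ N ^ (κ₁ / 2) := by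
      calc 2 * K' + Lg ≤ 2 * N ^ (κ₁ / 4) := by linarith
        _ ≤ T * N ^ (κ₁ / 4) := mul_le_mul_of_nonneg_right hN2 (hE _).le
        _ = N ^ (τ + κ₁ / 4) := hadd _ _
        _ ≤ N ^ (κ₁ / 2) := hmono (by linarith)
    calc 2 * K' / N ^ κ₁ + Lg * N ^ (-κ₁) = (2 * K' + Lg) * N ^ (-κ₁) := by rw [hinv]; ring
      _ ≤ N ^ (κ₁ / 2) * N ^ (-κ₁) := mul_le_mul_of_nonneg_right h3 (hE _).le
      _ = N ^ (κ₁ / 2 + -κ₁) := hadd _ _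
      _ = N ^ (-(κ₁ / 2)) := by congr 1; ring
  · have e4 : (4 : ℝ) ^ nς = ((2 : ℝ) ^ nς) ^ 2 := by
      rw [← pow_mul, mul_comm, pow_mul]; norm_num
    have hb1 : 1 ≤ 2 * (K' + N ^ θ) := by linarith
    have hb2 : (2 * (K' + N ^ θ)) ^ d ≤ 2 * (K' + N ^ θ) := by
      have := Real.rpow_le_rpow_of_exponent_le hb1 hd
      rwa [Real.rpow_one] at this
    have hb3 : 2 * (K' + N ^ θ) ≤ T ^ (c + 4) * N ^ θ := by
      have a1 : K' ≤ K' * N ^ θ := le_mul_of_one_le_right hK'0.le hΘ1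
      have a2 : N ^ θ ≤ K' * N ^ θ := le_mul_of_one_le_left (hE _).le hK'1
      calc 2 * (K' + N ^ θ) ≤ (2 * (2 * K')) * N ^ θ := by linarith
        _ ≤ (T * T ^ (c + 3)) * N ^ θ := mul_le_mul_of_nonneg_right (mul_le_mul hN2 h2K' (by positivity) hT0.le) (hE _).le
        _ = T ^ (c + 4) * N ^ θ := by ring
    rw [e4]
    calc T * ((2 : ℝ) ^ nς) ^ 2 * (K' * N ^ κ₁ * (2 * (K' + N ^ θ)) ^ d)
        ≤ T * (T ^ (c + 2)) ^ 2 * (T ^ (c + 2) * N ^ κ₁ * (T ^ (c + 4) * N ^ θ)) := by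
          apply mul_le_mul
          · exact mul_le_mul_of_nonneg_left (pow_le_pow_left₀ (h2j _).le hς3 2) hT0.le
          · apply mul_le_mul (mul_le_mul_of_nonneg_right hK'le (hE _).le) (hb2.trans hb3) (by positivity) (by positivity)
          · positivity
          · positivity
      _ = T ^ (4 * c + 11) * (N ^ κ₁ * N ^ θ) := by ring
      _ ≤ N ^ σ * (N ^ κ₁ * N ^ θ) := mul_le_mul_of_nonneg_right (hTj _ (by omega)) (by positivity)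
      _ = N ^ (σ + (κ₁ + θ)) := by rw [hadd, hadd]
      _ ≤ N ^ τ' := hmono (by linarith)

/-- **L-252-S7p-D10b** **Lemma 7.2, finite-scale form** (exponents only).
PROOF.  Given `d S s eh eg Bmax`: `(ε, C, c)` from `k7p_cmp_one` (`k7p_code_one`); `Mχ0 := 2 s + 2 eh + eg + 1`.   Given `Mχ`, `τ'`:  `θ := τ'/4`, `κ₁ := min ε 1 * θ/4`, `κ := κ₁/2`, `τ := min (1 / (2 (c + 1))) (κ₁ / (8 (c + 3)))` (so `c τ ≤ 1/2`, `(4c + 12) τ ≤ κ₁/2`), `M := s + eh + Bmax + eg + Mχ + 3c + 10 =: M0` (chosen BEFORE `τ'`; the widths are `≤ s + τ ≤ s + 1 ≤ M0`, or use the clipped net `k7p_num_netc` of `ProjContract`),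
`Ms := {M}`, `Ws := (Finset.range (⌈s/τ⌉₊ + 1)).image (· * τ)` (contains `0`; every `p ∈ [N^{-s}, 1]` has `j τ` with `N^{-(j+1)τ}`... `N^{-jτ} ≤ p ≤ N^τ N^{-jτ}`, `j = ⌈-logb N p / τ⌉₊`), `Kn := N^τ`.
At `N ≥ N1`: `K := N^τ`, `K' := C K^c Kn ≤ N^{(c+2)τ}`, `nς := ⌈logb 2 (C K^c)⌉₊` (`C K^c ς ≤ 1`, `4^nς ≤ 4 C² K^{2c}`), `k := ⌈logb 2 (K'/a)⌉₊` (`K' ϑ ≤ a`, `ϑ ≥ a/(2K')`), `K₁ := N^{κ₁}`, `δ := N^{-κ₁}`, `Θ := N^θ`, `Lg := ⌈logb 2 (2K'/(Θ a))⌉₊ ≤ (s + 1) logb 2 N + 2`.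
`(1/2)^n g ≤ N^τ β`, `β ≤ N^τ g`: from the hypotheses (`min_le_right`, `Real.rpow_add`).   `(1/2)^n ≥ N^{-τ} min (N^{-eh}) (N^{-Bmax+eg})`.   All remaining hypotheses of `k7p_cmp_one` and the two final bounds
`2K'/K₁ + Lg δ ≤ N^{-κ}`, `K 4^nς K' K₁ (2(K' + Θ))^d ≤ N^{τ'}` are inequalities between powers of `N` with a strict gap in the exponents, a constant and at most one factor `log N`: true for `N ≥ N1`.   `K7aLists` is monotone in its bound (`le_trans` in both fields). -/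
theorem k7p_L72_pf (Sh : Set (ℝ → ℝ → ℝ)) (m : ℕ) (C : ℝ) (hM : K7pMatch Sh k7pQuad) (hC : K7pCode Sh k7pQuad m C) : k7p_L72B Sh := by
  intro d S s eh eg Bmax hd0 hd hS hs heh heg hB
  obtain ⟨ε, C', c, hε, hC', H⟩ := k7p_cmp_one Sh hM m (max C 1) (le_max_right _ _) (k7p_code_one hC) d hd0 hd
  refine ⟨2 * s + 2 * eh + eg + 1, fun Mχ hMχ => ⟨s + eh + Bmax + Mχ + 1, fun τ' hτ' => ?_⟩⟩
  obtain ⟨θ, κ₁, σ, τ, hθ, hκ, hσ, hτ, hθτ, hκε, hκθ, hσ1, hσκ, hτσ, hτ12⟩ := k7p_L72_exp ε τ' c hε hτ'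
  obtain ⟨Ws, h0Ws, hWs0, hnet⟩ := k7p_net s τ hs hτ
  obtain ⟨Na, hNa⟩ := k7p_ev C' τ hτ
  obtain ⟨Nb, hNb⟩ := k7p_ev 2 τ hτ
  obtain ⟨Nc, hNc⟩ := k7p_ev_log (s + 1) (κ₁ / 4) (by linarith) (by linarith)
  refine ⟨κ₁ / 2, τ, max 2 (max Na (max Nb Nc)), {s + eh + Bmax + Mχ + 1}, Ws, by linarith, hτ, ?_, ?_, ?_⟩
  · intro M' hM'
    rw [Finset.mem_singleton] at hM'
    rw [hM']
    exact ⟨by linarith, le_rfl⟩
  · intro r hr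
    have := hWs0 r hr
    exact ⟨this.1, by linarith⟩
  intro N hN W Γ ρ P β n hW hχ0 hΓ hP hβ1 hβ2 hlev hn1 hn2
  have hN1 : 1 < N := lt_of_lt_of_le one_lt_two ((le_max_left _ _).trans hN)
  have hN0 : 0 < N := by linarith
  have hNa' := hNa N ((le_max_left _ _).trans ((le_max_right _ _).trans hN))
  have hNb' := hNb N ((le_max_left _ _).trans ((le_max_right _ _).trans ((le_max_right _ _).trans hN)))
  have hNc' := hNc N ((le_max_right _ _).trans ((le_max_right _ _).trans ((le_max_right _ _).trans hN)))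
  obtain ⟨K', Θ, K1, δ, nς, k, Lg, g1, g2, g3, g4, g5, g6, g7, g8, g9, g10, g11, g12, g13, g14, g15, g16⟩ :=
    k7p_L72_at ε C' c hC' d s eh eg Bmax Mχ τ' θ κ₁ σ τ N hd0 hd.le hs heh heg hB hMχ hθ hκ hσ hτ hθτ hκε hκθ hσ1 hσκ hτσ hτ12 hN1 hNa' hNb' hNc' β n hβ1 hβ2 hn1 hn2
  have hle1 : ∀ x : ℝ, 0 < x → N ^ (-x) ≤ 1 := fun x hx => Real.rpow_le_one_of_one_le_of_nonpos hN1.le (by linarith)
  have hK1 : 1 ≤ N ^ τ := Real.one_le_rpow hN1.le hτ.le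
  obtain ⟨Zx, hZm, hZμ, hL⟩ := H W Γ P N (N ^ τ) S (N ^ (-s)) (N ^ (-eh)) (N ^ (-eg)) ρ (N ^ (-Mχ)) β (s + eh + Bmax + Mχ + 1) (N ^ τ) K' Θ K1 δ {s + eh + Bmax + Mχ + 1} Ws n nς k Lg
    hW hΓ hP hN1 hK1 (Real.rpow_pos_of_pos hN0 _) (hle1 s hs) (Real.rpow_pos_of_pos hN0 _) (hle1 eh heh) (Real.rpow_pos_of_pos hN0 _) (hle1 eg heg)
    (lt_of_lt_of_le (Real.rpow_pos_of_pos hN0 _) hβ1) (Finset.mem_singleton_self _) h0Ws hK1 (hnet N hN1) hχ0 hlev g1 g2 g3 g4 g5 g6 g7 g8 g9 g10 g11 g12 g13 g14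
  refine ⟨Zx, hZm, hZμ.trans (ENNReal.ofReal_le_ofReal g15), ?_, ?_⟩
  · intro Q mv z D
    obtain ⟨Sf, h1, h2⟩ := hL.fwd Q mv z D
    exact ⟨Sf, h1.trans g16, h2⟩
  · intro φ D
    obtain ⟨Sf, h1, h2⟩ := hL.bwd φ D
    exact ⟨Sf, h1.trans g16, h2⟩

theorem k7p_cmp_eqns_cite : True := by
  have := @k7pNu.eq_1
  have := @k7pBox.eq_1
  have := @k7pU.eq_1
  have := @k7pCt.eq_1
  have := @k7pCy.eq_1
  have := @k7pCz.eq_1
  have := @k7pCh.eq_1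
  have := @k7pBase.eq_1
  have := @k7pC1.eq_1
  have := @k7pC2.eq_1
  trivial

end

end Claimed.Agent.R252

/-!
# ROW 252 (S0492), unit S7p (sub-architect helper97), file 2: THE EXITS.      CONTRACT file: every `sorry` is a post / leaf `*-252-S7p-*`.

    k7a_T71 ──(S7p/ProjContract: caps on sheared boxes, projected support, discarding of groups, one call of Thm 7.1 per group, dyadic choice of β)──▶ k7p_P72
    K7pMatch Sh Quad, K7pCode Sh Quad ──(S7p/CoreContract: abstract two-colour comparison;  S7p/CmpContract: domains, budgets, graphs on cells)──▶ k7p_L72 Sh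
-/

set_option autoImplicit false

namespace Claimed.Agent.R252

open MeasureTheory
open scoped ENNReal BigOperators

noncomputable section

/-- **Sec 7.2** from Thm 7.1.   (assembly: `S7p/ProjContract.lean`) -/
theorem k7p_P72B_of (h : k7a_T71) : k7p_P72B := k7p_P72_pf h

theorem k7p_P72_of (h : k7a_T71) : k7p_P72 := k7p_P72_of_B (k7p_P72_pf h)

/-- **Lemma 7.2** from the two hubs of Sec. 3.   (assembly: `S7p/CmpContract.lean`) -/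
theorem k7p_L72B_of (Sh : Set (ℝ → ℝ → ℝ)) (m : ℕ) (C : ℝ) (hM : K7pMatch Sh k7pQuad) (hC : K7pCode Sh k7pQuad m C) : k7p_L72B Sh :=
  k7p_L72_pf Sh m C hM hC

theorem k7p_L72_of (Sh : Set (ℝ → ℝ → ℝ)) (m : ℕ) (C : ℝ) (hM : K7pMatch Sh k7pQuad) (hC : K7pCode Sh k7pQuad m C) : k7p_L72 Sh :=
  k7p_L72_of_B (k7p_L72_pf Sh m C hM hC)

end

end Claimed.Agent.R252
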