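import Claimed.Agent.R252.S7p.Defs
import Claimed.Agent.R252.S7a.ProjDefs
import Claimed.Agent.R252.S3c.RadMvContract
import Claimed.Agent.R252.S7p.Contract
import Claimed.Agent.R252.S7a.ProjContract
import Claimed.Agent.R252.S7a.WideGlue
import Claimed.Agent.R252.S3c.ExitsContract

/-!
# ROW 252 (S0492), unit S7p-AD (post BP-252-S7p-AD, architect helper299, under helper26 / helper97), file 1: VOCABULARY OF THE ADAPTOR  `KsRef` graph entries ⟶ `K7pGr`.      Definitions only.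

* `k7qU f`          a function of two real variables as a function on `Fin 2 → ℝ`.
* `k7qSh`           THE CLASS `Sh` of `k7p_L72 Sh`: stable square-root sheets on the unit square, `α + β √D / D²`, degrees `≤ 5`, `D` stable with the ABSOLUTE constant `2` (`k3cShC 2 5 2 2 0 1` of `S3c/RadMvContract`).
* `k7qB z`          the base `(t, Z, Y)` of Sec. 7 as a base `(t, y)` of `KsRef`.
* `R.k7qGr A s`     the graph entries of the depth `s` as a `K7pGr (R.toW A s)`: prediction `P_* (z, G_e (z))` in PARENT base coordinates.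
* `k7qAf`           affine functions of two variables (quadratic ones: `K7aQuad`).
* `K7qIn R A s K Ms Ws`   the two records consumed by `k7p_P72`, `k7p_L72` at the depth `s`, slack `K`.
* `K7qStep`, `K7qCmp`      the inner parts of `k7p_P72`, `k7p_L72 Sh` (exponents and group mesh fixed): `k7q_P72_iff`, `k7q_L72_iff` (`Iff.rfl`).
-/

set_option autoImplicit false

namespace Claimed.Agent.R252

open MeasureTheory
open scoped ENNReal BigOperators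

noncomputable section

/-- a function of two real variables as a function on `Fin 2 → ℝ` -/
def k7qU (f : ℝ → ℝ → ℝ) : (Fin 2 → ℝ) → ℝ := fun u => f (u 0) (u 1)

/-- **the class of sheets** -/
def k7qSh : Set (ℝ → ℝ → ℝ) := {f | k7qU f ∈ k3cShC 2 5 2 2 (fun _ => 0) (fun _ => 1)}

/-- the base `(t, Z, Y)` as a base `(t, y)` -/
def k7qB (z : ℝ × ℝ × ℝ) : ℝ × KbB KbVer.two := (z.1, ![z.2.1, z.2.2])

/-- affine functions of two variables -/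
def k7qAf (f : ℝ → ℝ → ℝ) : Prop := ∃ e0 e1 e2 : ℝ, ∀ t y, f t y = e0 + e1 * t + e2 * y

/-- **the graph entries of the depth `s`** -/
def KsRef.k7qGr (R : KsRef KbVer.two) (A : R.Par) (s : ℝ) : K7pGr (R.toW A s) where
  Ent := R.Ent
  fEnt := R.fEnt
  eQ := R.eLab
  ent := R.ent s
  eF := fun e z => R.nat (R.lpar (R.eLab e)) (k7qB z).1 (k7qB z).2 (R.eG e (k7qB z))

/-- the two records of the depth `s`, slack `K` -/
def K7qIn (R : KsRef KbVer.two) (A : R.Par) (s K : ℝ) (Ms Ws : Finset ℝ) : Prop :=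
  (R.toW A s).Ok R.N K R.d R.S (R.N ^ (-s)) (R.N ^ (-(R.k * s))) (R.N ^ (-(R.ell * s))) Ms Ws ∧
    ∃ ρ : ℝ, (R.k7qGr A s).Ok k7qSh K (R.N ^ (-s)) (R.N ^ (-(R.k * s))) (R.N ^ (-(R.ell * s))) ρ

/-- the inner part of `k7p_P72` (all exponents and the group mesh fixed) -/
def K7qStep (d S s eh eg M Mχ : ℝ) : Prop :=
  ∀ τ' : ℝ, 0 < τ' → ∃ (τ N1 : ℝ) (Ms Ws : Finset ℝ), 0 < τ ∧
      (∀ M' ∈ Ms, 0 ≤ M') ∧ (∀ r ∈ Ws, 0 ≤ r) ∧ ∀ N : ℝ, N1 ≤ N →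
      ∀ (W : K7aW) (Γ : K7pGr W) (Sh : Set (ℝ → ℝ → ℝ)) (ρ : ℝ) (E : Set (W.L × ℝ)),
        W.Ok N (N ^ τ) d S (N ^ (-s)) (N ^ (-eh)) (N ^ (-eg)) Ms Ws → W.χ0 ≤ N ^ (-Mχ) →
        Γ.Ok Sh (N ^ τ) (N ^ (-s)) (N ^ (-eh)) (N ^ (-eg)) ρ →
        MeasurableSet E → E ⊆ W.Ev0 → 1 ≤ ENNReal.ofReal (N ^ τ) * W.prior E →
        ∃ (P : K7aLayer W.toK7aLn) (β : ℝ) (E' : Set (W.L × ℝ)), MeasurableSet E' ∧ E' ⊆ E ∧ (∀ p ∈ E', P.lab p.1 ≠ none) ∧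
          1 ≤ ENNReal.ofReal (N ^ τ') * W.prior E' ∧ P.Ok (N ^ τ') (N ^ (-Mχ)) (N ^ (-s)) β d ∧
          N ^ (-eg - M - τ') ≤ β ∧ β ≤ N ^ (-eg + τ')

/-- the inner part of `k7p_L72 Sh` -/
def K7qCmp (Sh : Set (ℝ → ℝ → ℝ)) (d S s eh eg Bmax Mχ : ℝ) : Prop :=
  ∀ τ' : ℝ, 0 < τ' → ∃ (κ τ N1 : ℝ) (Ms Ws : Finset ℝ), 0 < κ ∧ 0 < τ ∧
      (∀ M' ∈ Ms, 0 ≤ M') ∧ (∀ r ∈ Ws, 0 ≤ r) ∧ ∀ N : ℝ, N1 ≤ N →
      ∀ (W : K7aW) (Γ : K7pGr W) (ρ : ℝ) (P : K7aLayer W.toK7aLn) (β : ℝ) (n : ℕ),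
        W.Ok N (N ^ τ) d S (N ^ (-s)) (N ^ (-eh)) (N ^ (-eg)) Ms Ws → W.χ0 ≤ N ^ (-Mχ) →
        Γ.Ok Sh (N ^ τ) (N ^ (-s)) (N ^ (-eh)) (N ^ (-eg)) ρ →
        P.Ok (N ^ τ) (N ^ (-Mχ)) (N ^ (-s)) β d → N ^ (-Bmax) ≤ β → β ≤ N ^ (-eg + τ) →
        W.lev ≤ n → N ^ (-τ) * min (N ^ (-eh)) (β / N ^ (-eg)) ≤ (1 / 2 : ℝ) ^ n → (1 / 2 : ℝ) ^ n ≤ N ^ τ * min (N ^ (-eh)) (β / N ^ (-eg)) →
        ∃ Zx : Set (W.L × ℝ), MeasurableSet Zx ∧ W.lam0 Zx ≤ ENNReal.ofReal (N ^ (-κ)) ∧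
          K7aLists W P (W.Ev0 \ Zx) (N ^ τ') (N ^ (-Mχ)) ((1 / 2 : ℝ) ^ n) (N ^ (-eg)) ((1 / 2 : ℝ) ^ n * N ^ (-eg))

theorem k7q_P72_iff : k7p_P72 ↔ ∀ (d S s eh eg M : ℝ), 0 ≤ d → d < 1 → 0 < S → 0 < s → 0 < eh → 0 < eg → s + eh + eg < M →
    ∃ Mχ0 : ℝ, ∀ Mχ : ℝ, Mχ0 ≤ Mχ → K7qStep d S s eh eg M Mχ := Iff.rfl

theorem k7q_L72_iff (Sh : Set (ℝ → ℝ → ℝ)) : k7p_L72 Sh ↔ ∀ (d S s eh eg Bmax : ℝ), 0 ≤ d → d < 1 → 0 < S → 0 < s → 0 < eh → 0 < eg → eg ≤ Bmax →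
    ∃ Mχ0 : ℝ, ∀ Mχ : ℝ, Mχ0 ≤ Mχ → K7qCmp Sh d S s eh eg Bmax Mχ := Iff.rfl

theorem k7q_defs_eqns_cite : True := by
  have := @K7qStep.eq_1
  have := @K7qCmp.eq_1
  have := @k7qU.eq_1
  have := @k7qSh.eq_1
  have := @k7qB.eq_1
  have := @k7qAf.eq_1
  have := @KsRef.k7qGr.eq_1
  have := @K7qIn.eq_1
  trivial

end

end Claimed.Agent.R252

/-!
# ROW 252 (S0492), unit S7p-AD (post BP-252-S7p-AD, architect helper299), file 2: `k7p_P72` + `k7p_L72 k7qSh` ⟹ `k7a_P72K`, AND THE TWO HUBS.      ALL 13 LEAVES `L-252-S7q-*` PROVED (22:00Z): this file has no open hole; `k7q_P72K`, `k7q_match`, `k7q_code` are axiom-clean.   -- KEEP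

PAPER-FREE.  Prefix `k7q_`.  Prove IN PLACE, statement verbatim, helper lemmas directly above (same prefix).  Earlier statements may be cited even if still `sorry`.

    BLOCK B (hubs)      k3c_match, k3c_class_sheet, k3c_sheet_node2 (S3c)  ──▶  k7q_match : K7pMatch k7qSh k7pQuad,   k7q_code : K7pCode k7qSh k7pQuad m C
    BLOCK A (entries)   R.Ok K, R.Tilt K, 1 ≤ R.ord  ──▶  k7q_gr_ok : (R.k7qGr A s).Ok k7qSh (24 K⁹) a_s h_s g_s (1 / (24 K⁹))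
    BLOCK C (assembly)  k7q_in, k7q_step_R, k7q_chain, k7q_cmp_R  ──▶  k7q_P72K : k7p_P72 → k7p_L72 k7qSh → k7a_P72K
-/

set_option autoImplicit false

namespace Claimed.Agent.R252

open MeasureTheory
open scoped ENNReal BigOperators

noncomputable section

/-! ## BLOCK B.  The class and the two hubs -/

/-! ### B1 (leaf L-252-S7q-B1): polynomial functions of two variables, membership in the class -/

theorem k7q_pol_mono {d d' : ℕ} (h : d ≤ d') {f : (Fin 2 → ℝ) → ℝ} (hf : f ∈ k3cPolC 2 d) : f ∈ k3cPolC 2 d' := by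
  obtain ⟨P, hP, he⟩ := hf
  exact ⟨P, hP.trans h, he⟩

theorem k7q_pol_const (x : ℝ) (d : ℕ) : (fun _ : Fin 2 → ℝ => x) ∈ k3cPolC 2 d := by
  refine ⟨MvPolynomial.C x, ?_, fun u => ?_⟩
  · rw [MvPolynomial.totalDegree_C]; exact Nat.zero_le _
  · rw [MvPolynomial.eval_C]

theorem k7q_pol_add {d : ℕ} {f g : (Fin 2 → ℝ) → ℝ} (hf : f ∈ k3cPolC 2 d) (hg : g ∈ k3cPolC 2 d) : (fun u => f u + g u) ∈ k3cPolC 2 d := by
  obtain ⟨P, hP, he⟩ := hf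
  obtain ⟨Q, hQ, he'⟩ := hg
  exact ⟨P + Q, (MvPolynomial.totalDegree_add _ _).trans (max_le hP hQ), fun u => by rw [map_add, ← he, ← he']⟩

theorem k7q_pol_mul {d₁ d₂ : ℕ} {f g : (Fin 2 → ℝ) → ℝ} (hf : f ∈ k3cPolC 2 d₁) (hg : g ∈ k3cPolC 2 d₂) : (fun u => f u * g u) ∈ k3cPolC 2 (d₁ + d₂) := by
  obtain ⟨P, hP, he⟩ := hf
  obtain ⟨Q, hQ, he'⟩ := hg
  exact ⟨P * Q, (MvPolynomial.totalDegree_mul _ _).trans (add_le_add hP hQ), fun u => by rw [map_mul, ← he, ← he']⟩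

theorem k7q_pol_af {f : ℝ → ℝ → ℝ} (hf : k7qAf f) : k7qU f ∈ k3cPolC 2 1 := by
  obtain ⟨e0, e1, e2, h⟩ := hf
  refine ⟨MvPolynomial.C e0 + MvPolynomial.C e1 * MvPolynomial.X 0 + MvPolynomial.C e2 * MvPolynomial.X 1, ?_, fun u => ?_⟩
  · have hCX : ∀ (e : ℝ) (i : Fin 2), (MvPolynomial.C e * MvPolynomial.X i : MvPolynomial (Fin 2) ℝ).totalDegree ≤ 1 := fun e i => by
      refine (MvPolynomial.totalDegree_mul _ _).trans ?_
      rw [MvPolynomial.totalDegree_C, MvPolynomial.totalDegree_X]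
    refine (MvPolynomial.totalDegree_add _ _).trans (max_le ((MvPolynomial.totalDegree_add _ _).trans (max_le ?_ (hCX _ _))) (hCX _ _))
    rw [MvPolynomial.totalDegree_C]; exact Nat.zero_le _
  · simp only [map_add, map_mul, MvPolynomial.eval_C, MvPolynomial.eval_X]
    exact h _ _

/-- (`k7a_mt_quad`) -/
theorem k7q_pol_quad {f : ℝ → ℝ → ℝ} (hf : K7aQuad f) : k7qU f ∈ k3cPolC 2 2 := k7a_mt_quad hf

/-- **membership criterion**: `U = {u | ∀ i, u i ∈ Ioo (-1) 2}` (`isOpen_set_pi`), `sh2_stable_of_half`; the polynomials come from the three memberships. -/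
theorem k7q_mem {F fα fβ fD : (Fin 2 → ℝ) → ℝ} (hF : Measurable F) (hα : fα ∈ k3cPolC 2 5) (hβ : fβ ∈ k3cPolC 2 5) (hD : fD ∈ k3cPolC 2 5) (D0 : ℝ) (h0 : 0 < D0)
    (hst : ∀ u ∈ Set.Icc (fun _ => 0 : Fin 2 → ℝ) (fun _ => 1), |fD u - D0| ≤ D0 / 2)
    (he : ∀ u : Fin 2 → ℝ, (∀ i, u i ∈ Set.Ioo (-1 : ℝ) 2) → F u = fα u + fβ u * Real.sqrt (fD u) / fD u ^ 2) :
    F ∈ k3cShC 2 5 2 2 (fun _ => 0) (fun _ => 1) := by
  obtain ⟨α, hα, eα⟩ := hα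
  obtain ⟨β, hβ, eβ⟩ := hβ
  obtain ⟨D, hD, eD⟩ := hD
  refine ⟨hF, α, β, D, {u | ∀ i, u i ∈ Set.Ioo (-1 : ℝ) 2}, hα, hβ, hD, ?_, ?_, ?_, ?_⟩
  · exact sh2_stable_of_half D0 h0 fun u hu => by rw [← eD]; exact hst u hu
  · have e : {u : Fin 2 → ℝ | ∀ i, u i ∈ Set.Ioo (-1 : ℝ) 2} = Set.pi Set.univ fun _ => Set.Ioo (-1 : ℝ) 2 := by
      ext u; simp
    rw [e]
    exact isOpen_set_pi Set.finite_univ fun _ _ => isOpen_Ioo
  · intro u hu i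
    have h1 := hu.1 i
    have h2 := hu.2 i
    simp only at h1 h2
    exact ⟨by linarith, by linarith⟩
  · intro u hu
    rw [he u hu, eα, eβ, eD]
    rfl

/-- quadratic polynomials are sheets (`k7q_mem` with `fβ = 0`, `fD = 1`, `D0 = 1`) -/
theorem k7q_quad_sub : k7pQuad ⊆ k7qSh := by
  intro f hf
  have h2 : k7qU f ∈ k3cPolC 2 2 := k7q_pol_quad hf
  have hm : Measurable (k7qU f) := by
    obtain ⟨P, -, e⟩ := h2
    have : k7qU f = fun u => MvPolynomial.eval u P := funext e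
    rw [this]
    exact (sh2_eval_contDiff P 0).continuous.measurable
  refine k7q_mem hm (k7q_pol_mono (by norm_num) h2) (k7q_pol_const 0 5) (k7q_pol_const 1 5) 1 one_pos ?_ ?_
  · intro u _
    norm_num
  · intro u _
    simp

/-! ### B2 (leaf L-252-S7q-B2): the matching hub -/

/-- **HUB** Cor 3.4 for sheets against quadratic polynomials.
PLAN.  Copy of the proof of `k7a_match_pf` (`S7a/MatchContract.lean`, 60 lines) with the class `k3cShC 2 5 2 2 (fun _ => 0) (fun _ => 1)`: `k3c_class_sheet 5 2` gives `(k₀,p₀,k₁,p₁,c,C)` and the class constant `C * 2 ^ c` (`kap = 2`);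
`k3c_match 2 k₀ p₀ k₁ p₁ d0 hd`; memberships: `hq1 i` is the definition of `k7qSh`, `k7q_quad_sub (hq2 j)`.   `k7a_mt_marg`, `k7a_mt_box` verbatim. -/
theorem k7q_match : K7pMatch k7qSh k7pQuad := by
  intro d0 hd
  obtain ⟨k₀, p₀, k₁, p₁, c, C₀, -, hC₀, hcl⟩ := k3c_class_sheet 5 2
  obtain ⟨C, hCe⟩ : ∃ C : ℝ, C = C₀ * 2 ^ c := ⟨_, rfl⟩
  have hC1 : 1 ≤ C := by
    have h2 : (1 : ℝ) ≤ 2 ^ c := one_le_pow₀ (by norm_num)
    rw [hCe]; nlinarith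
  obtain ⟨ε, hε, R₁, hm⟩ := k3c_match 2 k₀ p₀ k₁ p₁ d0 hd
  refine ⟨ε, hε, max R₁ (max 1 (C ^ (1 / ε))), ?_⟩
  intro R M Δ hR hΔ hM I1 I2 _ _ f1 f2 fs π1 π2 Pr hq1 hq2 _hqs hc1 _hc2 hn1 hn2 hs1 hs2 hsupp hm1 hm2 hev hgap
  have hRR : R₁ ≤ R := (le_max_left _ _).trans hR
  have hR1 : 1 ≤ R := ((le_max_left _ _).trans (le_max_right _ _)).trans hR
  have hRC : C ^ (1 / ε) ≤ R := ((le_max_right _ _).trans (le_max_right _ _)).trans hR
  have hR0 : 0 < R := by linarith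
  have hC0 : 0 < C := by linarith
  have hCR : C ≤ R ^ ε := by
    calc C = (C ^ (1 / ε)) ^ ε := by rw [← Real.rpow_mul hC0.le, one_div, inv_mul_cancel₀ hε.ne', Real.rpow_one]
      _ ≤ R ^ ε := Real.rpow_le_rpow (by positivity) hRC hε.le
  set e := (MeasurableEquiv.finTwoArrow (α := ℝ)) with he
  have hπ1 : ∀ i, π1 i ≠ ⊤ := fun i => ne_top_of_le_ne_top ENNReal.one_ne_top
    ((Finset.single_le_sum (fun _ _ => zero_le) (Finset.mem_univ i)).trans hs1)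
  have hπ2 : ∀ i, π2 i ≠ ⊤ := fun i => ne_top_of_le_ne_top ENNReal.one_ne_top
    ((Finset.single_le_sum (fun _ _ => zero_le) (Finset.mem_univ i)).trans hs2)
  have hRε : 0 ≤ R ^ ε := by positivity
  have hprod : ∏ i : Fin 2, ((fun _ => 1 : Fin 2 → ℝ) i - (fun _ => 0 : Fin 2 → ℝ) i) = 1 := by simp
  have hcst : ∀ p : ℝ≥0∞, p ≠ ⊤ → ENNReal.ofReal (R ^ ε * p.toReal / ∏ i : Fin 2, ((fun _ => 1 : Fin 2 → ℝ) i - (fun _ => 0 : Fin 2 → ℝ) i))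
      = ENNReal.ofReal (R ^ ε) * p := fun p hp => by
    rw [hprod, div_one, ENNReal.ofReal_mul hRε, ENNReal.ofReal_toReal hp]
  have hsum : ∀ {I : Type} [Fintype I] (π : I → ℝ≥0∞), (∀ i, π i ≠ ⊤) → ∑ i, π i ≤ 1 → ∑ i, (π i).toReal ≤ 1 := by
    intro I _ π h1 h2
    rw [← ENNReal.toReal_sum (fun i _ => h1 i)]
    exact ENNReal.toReal_le_of_le_ofReal zero_le_one (by simpa using h2)
  have hmem : ∀ u : Fin 2 → ℝ, u ∈ Set.Icc (fun _ => 0 : Fin 2 → ℝ) (fun _ => 1) → u 0 ∈ Set.Icc (0 : ℝ) 1 ∧ u 1 ∈ Set.Icc (0 : ℝ) 1 :=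
    fun u hu => ⟨⟨hu.1 0, hu.2 0⟩, ⟨hu.1 1, hu.2 1⟩⟩
  have key := hm R hRR (fun _ => 0) (fun _ => 1) (k3cShC 2 5 2 2 (fun _ => 0) (fun _ => 1)) M Δ I1 I2 (fun i u => f1 i (u 0) (u 1)) (fun j u => f2 j (u 0) (u 1))
    (fun u => fs (u 0) (u 1)) (fun i => (π1 i).toReal) (fun j => (π2 j).toReal) (fun i j => (Pr i j).map e.symm)
    (fun _ => zero_lt_one) hΔ hM (k3c_class_mono (by rw [← hCe]; exact hCR) (hcl 2 2 _ _ (by norm_num))) (fun i => hq1 i) (fun j => k7q_quad_sub (hq2 j)) hc1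
    (fun i u hu => hn1 i _ (hmem u hu).1 _ (hmem u hu).2) (fun j u hu => hn2 j _ (hmem u hu).1 _ (hmem u hu).2)
    (fun _ => ENNReal.toReal_nonneg) (fun _ => ENNReal.toReal_nonneg) (hsum π1 hπ1 hs1) (hsum π2 hπ2 hs2)
    (fun i => by rw [hcst _ (hπ1 i)]; exact k7a_mt_marg (fun j => Pr i j) _ (fun j => hsupp i j) (hm1 i))
    (fun j => by rw [hcst _ (hπ2 j)]; exact k7a_mt_marg (fun i => Pr i j) _ (fun i => hsupp i j) (hm2 j))
    (fun i j => by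
      rw [e.symm.measurableEmbedding.ae_map_iff]
      filter_upwards [hev i j] with z hz
      simpa [he, MeasurableEquiv.finTwoArrow] using hz)
    (fun i j hne => by
      have : Pr i j ≠ 0 := fun h0 => hne (by rw [h0, Measure.map_zero])
      obtain ⟨t, ht, y, hy, h⟩ := hgap i j this
      refine ⟨![t, y], ⟨fun k => ?_, fun k => ?_⟩, by simpa using h⟩
      · fin_cases k
        · exact ht.1
        · exact hy.1
      · fin_cases k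
        · exact ht.2
        · exact hy.2)
  have hun : ∀ i j, (Pr i j).map e.symm Set.univ = Pr i j Set.univ := fun i j => by
    rw [e.symm.map_apply, Set.preimage_univ]
  simpa only [hun] using key

/-! ### B3 (leaf L-252-S7q-B3): the code hub -/

/-- **HUB** L3.1: the code = the values on a tensor grid of the unit square.
PLAN.  Copy of `k3c_K4eCode` (`S3c/HubsContract.lean`): `k3c_sheet_node2 2 5 2` gives `k, c, C₀`; `m = (k+1)^2`, `J f l = k7qU f (k3cGrid k (fun _ => 0) (fun _ => 1) (finFunctionFinEquiv.symm l))`, `C = C₀ 2^c`; the grid lies in the unit square;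
`f ∈ k7qSh ∪ k7pQuad` is a sheet by `k7q_quad_sub`.   `k7pClose f g η` ↔ `∀ u ∈ Icc 0 1, |k7qU f u - k7qU g u| ≤ η` (`u = ![t, y]`). -/
theorem k7q_code : ∃ (m : ℕ) (C : ℝ), K7pCode k7qSh k7pQuad m C := by
  obtain ⟨k, c, C₀, hk, hC₀, hnode⟩ := k3c_sheet_node2 2 5 2
  have hC : 1 ≤ C₀ * 2 ^ c := by
    have h2 : (1 : ℝ) ≤ 2 ^ c := one_le_pow₀ (by norm_num)
    nlinarith
  refine ⟨(k + 1) ^ 2, C₀ * 2 ^ c, ?_⟩
  have hab : ∀ i : Fin 2, (fun _ => 0 : Fin 2 → ℝ) i < (fun _ => 1 : Fin 2 → ℝ) i := fun i => zero_lt_one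
  have hgrid : ∀ (g : Fin 2 → Fin (k + 1)) (i : Fin 2), k3cGrid k (fun _ => 0) (fun _ => 1) g i ∈ Set.Icc (0 : ℝ) 1 := by
    intro g i
    have hk0 : (0 : ℝ) < k := by exact_mod_cast hk
    have hg : (((g i : ℕ) : ℝ)) / k ≤ 1 := by
      rw [div_le_one hk0]
      exact_mod_cast Nat.lt_succ_iff.1 (g i).2
    have hg0 : 0 ≤ (((g i : ℕ) : ℝ)) / k := by positivity
    have e : k3cGrid k (fun _ => 0) (fun _ => 1) g i = (((g i : ℕ) : ℝ)) / k := by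
      simp [k3cGrid]
    rw [e]
    exact ⟨hg0, hg⟩
  have hsh : ∀ f ∈ k7qSh ∪ k7pQuad, k7qU f ∈ k3cShC 2 5 2 2 (fun _ => 0) (fun _ => 1) := by
    intro f hf
    rcases hf with hf | hf
    · exact hf
    · exact k7q_quad_sub hf
  refine ⟨fun f l => k7qU f (k3cGrid k (fun _ => 0) (fun _ => 1) (finFunctionFinEquiv.symm l)), ?_⟩
  intro f hf g hg η
  constructor
  · intro hcl l
    have h1 := hcl _ (hgrid (finFunctionFinEquiv.symm l) 0) _ (hgrid (finFunctionFinEquiv.symm l) 1)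
    have h0 : 0 ≤ η := (abs_nonneg _).trans h1
    exact h1.trans (le_mul_of_one_le_left h0 hC)
  · intro hJ t ht y hy
    have := hnode 2 (fun _ => 0) (fun _ => 1) (by norm_num) hab (k7qU f) (hsh f hf) (k7qU g) (hsh g (Or.inr hg)) η (fun γ => by
      have := hJ (finFunctionFinEquiv γ)
      simpa using this) ![t, y] ⟨fun i => by fin_cases i; exacts [ht.1, hy.1], fun i => by fin_cases i; exacts [ht.2, hy.2]⟩
    simpa [k7qU] using this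

/-! ## BLOCK A.  The graph entries -/

/-! ### A1 (leaf L-252-S7q-A1): normal form of a quadratic test on an affine plane; algebra of the roots -/

/-- a quadratic test of version two, written out -/
theorem k7q_quad_ev (Q : KbQuad KbVer.two) (cy cty cyw : Fin 2 → ℝ) (cyy : Matrix (Fin 2) (Fin 2) ℝ) (h1 : cy = Q.cy) (h2 : cty = Q.cty) (h3 : cyw = Q.cyw)
    (h4 : cyy = Q.cyy) (t : ℝ) (y : Fin 2 → ℝ) (w : ℝ) :
    Q.ev t y w = Q.c0 + Q.ct * t + (cy 0 * y 0 + cy 1 * y 1) + Q.cw * w + Q.ctt * t ^ 2 + t * (cty 0 * y 0 + cty 1 * y 1)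
      + Q.ctw * t * w + (y 0 * (cyy 0 0 * y 0 + cyy 0 1 * y 1) + y 1 * (cyy 1 0 * y 0 + cyy 1 1 * y 1))
      + w * (cyw 0 * y 0 + cyw 1 * y 1) + Q.cww * w ^ 2 := by
  have hd : ∀ a b : Fin 2 → ℝ, a ⬝ᵥ b = a 0 * b 0 + a 1 * b 1 := fun a b => by simp [dotProduct, Fin.sum_univ_two]
  have hm : ∀ (A : Matrix (Fin 2) (Fin 2) ℝ) (b : Fin 2 → ℝ), y ⬝ᵥ A.mulVec b = y 0 * (A 0 0 * b 0 + A 0 1 * b 1) + y 1 * (A 1 0 * b 0 + A 1 1 * b 1) := fun A b => by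
    simp [dotProduct, Matrix.mulVec, Fin.sum_univ_two]
  have key : Q.ev t y w = Q.c0 + Q.ct * t + cy ⬝ᵥ y + Q.cw * w + Q.ctt * t ^ 2 + t * (cty ⬝ᵥ y) + Q.ctw * t * w + y ⬝ᵥ cyy.mulVec y
    + w * (cyw ⬝ᵥ y) + Q.cww * w ^ 2 := by
    subst h1 h2 h3 h4
    rfl
  rw [key, hm, hd, hd, hd]

/-- **normal form** in the hidden variable on an affine plane.
PLAN.  `obtain ⟨Q, hQ⟩ := hT`; `b t y := Q.cw + Q.ctw * t' + (Q.cyw 0 * Z' + Q.cyw 1 * Y')`, `e t y := ` the rest, where `(t', Z', Y') = k7pAff c A B t y` are affine in `(t, y)`; `kbDww T 0 0 0 / 2 = Q.cww` (unfold, `ring`);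
`simp [hQ, KbQuad.ev, dotProduct, Matrix.mulVec, Fin.sum_univ_two, k7qB, k7pAff]; ring`.   The witnesses of `k7qAf`, `K7aQuad` are explicit (expand by hand, check by `ring`). -/
theorem k7q_nf {T : KbTest KbVer.two} (hT : KbIsQuad T) (c A B : ℝ × ℝ × ℝ) : ∃ b e : ℝ → ℝ → ℝ, k7qAf b ∧ K7aQuad e ∧
    ∀ t y w, T (k7qB (k7pAff c A B t y)).1 (k7qB (k7pAff c A B t y)).2 w = kbDww T 0 0 0 / 2 * w ^ 2 + b t y * w + e t y := by
  obtain ⟨Q, hQ⟩ := hT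
  obtain ⟨cy, hcy⟩ : ∃ cy : Fin 2 → ℝ, cy = Q.cy := ⟨_, rfl⟩
  obtain ⟨cty, hcty⟩ : ∃ cty : Fin 2 → ℝ, cty = Q.cty := ⟨_, rfl⟩
  obtain ⟨cyw, hcyw⟩ : ∃ cyw : Fin 2 → ℝ, cyw = Q.cyw := ⟨_, rfl⟩
  obtain ⟨cyy, hcyy⟩ : ∃ cyy : Matrix (Fin 2) (Fin 2) ℝ, cyy = Q.cyy := ⟨_, rfl⟩
  have hT' : ∀ (t : ℝ) (y : Fin 2 → ℝ) (w : ℝ), T t y w = Q.c0 + Q.ct * t + (cy 0 * y 0 + cy 1 * y 1) + Q.cw * w + Q.ctt * t ^ 2 + t * (cty 0 * y 0 + cty 1 * y 1)
      + Q.ctw * t * w + (y 0 * (cyy 0 0 * y 0 + cyy 0 1 * y 1) + y 1 * (cyy 1 0 * y 0 + cyy 1 1 * y 1))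
      + w * (cyw 0 * y 0 + cyw 1 * y 1) + Q.cww * w ^ 2 := by
    intro t y w
    exact (hQ t y w).trans (k7q_quad_ev Q cy cty cyw cyy hcy hcty hcyw hcyy t y w)
  have hww : kbDww T 0 0 0 / 2 = Q.cww := by
    have h0 : ∀ w, T 0 0 w = Q.c0 + Q.cw * w + Q.cww * w ^ 2 := fun w => by
      have := hT' 0 (0 : Fin 2 → ℝ) w
      simp only [Pi.zero_apply] at this
      exact this.trans (by ring)
    unfold kbDww
    rw [h0, h0, h0]
    ring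
  obtain ⟨b, hb⟩ : ∃ b : ℝ → ℝ → ℝ, b = fun t y => Q.cw + Q.ctw * (c.1 + t * A.1 + y * B.1) + (cyw 0 * (c.2.1 + t * A.2.1 + y * B.2.1)
      + cyw 1 * (c.2.2 + t * A.2.2 + y * B.2.2)) := ⟨_, rfl⟩
  obtain ⟨F, hF⟩ : ∃ F : ℝ → ℝ → ℝ, F = fun t y => Q.c0 + Q.ct * (c.1 + t * A.1 + y * B.1)
      + (cy 0 * (c.2.1 + t * A.2.1 + y * B.2.1) + cy 1 * (c.2.2 + t * A.2.2 + y * B.2.2)) + Q.ctt * (c.1 + t * A.1 + y * B.1) ^ 2
      + (c.1 + t * A.1 + y * B.1) * (cty 0 * (c.2.1 + t * A.2.1 + y * B.2.1) + cty 1 * (c.2.2 + t * A.2.2 + y * B.2.2))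
      + ((c.2.1 + t * A.2.1 + y * B.2.1) * (cyy 0 0 * (c.2.1 + t * A.2.1 + y * B.2.1) + cyy 0 1 * (c.2.2 + t * A.2.2 + y * B.2.2))
        + (c.2.2 + t * A.2.2 + y * B.2.2) * (cyy 1 0 * (c.2.1 + t * A.2.1 + y * B.2.1) + cyy 1 1 * (c.2.2 + t * A.2.2 + y * B.2.2))) := ⟨_, rfl⟩
  refine ⟨b, F, ⟨b 0 0, b 1 0 - b 0 0, b 0 1 - b 0 0, fun t y => ?_⟩,
    ⟨F 0 0, (F 1 0 - F (-1) 0) / 2, (F 0 1 - F 0 (-1)) / 2, (F 1 0 + F (-1) 0) / 2 - F 0 0, F 1 1 - F 1 0 - F 0 1 + F 0 0, (F 0 1 + F 0 (-1)) / 2 - F 0 0,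
      fun t y => ?_⟩, fun t y w => ?_⟩
  · rw [hb]
    ring
  · rw [hF]
    ring
  · obtain ⟨yv, hyv⟩ : ∃ yv : Fin 2 → ℝ, yv = (k7qB (k7pAff c A B t y)).2 := ⟨_, rfl⟩
    have e1 : (k7qB (k7pAff c A B t y)).1 = c.1 + t * A.1 + y * B.1 := by simp [k7qB, k7pAff]
    have e2 : yv 0 = c.2.1 + t * A.2.1 + y * B.2.1 := by
      rw [hyv]
      simp [k7qB, k7pAff]
    have e3 : yv 1 = c.2.2 + t * A.2.2 + y * B.2.2 := by
      rw [hyv]
      simp [k7qB, k7pAff]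
    rw [← hyv, hww, hT', e1, e2, e3, hb, hF]
    ring

theorem k7q_nf_dw {T : KbTest KbVer.two} {t : ℝ} {y : KbB KbVer.two} {a b e : ℝ} (h : ∀ w, T t y w = a * w ^ 2 + b * w + e) (w : ℝ) :
    kbDw T t y w = 2 * a * w + b := by
  unfold kbDw
  rw [h, h]
  ring

theorem k7q_nf_disc {T : KbTest KbVer.two} {t : ℝ} {y : KbB KbVer.two} {a b e : ℝ} (h : ∀ w, T t y w = a * w ^ 2 + b * w + e) :
    ksDisc T t y = b ^ 2 - 4 * a * e := by
  unfold ksDisc kbDw kbDww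
  simp only [h]
  ring

/-- a simple root: the discriminant is the square of the derivative -/
theorem k7q_root_sqrt (a b c G σ : ℝ) (hσ : σ = 1 ∨ σ = -1) (h0 : a * G ^ 2 + b * G + c = 0) (h1 : 0 < σ * (2 * a * G + b)) :
    0 < b ^ 2 - 4 * a * c ∧ b ^ 2 - 4 * a * c = (2 * a * G + b) ^ 2 ∧ Real.sqrt (b ^ 2 - 4 * a * c) = σ * (2 * a * G + b) := by
  have e : b ^ 2 - 4 * a * c = (2 * a * G + b) ^ 2 := by
    have hc : c = -(a * G ^ 2 + b * G) := by linarith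
    rw [hc]
    ring
  have hne : 2 * a * G + b ≠ 0 := by
    intro h
    rw [h, mul_zero] at h1
    exact lt_irrefl _ h1
  refine ⟨?_, e, ?_⟩
  · rw [e]
    positivity
  · rw [e, Real.sqrt_sq_eq_abs]
    rcases hσ with rfl | rfl
    · rw [one_mul] at h1 ⊢
      exact abs_of_pos h1
    · have : 2 * a * G + b < 0 := by linarith
      rw [abs_of_neg this]
      ring

/-- the value of a second quadratic at a simple root of the first, `a ≠ 0` -/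
theorem k7q_root_val (a b c a' b' c' G σ : ℝ) (ha : a ≠ 0) (hσ : σ = 1 ∨ σ = -1) (h0 : a * G ^ 2 + b * G + c = 0) (h1 : 0 < σ * (2 * a * G + b)) :
    a' * G ^ 2 + b' * G + c' = (a' * ((b ^ 2 - 4 * a * c) + b ^ 2) / (4 * a ^ 2) - b' * b / (2 * a) + c')
      + (σ * (b' / (2 * a) - a' * b / (2 * a ^ 2)) * (b ^ 2 - 4 * a * c) ^ 2) * Real.sqrt (b ^ 2 - 4 * a * c) / (b ^ 2 - 4 * a * c) ^ 2 := by
  obtain ⟨-, hD, hs⟩ := k7q_root_sqrt a b c G σ hσ h0 h1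
  have hne : 2 * a * G + b ≠ 0 := by
    intro h
    rw [h, mul_zero] at h1
    exact lt_irrefl _ h1
  rw [hs, hD]
  rcases hσ with rfl | rfl
  · field_simp
    ring
  · field_simp
    ring

/-- the same, `a = 0` -/
theorem k7q_root_val0 (b c a' b' c' G σ : ℝ) (hσ : σ = 1 ∨ σ = -1) (h0 : b * G + c = 0) (h1 : 0 < σ * b) :
    a' * G ^ 2 + b' * G + c' = c' + (σ * b * (a' * c ^ 2 - b' * c * b)) * Real.sqrt (b ^ 2) / (b ^ 2) ^ 2 := by
  have hb : b ≠ 0 := by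
    intro h
    rw [h, mul_zero] at h1
    exact lt_irrefl _ h1
  have hG : G = -c / b := by
    field_simp
    linarith
  have hs : Real.sqrt (b ^ 2) = σ * b := by
    rw [Real.sqrt_sq_eq_abs]
    rcases hσ with rfl | rfl
    · rw [one_mul] at h1 ⊢
      exact abs_of_pos h1
    · have : b < 0 := by linarith
      rw [abs_of_neg this]
      ring
  rw [hs, hG]
  rcases hσ with rfl | rfl
  · field_simp
    ring
  · field_simp
    ring

/-- three values control a quadratic polynomial of one variable near `0` -/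
theorem k7q_three (φ0 φ1 φ2 M s : ℝ) (h0 : |φ0| ≤ M) (h1 : |φ0 + φ1 + φ2| ≤ M) (h2 : |φ0 - φ1 + φ2| ≤ M) (hs : |s| ≤ 1) :
    |(φ0 + φ1 * s + φ2 * s ^ 2) - φ0| ≤ 3 * M * |s| := by
  have a0 := abs_le.1 h0
  have a1 := abs_le.1 h1
  have a2 := abs_le.1 h2
  have b1 : |φ1| ≤ M := abs_le.2 ⟨by linarith [a1.1, a2.2], by linarith [a1.2, a2.1]⟩
  have b2 : |φ2| ≤ 2 * M := abs_le.2 ⟨by linarith [a1.1, a2.1, a0.2], by linarith [a1.2, a2.2, a0.1]⟩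
  have e : (φ0 + φ1 * s + φ2 * s ^ 2) - φ0 = (φ1 + φ2 * s) * s := by ring
  rw [e, abs_mul]
  have hM : 0 ≤ M := (abs_nonneg _).trans h0
  have b3 : |φ1 + φ2 * s| ≤ 3 * M := by
    calc |φ1 + φ2 * s| ≤ |φ1| + |φ2 * s| := abs_add_le _ _
      _ = |φ1| + |φ2| * |s| := by rw [abs_mul]
      _ ≤ M + 2 * M * 1 := by gcongr
      _ = 3 * M := by ring
  gcongr

/-! ### A2 (leaf L-252-S7q-A2): packet coordinates against unit coordinates -/

section geo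

variable {R : KsRef KbVer.two} {K : ℝ} {s : ℝ}

theorem k7q_B_base (A : R.Par) (p : R.L × ℝ) : k7qB ((R.toW A s).base p) = R.base p := by
  refine Prod.ext rfl ?_
  funext i
  revert i
  refine Fin.forall_fin_two.2 ⟨?_, ?_⟩
  · show ksZ (R.co p.1).1 + ksZ (R.co p.1).2.1 * p.2 = (R.co p.1).1 (0 : Fin 2) + p.2 * (R.co p.1).2.1 (0 : Fin 2)
    unfold ksZ
    ring
  · show ksY (R.co p.1).1 + ksY (R.co p.1).2.1 * p.2 = (R.co p.1).1 (1 : Fin 2) + p.2 * (R.co p.1).2.1 (1 : Fin 2)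
    unfold ksY
    ring

/-- **unit coordinates are `2 K⁴`-Lipschitz in packet coordinates.**
PLAN.  `ks_tilt_unit` at `k7qB z`, `k7qB z'`, subtract: `(ksZ u - ksZ u') dZZ = (Z - Z') - (t - t') ksZ y1`, `(ksY u - ksY u') dYY = (Y - Y_Q(t,Z)) - (Y' - Y_Q(t',Z'))` (`k7a_ad_YQ`).   With `h = a (k s)`, `g = a (ℓ s)`, `δ = dist (pk z) (pk z')` (sup metric: `Prod.dist_eq`, `le_max_*`):
`|t - t'| ≤ h δ`, `|Z - Z'| ≤ h δ`, `|(Y - Y_Q) - (Y' - Y_Q')| ≤ h g δ`.   `h ≤ K q` (`q_lo`), `q ≤ K |dZZ|` (`Tilt.full`), `|ksZ y1| ≤ K` (`Tilt.cen`, `ksl8_abs_le_norm`), `b = h g ≤ K⁴ |dYY|` (`ks_tilt_size`, `ksl8_b_eq`).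
Sup metric on `ℝ × (Fin 2 → ℝ)`: `Prod.dist_eq`, `dist_pi_le_iff`, `Fin.forall_fin_two`. -/
theorem k7q_unit_dist (hR : R.Ok K) (hT : R.Tilt K) (A : R.Par) {Q : R.Lab} (hQ : R.dep Q = s) (z z' : ℝ × ℝ × ℝ) :
    dist (R.unit Q (k7qB z)) (R.unit Q (k7qB z'))
      ≤ 2 * K ^ 4 * dist (k7pPk (R.toW A s) (R.a (R.k * s)) (R.a (R.ell * s)) Q z) (k7pPk (R.toW A s) (R.a (R.k * s)) (R.a (R.ell * s)) Q z') := by
  have hK := hR.K_ge
  have hK0 : 0 < K := by linarith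
  have hq : 0 < R.q Q := ksl8_q_pos R Q
  obtain ⟨h, hh⟩ : ∃ h, h = R.a (R.k * s) := ⟨_, rfl⟩
  obtain ⟨g, hg⟩ : ∃ g, g = R.a (R.ell * s) := ⟨_, rfl⟩
  rw [← hh, ← hg]
  have hh0 : 0 < h := hh ▸ ksl8_a_pos hR _
  have hg0 : 0 < g := hg ▸ ksl8_a_pos hR _
  have hhq : h ≤ K * R.q Q := by
    have := hR.q_lo Q
    rw [hQ] at this
    rw [hh]
    exact this
  have hfull := hT.full Q
  have hb : h * g ≤ K ^ 4 * |R.dYY Q| := by
    have h1 := (ks_tilt_size hR hT Q).2.2.2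
    rw [ksl8_b_eq hR Q] at h1
    unfold KsRef.g at h1
    rw [hQ] at h1
    rw [hh, hg]
    exact h1
  have hy1 : |ksZ (R.ch Q).y1| ≤ K := by
    have h1 := (ksl8_abs_le_norm (R.ch Q).y1).1
    have h2 := hT.cen Q
    have h3 := norm_nonneg (R.ch Q).y0
    linarith
  obtain ⟨δ, hδ⟩ : ∃ δ, δ = dist (k7pPk (R.toW A s) h g Q z) (k7pPk (R.toW A s) h g Q z') := ⟨_, rfl⟩
  rw [← hδ]
  have hδ0 : 0 ≤ δ := hδ ▸ dist_nonneg
  have hle : dist (k7pPk (R.toW A s) h g Q z) (k7pPk (R.toW A s) h g Q z') ≤ δ := hδ.ge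
  rw [Prod.dist_eq, Prod.dist_eq, max_le_iff, max_le_iff, Real.dist_eq, Real.dist_eq, Real.dist_eq] at hle
  obtain ⟨d1, d2, d3⟩ := hle
  have c1 : |z.1 - z'.1| ≤ h * δ := by
    have e : (k7pPk (R.toW A s) h g Q z).1 - (k7pPk (R.toW A s) h g Q z').1 = (z.1 - z'.1) / h := by
      simp only [k7pPk]
      ring
    rw [e, abs_div, abs_of_pos hh0, div_le_iff₀ hh0] at d1
    linarith
  have c2 : |z.2.1 - z'.2.1| ≤ h * δ := by
    have e : (k7pPk (R.toW A s) h g Q z).2.1 - (k7pPk (R.toW A s) h g Q z').2.1 = (z.2.1 - z'.2.1) / h := by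
      simp only [k7pPk]
      ring
    rw [e, abs_div, abs_of_pos hh0, div_le_iff₀ hh0] at d2
    linarith
  have c3 : |(z.2.2 - R.YQ Q z.1 z.2.1) - (z'.2.2 - R.YQ Q z'.1 z'.2.1)| ≤ h * g * δ := by
    have e : (k7pPk (R.toW A s) h g Q z).2.2 - (k7pPk (R.toW A s) h g Q z').2.2
        = ((z.2.2 - R.YQ Q z.1 z.2.1) - (z'.2.2 - R.YQ Q z'.1 z'.2.1)) / (h * g) := by
      simp only [k7pPk, k7a_ad_YQ]
      ring
    have hhg : 0 < h * g := mul_pos hh0 hg0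
    rw [e, abs_div, abs_of_pos hhg, div_le_iff₀ hhg] at d3
    linarith
  obtain ⟨u1, u2⟩ := ks_tilt_unit hR hT Q (k7qB z)
  obtain ⟨u1', u2'⟩ := ks_tilt_unit hR hT Q (k7qB z')
  have hK4 : K ≤ K ^ 4 := by
    calc K = K ^ 1 := (pow_one K).symm
      _ ≤ K ^ 4 := pow_le_pow_right₀ hK (by norm_num)
  have hK34 : K ^ 3 ≤ K ^ 4 := pow_le_pow_right₀ hK (by norm_num)
  have hr : 0 ≤ 2 * K ^ 4 * δ := by positivity
  rw [Prod.dist_eq, max_le_iff]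
  constructor
  · rw [Real.dist_eq]
    have e : (R.unit Q (k7qB z)).1 - (R.unit Q (k7qB z')).1 = (z.1 - z'.1) / R.q Q := by
      simp only [KsRef.unit, k7qB]
      ring
    rw [e, abs_div, abs_of_pos hq, div_le_iff₀ hq]
    calc |z.1 - z'.1| ≤ h * δ := c1
      _ ≤ K * R.q Q * δ := mul_le_mul_of_nonneg_right hhq hδ0
      _ = K * (δ * R.q Q) := by ring
      _ ≤ K ^ 4 * (δ * R.q Q) := mul_le_mul_of_nonneg_right hK4 (by positivity)
      _ ≤ 2 * K ^ 4 * δ * R.q Q := by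
          have : 0 ≤ K ^ 4 * (δ * R.q Q) := by positivity
          linarith
  · refine (dist_pi_le_iff hr).2 ?_
    refine Fin.forall_fin_two.2 ⟨?_, ?_⟩
    · rw [Real.dist_eq]
      show |ksZ (R.unit Q (k7qB z)).2 - ksZ (R.unit Q (k7qB z')).2| ≤ 2 * K ^ 4 * δ
      have hD : 0 < |R.dZZ Q| := by
        by_contra hcon
        have : |R.dZZ Q| = 0 := le_antisymm (not_lt.1 hcon) (abs_nonneg _)
        rw [this, mul_zero] at hfull
        linarith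
      have e : (ksZ (R.unit Q (k7qB z)).2 - ksZ (R.unit Q (k7qB z')).2) * R.dZZ Q = (z.2.1 - z'.2.1) - (z.1 - z'.1) * ksZ (R.ch Q).y1 := by
        have hyc : ∀ t, ksZ ((R.ch Q).yc t) = ksZ (R.ch Q).y0 + t * ksZ (R.ch Q).y1 := fun t => rfl
        have hz1 : ksZ (k7qB z).2 = z.2.1 := rfl
        have hz2 : ksZ (k7qB z').2 = z'.2.1 := rfl
        have hz3 : (k7qB z).1 = z.1 := rfl
        have hz4 : (k7qB z').1 = z'.1 := rfl
        rw [sub_mul, u1, u1', hyc, hyc, hz1, hz2, hz3, hz4]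
        ring
      have e2 : |ksZ (R.unit Q (k7qB z)).2 - ksZ (R.unit Q (k7qB z')).2| * |R.dZZ Q| ≤ 2 * K * (h * δ) := by
        rw [← abs_mul, e]
        refine (abs_sub _ _).trans ?_
        rw [abs_mul]
        have : |z.1 - z'.1| * |ksZ (R.ch Q).y1| ≤ h * δ * K := mul_le_mul c1 hy1 (abs_nonneg _) (by positivity)
        have h6 : h * δ ≤ K * (h * δ) := le_mul_of_one_le_left (by positivity) hK
        linarith
      have e3 : h ≤ K ^ 2 * |R.dZZ Q| := by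
        calc h ≤ K * R.q Q := hhq
          _ ≤ K * (K * |R.dZZ Q|) := mul_le_mul_of_nonneg_left hfull hK0.le
          _ = K ^ 2 * |R.dZZ Q| := by ring
      have e4 : |ksZ (R.unit Q (k7qB z)).2 - ksZ (R.unit Q (k7qB z')).2| * |R.dZZ Q| ≤ 2 * K ^ 4 * δ * |R.dZZ Q| := by
        refine e2.trans ?_
        have : 2 * K * (h * δ) ≤ 2 * K * (K ^ 2 * |R.dZZ Q| * δ) := by gcongr
        refine this.trans ?_
        have h5 : 0 ≤ δ * |R.dZZ Q| := by positivity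
        calc 2 * K * (K ^ 2 * |R.dZZ Q| * δ) = 2 * K ^ 3 * (δ * |R.dZZ Q|) := by ring
          _ ≤ 2 * K ^ 4 * (δ * |R.dZZ Q|) := by gcongr
          _ = 2 * K ^ 4 * δ * |R.dZZ Q| := by ring
      exact le_of_mul_le_mul_right e4 hD
    · rw [Real.dist_eq]
      show |ksY (R.unit Q (k7qB z)).2 - ksY (R.unit Q (k7qB z')).2| ≤ 2 * K ^ 4 * δ
      have hD : 0 < |R.dYY Q| := by
        by_contra hcon
        have : |R.dYY Q| = 0 := le_antisymm (not_lt.1 hcon) (abs_nonneg _)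
        rw [this, mul_zero] at hb
        have := mul_pos hh0 hg0
        linarith
      have e : (ksY (R.unit Q (k7qB z)).2 - ksY (R.unit Q (k7qB z')).2) * R.dYY Q = (z.2.2 - R.YQ Q z.1 z.2.1) - (z'.2.2 - R.YQ Q z'.1 z'.2.1) := by
        rw [sub_mul, u2, u2']
        rfl
      have e4 : |ksY (R.unit Q (k7qB z)).2 - ksY (R.unit Q (k7qB z')).2| * |R.dYY Q| ≤ 2 * K ^ 4 * δ * |R.dYY Q| := by
        rw [← abs_mul, e]
        refine c3.trans ?_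
        have : h * g * δ ≤ K ^ 4 * |R.dYY Q| * δ := mul_le_mul_of_nonneg_right hb hδ0
        refine this.trans ?_
        have h5 : 0 ≤ K ^ 4 * (δ * |R.dYY Q|) := by positivity
        linarith
      exact le_of_mul_le_mul_right e4 hD

/-- the neighbourhood of radius `1 / (4 K⁵)` lies in the used interior of the entry (`k7q_unit_dist`, `ent_cov` (core), `ent_rad`, `k7q_B_base`) -/
theorem k7q_nb_int (hR : R.Ok K) (hT : R.Tilt K) (A : R.Par) (hs : s ∈ R.depths) {p : R.L × ℝ} (hp : p ∈ R.Ev0) {z : ℝ × ℝ × ℝ}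
    (hz : z ∈ k7pNb (R.toW A s) (R.a (R.k * s)) (R.a (R.ell * s)) (1 / (4 * K ^ 5)) p) : R.unit (R.eLab (R.ent s p)) (k7qB z) ∈ R.eInt (R.ent s p) := by
  have hK := hR.K_ge
  have hK0 : 0 < K := by linarith
  have hdep : R.dep (R.eLab (R.ent s p)) = s := (hR.lab s hs p hp).1
  have hz' : dist (k7pPk (R.toW A s) (R.a (R.k * s)) (R.a (R.ell * s)) (R.eLab (R.ent s p)) z)
      (k7pPk (R.toW A s) (R.a (R.k * s)) (R.a (R.ell * s)) (R.eLab (R.ent s p)) ((R.toW A s).base p)) ≤ 1 / (4 * K ^ 5) := hz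
  have h1 := k7q_unit_dist hR hT A hdep z ((R.toW A s).base p)
  rw [k7q_B_base] at h1
  have h2 : dist (R.unit (R.eLab (R.ent s p)) (R.base p)) (R.eCtr (R.ent s p)) ≤ R.eRad (R.ent s p) := ((hR.ent_cov s hs p hp).1).2
  have h3 := hR.ent_rad (R.ent s p)
  have h4 : 2 * K ^ 4 * (1 / (4 * K ^ 5)) = 1 / (2 * K) := by
    field_simp
    ring
  have h5 : 1 / (2 * K) < R.eRad (R.ent s p) := by
    rw [div_lt_iff₀ (by positivity)]
    nlinarith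
  show dist (R.unit (R.eLab (R.ent s p)) (k7qB z)) (R.eCtr (R.ent s p)) < 2 * R.eRad (R.ent s p)
  have h6 : 2 * K ^ 4 * dist (k7pPk (R.toW A s) (R.a (R.k * s)) (R.a (R.ell * s)) (R.eLab (R.ent s p)) z)
      (k7pPk (R.toW A s) (R.a (R.k * s)) (R.a (R.ell * s)) (R.eLab (R.ent s p)) ((R.toW A s).base p)) ≤ 2 * K ^ 4 * (1 / (4 * K ^ 5)) :=
    mul_le_mul_of_nonneg_left hz' (by positivity)
  have h7 := dist_triangle (R.unit (R.eLab (R.ent s p)) (k7qB z)) (R.unit (R.eLab (R.ent s p)) (R.base p)) (R.eCtr (R.ent s p))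
  linarith

/-- packet coordinates are affine: dilation of the neighbourhood about its centre -/
theorem k7q_nb_dil (W : K7aW) (h g ρ lam σ : ℝ) (hlam : 0 ≤ lam) (hσ : |σ| ≤ 1) (p : W.L × ℝ) {z : ℝ × ℝ × ℝ} (hz : z ∈ k7pNb W h g ρ p) :
    k7pAff (W.base p) (lam • (z - W.base p)) 0 σ 0 ∈ k7pNb W h g (lam * ρ) p := by
  have hz' : dist (k7pPk W h g (W.labQ p) z) (k7pPk W h g (W.labQ p) (W.base p)) ≤ ρ := hz
  show dist (k7pPk W h g (W.labQ p) (k7pAff (W.base p) (lam • (z - W.base p)) 0 σ 0)) (k7pPk W h g (W.labQ p) (W.base p)) ≤ lam * ρ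
  rw [Prod.dist_eq, Prod.dist_eq, max_le_iff, max_le_iff, Real.dist_eq, Real.dist_eq, Real.dist_eq] at hz' ⊢
  obtain ⟨h1, h2, h3⟩ := hz'
  have key : ∀ x : ℝ, |x| ≤ ρ → |σ * lam * x| ≤ lam * ρ := fun x hx => by
    rw [abs_mul, abs_mul, abs_of_nonneg hlam]
    calc |σ| * lam * |x| ≤ 1 * lam * ρ := by
          have : 0 ≤ ρ := (abs_nonneg _).trans hx
          gcongr
      _ = lam * ρ := by ring
  refine ⟨?_, ?_, ?_⟩
  · refine le_of_eq_of_le (congrArg _ ?_) (key _ h1)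
    simp only [k7pPk, k7pAff, Prod.fst_add, Prod.smul_fst, Prod.fst_sub, smul_eq_mul, Prod.fst_zero, mul_zero, add_zero]
    ring
  · refine le_of_eq_of_le (congrArg _ ?_) (key _ h2)
    simp only [k7pPk, k7pAff, Prod.fst_add, Prod.snd_add, Prod.smul_fst, Prod.smul_snd, Prod.fst_sub, Prod.snd_sub, smul_eq_mul, Prod.fst_zero, Prod.snd_zero,
      mul_zero, add_zero]
    ring
  · refine le_of_eq_of_le (congrArg _ ?_) (key _ h3)
    simp only [k7pPk, k7pAff, K7aW.YQ, Prod.fst_add, Prod.snd_add, Prod.smul_fst, Prod.smul_snd, Prod.fst_sub, Prod.snd_sub, smul_eq_mul, Prod.fst_zero, Prod.snd_zero,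
      mul_zero, add_zero]
    ring

end geo

/-! ### A3 (leaf L-252-S7q-A3): the entries in parent coordinates; stability of the discriminant -/

section ent

variable {R : KsRef KbVer.two} {K : ℝ} {s : ℝ}

theorem k7q_eF_unit (hR : R.Ok K) (A : R.Par) (e : R.Ent) (z : ℝ × ℝ × ℝ) : (R.k7qGr A s).eF e z = R.eF e (R.unit (R.eLab e) (k7qB z)) := by
  unfold KsRef.eF KsRef.onG
  rw [ks_ofUnit_unit hR]
  rfl

/-- (`ent_root`, `ks_ofUnit_unit`) -/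
theorem k7q_root_at (hR : R.Ok K) (e : R.Ent) (hk : R.eKind e ≠ KsKind.centre) {z : ℝ × KbB KbVer.two} (hz : R.unit (R.eLab e) z ∈ R.eInt e) :
    R.tst (R.eLab e) z.1 z.2 (R.eG e z) = 0 ∧ 1 ≤ K * ((R.eKind e).sgn * kbDw (R.tst (R.eLab e)) z.1 z.2 (R.eG e z)) ∧
      |kbDw (R.tst (R.eLab e)) z.1 z.2 (R.eG e z)| ≤ K := by
  have h := hR.ent_root e hk _ hz
  unfold KsRef.onG at h
  rw [ks_ofUnit_unit hR] at h
  exact h

/-- (`ent_ctr`, `ks_ofUnit_unit`) -/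
theorem k7q_ctr_at (hR : R.Ok K) (e : R.Ent) (hk : R.eKind e = KsKind.centre) {z : ℝ × KbB KbVer.two} (hz : R.unit (R.eLab e) z ∈ R.eInt e) :
    kbDw (R.tst (R.eLab e)) z.1 z.2 (R.eG e z) = 0 := by
  have h := hR.ent_ctr e hk _ hz
  unfold KsRef.onG at h
  rw [ks_ofUnit_unit hR] at h
  exact h

theorem k7q_base_int (hR : R.Ok K) (hs : s ∈ R.depths) {p : R.L × ℝ} (hp : p ∈ R.Ev0) : R.unit (R.eLab (R.ent s p)) (R.base p) ∈ R.eInt (R.ent s p) := by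
  have h1 : R.base p ∈ R.core (R.ent s p) := ((hR.ent_cov s hs p hp).1).2
  have h2 : dist (R.unit (R.eLab (R.ent s p)) (R.base p)) (R.eCtr (R.ent s p)) ≤ R.eRad (R.ent s p) := h1
  have h3 := hR.ent_rad (R.ent s p)
  have hK : 0 < K := lt_of_lt_of_le one_pos hR.K_ge
  have h4 : 0 < R.eRad (R.ent s p) := by
    by_contra hcon
    push Not at hcon
    nlinarith
  show dist _ _ < 2 * R.eRad (R.ent s p)
  linarith

/-- a centre entry which carries a retained incidence has a genuinely quadratic fitted test.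
PLAN.  If `kbDww T 0 0 0 = 0`, then `kbDw T t y w` does not depend on `w` (`ks_quad_taylor` or `k7q_nf` with `A = B = 0`), so `k7q_ctr_at` at `z = R.base p` (in the interior: `k7q_nb_int` at the centre, or directly `ent_cov` + `ent_rad`) contradicts `tst_lo` at `p` (`p ∈ inc (labAt s p)`: `hR.lab`). -/
theorem k7q_ctr_ne (hR : R.Ok K) (hs : s ∈ R.depths) {p : R.L × ℝ} (hp : p ∈ R.Ev0) (hk : R.eKind (R.ent s p) = KsKind.centre) :
    kbDww (R.tst (R.eLab (R.ent s p))) 0 0 0 ≠ 0 := by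
  intro h0
  have hq : KbIsQuad (R.tst (R.eLab (R.ent s p))) := (hR.tst_adm _).1
  have h1 := k7q_ctr_at hR (R.ent s p) hk (k7q_base_int hR hs hp)
  have hlab := hR.lab s hs p hp
  have h2 := hR.tst_lo (R.eLab (R.ent s p)) p ⟨hp, hlab.2⟩
  obtain ⟨Q, hQ⟩ := hq
  have h3 : Q.cww = 0 := by
    have : kbDww (R.tst (R.eLab (R.ent s p))) 0 0 0 = 2 * Q.cww := by
      simp only [kbDww, hQ, KbQuad.ev]
      ring
    rw [this] at h0
    linarith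
  have h4 : ∀ t y w w', kbDw (R.tst (R.eLab (R.ent s p))) t y w = kbDw (R.tst (R.eLab (R.ent s p))) t y w' := by
    intro t y w w'
    simp only [kbDw, hQ, KbQuad.ev, h3]
    ring
  have h5 : R.ev (kbDw (R.tst (R.eLab (R.ent s p)))) p.1 p.2 = 0 := by
    rw [← h1]
    exact h4 _ _ _ _
  rw [h5] at h2
  simp at h2
  linarith

theorem k7q_pt_nf {T : KbTest KbVer.two} (hT : KbIsQuad T) (t : ℝ) (y : KbB KbVer.two) : ∃ b c : ℝ, ∀ w, T t y w = kbDww T 0 0 0 / 2 * w ^ 2 + b * w + c := by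
  obtain ⟨Q, hQ⟩ := hT
  refine ⟨Q.cw + Q.ctw * t + Q.cyw ⬝ᵥ y, Q.c0 + Q.ct * t + Q.cy ⬝ᵥ y + Q.ctt * t ^ 2 + t * (Q.cty ⬝ᵥ y) + y ⬝ᵥ Q.cyy.mulVec y, fun w => ?_⟩
  simp only [kbDww, hQ, KbQuad.ev]
  ring

theorem k7q_sgn (k : KsKind) (hk : k ≠ KsKind.centre) : k.sgn = 1 ∨ k.sgn = -1 := by
  cases k
  · exact Or.inl rfl
  · exact Or.inr rfl
  · exact absurd rfl hk

theorem k7q_disc_bd (hR : R.Ok K) (e : R.Ent) (hk : R.eKind e ≠ KsKind.centre) {z : ℝ × KbB KbVer.two} (hz : R.unit (R.eLab e) z ∈ R.eInt e) :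
    1 / K ^ 2 ≤ ksDisc (R.tst (R.eLab e)) z.1 z.2 ∧ ksDisc (R.tst (R.eLab e)) z.1 z.2 ≤ K ^ 2 := by
  have hK : 0 < K := lt_of_lt_of_le one_pos hR.K_ge
  obtain ⟨r1, r2, r3⟩ := k7q_root_at hR e hk hz
  obtain ⟨b, c, hn⟩ := k7q_pt_nf (hR.tst_adm (R.eLab e)).1 z.1 z.2
  rw [k7q_nf_disc hn]
  rw [k7q_nf_dw hn] at r2 r3
  rw [hn] at r1
  obtain ⟨a, ha⟩ : ∃ a : ℝ, a = kbDww (R.tst (R.eLab e)) 0 0 0 / 2 := ⟨_, rfl⟩
  obtain ⟨G, hG⟩ : ∃ G : ℝ, G = R.eG e z := ⟨_, rfl⟩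
  obtain ⟨σ, hσ⟩ : ∃ σ : ℝ, σ = (R.eKind e).sgn := ⟨_, rfl⟩
  rw [← ha, ← hG] at r1 r3
  rw [← ha, ← hG, ← hσ] at r2
  rw [← ha]
  have hσ2 : σ ^ 2 = 1 := by
    rcases k7q_sgn _ hk with h | h <;> rw [hσ, h] <;> norm_num
  have e1 : b ^ 2 - 4 * a * c = (σ * (2 * a * G + b)) ^ 2 := by
    rw [mul_pow, hσ2]
    linear_combination (-4 * a) * r1
  rw [e1]
  have h1 : 1 / K ≤ σ * (2 * a * G + b) := by
    rw [div_le_iff₀ hK]
    linarith
  have h2 : |σ * (2 * a * G + b)| ≤ K := by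
    rw [abs_mul]
    have : |σ| = 1 := by
      rcases k7q_sgn _ hk with h | h <;> rw [hσ, h] <;> norm_num
    rw [this, one_mul]
    exact r3
  constructor
  · have : 1 / K ^ 2 = (1 / K) ^ 2 := by rw [div_pow, one_pow]
    rw [this]
    exact pow_le_pow_left₀ (by positivity) h1 2
  · exact sq_le_sq' (by linarith [(abs_le.1 h2).1]) (abs_le.1 h2).2

/-- **the discriminant of a root entry is stable (factor 2) on the neighbourhood of radius `1 / (24 K⁹)`.**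
PLAN.  `T = tst (eLab e)`, `e = ent s p`, `z0 = W.base p`.   On the BIG neighbourhood (radius `1/(4K⁵)`): `ksDisc T = (kbDw T (z, G z))²  ∈ [1/K², K²]` (`k7q_nb_int`, `k7q_root_at`, `k7q_nf` + `k7q_nf_dw`, `k7q_nf_disc`, `k7q_root_sqrt`).
For `z` in the small one: `lam = 6 K⁴`, `φ σ = ksDisc T (k7qB (k7pAff z0 (lam • (z - z0)) 0 σ 0))` is a quadratic polynomial of `σ` (`k7q_nf`, `k7q_nf_disc`: `b` affine, `e` quadratic, `y = 0`), `|φ (±1)|, |φ 0| ≤ K²` (`k7q_nb_dil`: `lam / (24 K⁹) = 1/(4K⁵)`),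
`z = k7pAff .. (1/lam) 0`;  `k7q_three` with `M = K²`, `s = 1/lam`: `|φ (1/lam) - φ 0| ≤ 3 K² / (6 K⁴) = 1/(2K²) ≤ φ 0 / 2`. -/
theorem k7q_disc_stable (hR : R.Ok K) (hT : R.Tilt K) (A : R.Par) (hs : s ∈ R.depths) {p : R.L × ℝ} (hp : p ∈ R.Ev0) (hk : R.eKind (R.ent s p) ≠ KsKind.centre) :
    0 < ksDisc (R.tst (R.eLab (R.ent s p))) (R.base p).1 (R.base p).2 ∧
      ∀ z ∈ k7pNb (R.toW A s) (R.a (R.k * s)) (R.a (R.ell * s)) (1 / (24 * K ^ 9)) p,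
        |ksDisc (R.tst (R.eLab (R.ent s p))) (k7qB z).1 (k7qB z).2 - ksDisc (R.tst (R.eLab (R.ent s p))) (R.base p).1 (R.base p).2|
          ≤ ksDisc (R.tst (R.eLab (R.ent s p))) (R.base p).1 (R.base p).2 / 2 := by
  have hK1 := hR.K_ge
  have hK : 0 < K := lt_of_lt_of_le one_pos hK1
  have hb0 := k7q_disc_bd hR (R.ent s p) hk (k7q_base_int hR hs hp)
  have hpos : 0 < ksDisc (R.tst (R.eLab (R.ent s p))) (R.base p).1 (R.base p).2 := lt_of_lt_of_le (by positivity) hb0.1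
  refine ⟨hpos, fun z hz => ?_⟩
  obtain ⟨T, hTdef⟩ : ∃ T, T = R.tst (R.eLab (R.ent s p)) := ⟨_, rfl⟩
  rw [← hTdef] at hb0 hpos ⊢
  have hq : KbIsQuad T := hTdef ▸ (hR.tst_adm _).1
  obtain ⟨z0, hz0⟩ : ∃ z0, z0 = (R.toW A s).base p := ⟨_, rfl⟩
  have hBz0 : k7qB z0 = R.base p := by rw [hz0]; exact k7q_B_base A p
  obtain ⟨lam, hlam⟩ : ∃ lam : ℝ, lam = 6 * K ^ 4 := ⟨_, rfl⟩
  have hlam0 : 0 < lam := by rw [hlam]; positivity
  have hlam1 : 1 ≤ lam := by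
    rw [hlam]
    have : 1 ≤ K ^ 4 := one_le_pow₀ hK1
    linarith
  -- the big neighbourhood
  have hbig : ∀ σ : ℝ, |σ| ≤ 1 → |ksDisc T (k7qB (k7pAff z0 (lam • (z - z0)) 0 σ 0)).1 (k7qB (k7pAff z0 (lam • (z - z0)) 0 σ 0)).2| ≤ K ^ 2 := by
    intro σ hσ
    have h1 := k7q_nb_dil (R.toW A s) (R.a (R.k * s)) (R.a (R.ell * s)) (1 / (24 * K ^ 9)) lam σ hlam0.le hσ p hz
    have h2 : lam * (1 / (24 * K ^ 9)) = 1 / (4 * K ^ 5) := by
      rw [hlam]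
      field_simp
      ring
    rw [h2, ← hz0] at h1
    have h3 := k7q_disc_bd hR (R.ent s p) hk (k7q_nb_int hR hT A hs hp h1)
    rw [← hTdef] at h3
    rw [abs_of_nonneg (le_trans (by positivity) h3.1)]
    exact h3.2
  obtain ⟨b, e, ⟨b0, b1, b2, hb⟩, ⟨e0, e1, e2, e3, e4, e5, he⟩, hn⟩ := k7q_nf hq z0 (lam • (z - z0)) 0
  obtain ⟨a, ha⟩ : ∃ a : ℝ, a = kbDww T 0 0 0 / 2 := ⟨_, rfl⟩
  rw [← ha] at hn
  have hφ : ∀ σ : ℝ, ksDisc T (k7qB (k7pAff z0 (lam • (z - z0)) 0 σ 0)).1 (k7qB (k7pAff z0 (lam • (z - z0)) 0 σ 0)).2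
      = (b0 ^ 2 - 4 * a * e0) + (2 * b0 * b1 - 4 * a * e1) * σ + (b1 ^ 2 - 4 * a * e3) * σ ^ 2 := by
    intro σ
    rw [k7q_nf_disc (hn σ 0), hb, he]
    ring
  have hL0 : k7pAff z0 (lam • (z - z0)) 0 0 0 = z0 := by simp [k7pAff]
  have hL1 : k7pAff z0 (lam • (z - z0)) 0 (1 / lam) 0 = z := by
    simp [k7pAff, smul_smul, hlam0.ne']
  have g0 := hbig 0 (by norm_num)
  have g1 := hbig 1 (by norm_num)
  have g2 := hbig (-1) (by norm_num)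
  rw [hφ] at g0 g1 g2
  have hs1 : |1 / lam| ≤ 1 := by
    rw [abs_of_pos (by positivity), div_le_one hlam0]
    exact hlam1
  have key := k7q_three (b0 ^ 2 - 4 * a * e0) (2 * b0 * b1 - 4 * a * e1) (b1 ^ 2 - 4 * a * e3) (K ^ 2) (1 / lam)
    (by simpa using g0) (by simpa using g1) (by
      have : (b0 ^ 2 - 4 * a * e0) + (2 * b0 * b1 - 4 * a * e1) * (-1) + (b1 ^ 2 - 4 * a * e3) * (-1) ^ 2
          = (b0 ^ 2 - 4 * a * e0) - (2 * b0 * b1 - 4 * a * e1) + (b1 ^ 2 - 4 * a * e3) := by ring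
      rwa [this] at g2) hs1
  have hz' := hφ (1 / lam)
  rw [hL1] at hz'
  have hz0' := hφ 0
  rw [hL0, hBz0] at hz0'
  have hz0'' : ksDisc T (R.base p).1 (R.base p).2 = b0 ^ 2 - 4 * a * e0 := by
    rw [hz0']
    ring
  rw [hz', hz0'']
  refine key.trans ?_
  rw [← hz0'']
  have h5 : 3 * K ^ 2 * |1 / lam| = 1 / K ^ 2 / 2 := by
    rw [abs_of_pos (by positivity), hlam]
    field_simp
    ring
  rw [h5]
  linarith [hb0.1]

/-! ### A4 (leaf L-252-S7q-A4): measurability, the sheets -/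

theorem k7q_sh_ev_meas {Ω : Type*} [MeasurableSpace Ω] (Q : KbQuad KbVer.two) {f1 : Ω → ℝ} {f2 : Ω → KbB KbVer.two} {f3 : Ω → ℝ}
    (h1 : Measurable f1) (h2 : Measurable f2) (h3 : Measurable f3) : Measurable (fun x => Q.ev (f1 x) (f2 x) (f3 x)) := by
  have h : Continuous (fun x : ℝ × KbB KbVer.two × ℝ => Q.ev x.1 x.2.1 x.2.2) := by
    unfold KbQuad.ev
    simp only [dotProduct, Matrix.mulVec]
    fun_prop
  have h4 := h.measurable.comp (h1.prodMk (h2.prodMk h3))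
  exact h4

theorem k7q_sh_B_meas : Measurable k7qB := by
  have h : Continuous k7qB := by
    unfold k7qB
    refine continuous_fst.prodMk ?_
    refine continuous_pi fun i => ?_
    have key : ∀ i : Fin 2, Continuous fun z : ℝ × ℝ × ℝ => (![z.2.1, z.2.2] : Fin 2 → ℝ) i := by
      intro i
      fin_cases i
      · exact continuous_fst.comp continuous_snd
      · exact continuous_snd.comp continuous_snd
    exact key i
  exact h.measurable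

/-- (`nat_adm`, `m_eG`; `obtain ⟨Q, hQ⟩`, `simp only [hQ, KbQuad.ev, dotProduct, Matrix.mulVec, Fin.sum_univ_two]`, `fun_prop` / `Measurable.add` ..; `z ↦ k7qB z` is measurable: `measurable_pi_iff`, `Fin.forall_fin_two`) -/
theorem k7q_m_eF (hR : R.Ok K) (A : R.Par) (e : R.Ent) : Measurable ((R.k7qGr A s).eF e) := by
  obtain ⟨Q, hQ⟩ := (hR.nat_adm (R.lpar (R.eLab e))).1
  show Measurable (fun z => R.nat (R.lpar (R.eLab e)) (k7qB z).1 (k7qB z).2 (R.eG e (k7qB z)))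
  simp only [hQ]
  exact k7q_sh_ev_meas Q (f1 := fun z => (k7qB z).1) (f2 := fun z => (k7qB z).2) (f3 := fun z => R.eG e (k7qB z))
    (measurable_fst.comp k7q_sh_B_meas) (measurable_snd.comp k7q_sh_B_meas) ((hR.m_eG e).comp k7q_sh_B_meas)

theorem k7q_sh_smul {d : ℕ} (x : ℝ) {f : (Fin 2 → ℝ) → ℝ} (hf : f ∈ k3cPolC 2 d) : (fun u => x * f u) ∈ k3cPolC 2 d := by
  have h := k7q_pol_mul (k7q_pol_const x 0) hf
  rw [zero_add] at h
  exact h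

/-- **plane sections of the predictions are sheets.**
PLAN.  `e = ent s p`, `T = tst (eLab e)`, `P = nat (lpar (eLab e))`; `k7q_nf` for `T` and for `P` on the plane `(c, A', B)`: `(a, b, e)`, `(a', b', e')`.   `k7q_mem` (measurable: `k7q_m_eF` composed with the affine map).   The small neighbourhood lies in the big one, so `k7q_nb_int` holds on the square.
* root kind, `a ≠ 0`: `k7q_root_val`; `fD = b² - 4 a e`, `fα`, `fβ` as there (degrees `2, 2, 1 + 4`): `k7q_pol_*`;   * root kind, `a = 0`: `k7q_root_val0`, `fD = b²` (`= b² - 4 a e`), `fβ = σ b (a' e² - b' e b)` (degree `5`);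
  stability: `k7q_disc_stable`, `D0 = ksDisc T (base p)`, `k7q_nf_disc`;   `σ = (eKind e).sgn = ±1`, `0 < σ (2 a G + b)` from `1 ≤ K * ..`.
* centre: `a ≠ 0` (`k7q_ctr_ne`), `G = -b/(2a)`, `fα = a' b²/(4a²) - b' b/(2a) + e'`, `fβ = 0`, `fD = 1`, `D0 = 1`. -/
theorem k7q_sheet (hR : R.Ok K) (hT : R.Tilt K) (A : R.Par) (hs : s ∈ R.depths) {p : R.L × ℝ} (hp : p ∈ R.Ev0) (c A' B : ℝ × ℝ × ℝ)
    (h : ∀ t ∈ Set.Icc (-1 : ℝ) 2, ∀ y ∈ Set.Icc (-1 : ℝ) 2, k7pAff c A' B t y ∈ k7pNb (R.toW A s) (R.a (R.k * s)) (R.a (R.ell * s)) (1 / (24 * K ^ 9)) p) :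
    (fun t y => (R.k7qGr A s).eF (R.ent s p) (k7pAff c A' B t y)) ∈ k7qSh := by
  have hK1 : 1 ≤ K := hR.K_ge
  have hK0 : 0 < K := by linarith
  obtain ⟨b, eT, hb, heT, hTn⟩ := k7q_nf (hR.tst_adm (R.eLab (R.ent s p))).1 c A' B
  obtain ⟨b', eP, hb', heP, hPn⟩ := k7q_nf (hR.nat_adm (R.lpar (R.eLab (R.ent s p)))).1 c A' B
  obtain ⟨a, ha⟩ : ∃ a : ℝ, a = kbDww (R.tst (R.eLab (R.ent s p))) 0 0 0 / 2 := ⟨_, rfl⟩
  obtain ⟨a', ha'⟩ : ∃ a' : ℝ, a' = kbDww (R.nat (R.lpar (R.eLab (R.ent s p)))) 0 0 0 / 2 := ⟨_, rfl⟩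
  rw [← ha] at hTn
  rw [← ha'] at hPn
  obtain ⟨G, hG⟩ : ∃ G : ℝ → ℝ → ℝ, G = fun t y => R.eG (R.ent s p) (k7qB (k7pAff c A' B t y)) := ⟨_, rfl⟩
  have hF : ∀ t y, (R.k7qGr A s).eF (R.ent s p) (k7pAff c A' B t y) = a' * G t y ^ 2 + b' t y * G t y + eP t y := by
    intro t y
    rw [hG]
    exact hPn t y _
  have hint : ∀ t ∈ Set.Icc (-1 : ℝ) 2, ∀ y ∈ Set.Icc (-1 : ℝ) 2,
      R.unit (R.eLab (R.ent s p)) (k7qB (k7pAff c A' B t y)) ∈ R.eInt (R.ent s p) := by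
    intro t ht y hy
    refine k7q_nb_int hR hT A hs hp ?_
    have h1 := h t ht y hy
    have h2 : (1 : ℝ) / (24 * K ^ 9) ≤ 1 / (4 * K ^ 5) := by
      refine one_div_le_one_div_of_le (by positivity) ?_
      have h3 : K ^ 5 ≤ K ^ 9 := pow_le_pow_right₀ hK1 (by norm_num)
      nlinarith [pow_pos hK0 9]
    exact le_trans h1 h2
  have hm : Measurable (k7qU fun t y => (R.k7qGr A s).eF (R.ent s p) (k7pAff c A' B t y)) := by
    have h1 : Continuous (fun u : Fin 2 → ℝ => k7pAff c A' B (u 0) (u 1)) := by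
      unfold k7pAff
      fun_prop
    have h2 := (k7q_m_eF (s := s) hR A (R.ent s p)).comp h1.measurable
    exact h2
  have pb := k7q_pol_af hb
  have pb' := k7q_pol_af hb'
  have peT := k7q_pol_quad heT
  have peP := k7q_pol_quad heP
  show k7qU _ ∈ k3cShC 2 5 2 2 (fun _ => 0) (fun _ => 1)
  have hIoo : ∀ u : Fin 2 → ℝ, (∀ i, u i ∈ Set.Ioo (-1 : ℝ) 2) → u 0 ∈ Set.Icc (-1 : ℝ) 2 ∧ u 1 ∈ Set.Icc (-1 : ℝ) 2 :=
    fun u hu => ⟨Set.Ioo_subset_Icc_self (hu 0), Set.Ioo_subset_Icc_self (hu 1)⟩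
  have hIcc : ∀ u ∈ Set.Icc (fun _ => 0 : Fin 2 → ℝ) (fun _ => 1), u 0 ∈ Set.Icc (-1 : ℝ) 2 ∧ u 1 ∈ Set.Icc (-1 : ℝ) 2 := by
    intro u hu
    have h0 : (0 : ℝ) ≤ u 0 := hu.1 0
    have h1 : u 0 ≤ (1 : ℝ) := hu.2 0
    have h2 : (0 : ℝ) ≤ u 1 := hu.1 1
    have h3 : u 1 ≤ (1 : ℝ) := hu.2 1
    exact ⟨⟨by linarith, by linarith⟩, ⟨by linarith, by linarith⟩⟩
  by_cases hk : R.eKind (R.ent s p) = KsKind.centre
  · -- the affine quadratic centre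
    have ha0 : a ≠ 0 := by
      rw [ha]
      exact div_ne_zero (k7q_ctr_ne hR hs hp hk) two_ne_zero
    refine k7q_mem (fα := fun u => (a' / (4 * a ^ 2)) * (k7qU b u * k7qU b u) + (-(1 / (2 * a))) * (k7qU b' u * k7qU b u) + k7qU eP u)
      (fβ := fun _ => 0) (fD := fun _ => 1) hm ?_ (k7q_pol_const 0 5) (k7q_pol_const 1 5) 1 one_pos ?_ ?_
    · exact k7q_pol_add (k7q_pol_add (k7q_sh_smul _ (k7q_pol_mono (by norm_num) (k7q_pol_mul pb pb)))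
        (k7q_sh_smul _ (k7q_pol_mono (by norm_num) (k7q_pol_mul pb' pb)))) (k7q_pol_mono (by norm_num) peP)
    · intro u _
      norm_num
    · intro u hu
      obtain ⟨h0, h1⟩ := hIoo u hu
      have hc := k7q_ctr_at hR (R.ent s p) hk (hint _ h0 _ h1)
      rw [k7q_nf_dw (hTn (u 0) (u 1))] at hc
      have hGu : G (u 0) (u 1) = -(b (u 0) (u 1)) / (2 * a) := by
        rw [hG]
        field_simp
        linarith
      show (R.k7qGr A s).eF (R.ent s p) (k7pAff c A' B (u 0) (u 1)) = _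
      rw [hF, hGu]
      simp only [k7qU]
      field_simp
      ring
  · -- the simple roots
    obtain ⟨σ, hσdef⟩ : ∃ σ : ℝ, σ = (R.eKind (R.ent s p)).sgn := ⟨_, rfl⟩
    have hσ : σ = 1 ∨ σ = -1 := by
      rw [hσdef]
      cases hkk : R.eKind (R.ent s p) with
      | plus => left; rfl
      | minus => right; rfl
      | centre => exact absurd hkk hk
    obtain ⟨hD0, hst⟩ := k7q_disc_stable hR hT A hs hp hk
    obtain ⟨D0, hD0def⟩ : ∃ D0 : ℝ, D0 = ksDisc (R.tst (R.eLab (R.ent s p))) (R.base p).1 (R.base p).2 := ⟨_, rfl⟩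
    rw [← hD0def] at hD0 hst
    have hdisc : ∀ t y, ksDisc (R.tst (R.eLab (R.ent s p))) (k7qB (k7pAff c A' B t y)).1 (k7qB (k7pAff c A' B t y)).2
        = b t y ^ 2 - 4 * a * eT t y := fun t y => k7q_nf_disc (hTn t y)
    have hroot : ∀ t ∈ Set.Icc (-1 : ℝ) 2, ∀ y ∈ Set.Icc (-1 : ℝ) 2,
        a * G t y ^ 2 + b t y * G t y + eT t y = 0 ∧ 0 < σ * (2 * a * G t y + b t y) := by
      intro t ht y hy
      obtain ⟨r1, r2, -⟩ := k7q_root_at hR (R.ent s p) hk (hint t ht y hy)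
      rw [k7q_nf_dw (hTn t y)] at r2
      rw [hTn t y] at r1
      refine ⟨by rw [hG]; exact r1, ?_⟩
      rw [hσdef, hG]
      by_contra hneg
      have := mul_nonpos_of_nonneg_of_nonpos hK0.le (not_lt.1 hneg)
      linarith
    have hstab : ∀ u ∈ Set.Icc (fun _ => 0 : Fin 2 → ℝ) (fun _ => 1), |(b (u 0) (u 1) ^ 2 - 4 * a * eT (u 0) (u 1)) - D0| ≤ D0 / 2 := by
      intro u hu
      obtain ⟨h0, h1⟩ := hIcc u hu
      have h2 := hst _ (h _ h0 _ h1)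
      rw [hdisc] at h2
      exact h2
    by_cases ha0 : a = 0
    · refine k7q_mem (fD := fun u => k7qU b u * k7qU b u) (fα := k7qU eP)
        (fβ := fun u => (σ * k7qU b u) * (a' * (k7qU eT u * k7qU eT u) + (-1) * ((k7qU b' u * k7qU eT u) * k7qU b u)))
        hm (k7q_pol_mono (by norm_num) peP) ?_ (k7q_pol_mono (by norm_num) (k7q_pol_mul pb pb)) D0 hD0 ?_ ?_
      · exact k7q_pol_mono (by norm_num) (k7q_pol_mul (k7q_sh_smul σ pb)
          (k7q_pol_add (d := 4) (k7q_sh_smul a' (k7q_pol_mono (by norm_num) (k7q_pol_mul peT peT)))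
            (k7q_sh_smul (-1) (k7q_pol_mono (by norm_num) (k7q_pol_mul (k7q_pol_mul pb' peT) pb)))))
      · intro u hu
        have h2 := hstab u hu
        rw [ha0] at h2
        have e : k7qU b u * k7qU b u = b (u 0) (u 1) ^ 2 - 4 * 0 * eT (u 0) (u 1) := by
          simp only [k7qU]
          ring
        simp only [e]
        exact h2
      · intro u hu
        obtain ⟨h0, h1⟩ := hIoo u hu
        obtain ⟨r1, r2⟩ := hroot _ h0 _ h1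
        rw [ha0] at r1 r2
        have hv := k7q_root_val0 (b (u 0) (u 1)) (eT (u 0) (u 1)) a' (b' (u 0) (u 1)) (eP (u 0) (u 1)) (G (u 0) (u 1)) σ hσ
          (by linarith) (by linarith)
        show (R.k7qGr A s).eF (R.ent s p) (k7pAff c A' B (u 0) (u 1)) = _
        rw [hF, hv]
        have e : k7qU b u * k7qU b u = b (u 0) (u 1) ^ 2 := by
          simp only [k7qU]
          ring
        simp only [e]
        simp only [k7qU]
        ring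
    · have pD : (fun u => k7qU b u * k7qU b u + (-4 * a) * k7qU eT u) ∈ k3cPolC 2 2 :=
        k7q_pol_add (k7q_pol_mono (by norm_num) (k7q_pol_mul pb pb)) (k7q_sh_smul _ peT)
      have eD : ∀ u : Fin 2 → ℝ, k7qU b u * k7qU b u + (-4 * a) * k7qU eT u = b (u 0) (u 1) ^ 2 - 4 * a * eT (u 0) (u 1) := by
        intro u
        simp only [k7qU]
        ring
      refine k7q_mem (fD := fun u => k7qU b u * k7qU b u + (-4 * a) * k7qU eT u)
        (fα := fun u => (a' / (4 * a ^ 2)) * (k7qU b u * k7qU b u + (-4 * a) * k7qU eT u) + (a' / (4 * a ^ 2)) * (k7qU b u * k7qU b u)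
          + (-(1 / (2 * a))) * (k7qU b' u * k7qU b u) + k7qU eP u)
        (fβ := fun u => ((σ / (2 * a)) * k7qU b' u + (-(σ * a' / (2 * a ^ 2))) * k7qU b u)
          * ((k7qU b u * k7qU b u + (-4 * a) * k7qU eT u) * (k7qU b u * k7qU b u + (-4 * a) * k7qU eT u)))
        hm ?_ ?_ (k7q_pol_mono (by norm_num) pD) D0 hD0 ?_ ?_
      · exact k7q_pol_add (k7q_pol_add (k7q_pol_add (k7q_sh_smul _ (k7q_pol_mono (by norm_num) pD))
          (k7q_sh_smul _ (k7q_pol_mono (by norm_num) (k7q_pol_mul pb pb))))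
          (k7q_sh_smul _ (k7q_pol_mono (by norm_num) (k7q_pol_mul pb' pb)))) (k7q_pol_mono (by norm_num) peP)
      · exact k7q_pol_mono (by norm_num) (k7q_pol_mul (k7q_pol_add (k7q_sh_smul _ pb') (k7q_sh_smul _ pb)) (k7q_pol_mul pD pD))
      · intro u hu
        simp only [eD]
        exact hstab u hu
      · intro u hu
        obtain ⟨h0, h1⟩ := hIoo u hu
        obtain ⟨r1, r2⟩ := hroot _ h0 _ h1
        have hv := k7q_root_val a (b (u 0) (u 1)) (eT (u 0) (u 1)) a' (b' (u 0) (u 1)) (eP (u 0) (u 1)) (G (u 0) (u 1)) σ ha0 hσ r1 r2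
        show (R.k7qGr A s).eF (R.ent s p) (k7pAff c A' B (u 0) (u 1)) = _
        rw [hF, hv]
        simp only [eD]
        simp only [k7qU]
        ring

/-! ### A5 (leaf L-252-S7q-A5): Lipschitz bound, fit, assembly -/

/-- the prediction is `K`-Lipschitz on the used interior, in unit coordinates.
PLAN.  `eInt e` is an open convex ball; `ent_smooth` + `1 ≤ ord` give `DifferentiableAt` (`ContDiffOn.contDiffAt` with `Metric.isOpen_ball.mem_nhds`, `ContDiffAt.differentiableAt`), `ent_der` with `i = 1` and `norm_iteratedFDeriv_one`/`iteratedFDeriv_one_apply` give `‖fderiv‖ ≤ K`;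
`Convex.norm_image_sub_le_of_norm_fderiv_le` on `convex_ball`. -/
theorem k7q_lip_unit (hR : R.Ok K) (ho : 1 ≤ R.ord) (e : R.Ent) {u u' : ℝ × KbB KbVer.two} (hu : u ∈ R.eInt e) (hu' : u' ∈ R.eInt e) :
    |R.eF e u - R.eF e u'| ≤ K * dist u u' := by
  have hd : ∀ x ∈ R.eInt e, DifferentiableAt ℝ (R.eF e) x := fun x hx =>
    ((hR.ent_smooth e).contDiffAt (Metric.isOpen_ball.mem_nhds hx)).differentiableAt (by
      have : (1 : ℕ) ≤ R.ord := ho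
      exact_mod_cast (by omega : R.ord ≠ 0))
  have hb : ∀ x ∈ R.eInt e, ‖fderiv ℝ (R.eF e) x‖ ≤ K := fun x hx => by
    rw [← norm_iteratedFDeriv_one]
    exact hR.ent_der e x hx 1 ho
  have := Convex.norm_image_sub_le_of_norm_fderiv_le hd hb (convex_ball _ _) hu' hu
  rw [Real.norm_eq_abs, ← dist_eq_norm] at this
  exact this

/-- **EXIT OF BLOCK A.**   Fields: `m_ent := hR.m_ent s`; `m_eF := k7q_m_eF`; `lab`: `rfl`; `card := ent_card`; `fit`: `ks_X_err`, `k7a_toLn_X`, `k7q_eF_unit`, `k7q_B_base`; `lip`: `k7q_eF_unit`, `k7q_lip_unit`, `k7q_nb_int` (small ⊆ big), `k7q_unit_dist`; `sheet := k7q_sheet`. -/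
theorem k7q_gr_ok (hR : R.Ok K) (hT : R.Tilt K) (ho : 1 ≤ R.ord) (A : R.Par) (hs : s ∈ R.depths) :
    (R.k7qGr A s).Ok k7qSh (24 * K ^ 9) (R.a s) (R.a (R.k * s)) (R.a (R.ell * s)) (1 / (24 * K ^ 9)) := by
  have hK := hR.K_ge
  have hK0 : 0 < K := by linarith
  have hpow : ∀ n : ℕ, n ≤ 9 → K ^ n ≤ K ^ 9 := fun n hn => pow_le_pow_right₀ hK hn
  have h9 : 1 ≤ K ^ 9 := one_le_pow₀ hK
  have ha0 : 0 ≤ R.a s := (ksl8_a_pos hR s).le
  have hsub : ∀ p, k7pNb (R.toW A s) (R.a (R.k * s)) (R.a (R.ell * s)) (1 / (24 * K ^ 9)) p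
      ⊆ k7pNb (R.toW A s) (R.a (R.k * s)) (R.a (R.ell * s)) (1 / (4 * K ^ 5)) p := fun p z hz => by
    have hz' : dist (k7pPk (R.toW A s) (R.a (R.k * s)) (R.a (R.ell * s)) ((R.toW A s).labQ p) z)
      (k7pPk (R.toW A s) (R.a (R.k * s)) (R.a (R.ell * s)) ((R.toW A s).labQ p) ((R.toW A s).base p)) ≤ 1 / (24 * K ^ 9) := hz
    refine le_trans hz' ?_
    have := hpow 5 (by norm_num)
    exact one_div_le_one_div_of_le (by positivity) (by linarith)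
  refine ⟨hR.m_ent s, k7q_m_eF hR A, by positivity, ?_, ?_, fun _ _ => rfl, fun Q => ?_, fun p hp => ?_, fun p hp z hz z' hz' => ?_,
    fun p hp c A' B h => k7q_sheet hR hT A hs hp c A' B h⟩
  · rw [div_le_one (by positivity)]
    linarith
  · have : 24 * K ^ 9 * (1 / (24 * K ^ 9)) = 1 := by field_simp
    rw [this]
  · refine (hR.ent_card Q).trans ?_
    have := hpow 1 (by norm_num)
    rw [pow_one] at this
    linarith
  · have h1 := ks_X_err hR hs hp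
    have e1 : (R.toW A s).X p.1 p.2 = R.X p.1 p.2 := k7a_toLn_X R hR A p.1 p.2
    have e2 : (R.k7qGr A s).eF ((R.k7qGr A s).ent p) ((R.toW A s).base p) = R.eF (R.ent s p) (R.unit (R.labAt s p) (R.base p)) := by
      have := k7q_eF_unit (s := s) hR A (R.ent s p) ((R.toW A s).base p)
      have hB : k7qB ((R.toW A s).base p) = R.base p := k7q_B_base (s := s) A p
      rw [hB] at this
      exact this
    rw [e1, e2]
    refine h1.trans (mul_le_mul_of_nonneg_right ?_ ha0)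
    have := hpow 3 (by norm_num)
    linarith
  · have hp' : p ∈ R.Ev0 := hp
    have hdep : R.dep (R.eLab (R.ent s p)) = s := (hR.lab s hs p hp').1
    have i1 := k7q_nb_int hR hT A hs hp' (hsub p hz)
    have i2 := k7q_nb_int hR hT A hs hp' (hsub p hz')
    have l1 := k7q_lip_unit hR ho (R.ent s p) i1 i2
    have l2 := k7q_unit_dist hR hT A hdep z z'
    have e1 : (R.k7qGr A s).eF ((R.k7qGr A s).ent p) z = R.eF (R.ent s p) (R.unit (R.eLab (R.ent s p)) (k7qB z)) := k7q_eF_unit (s := s) hR A (R.ent s p) z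
    have e2 : (R.k7qGr A s).eF ((R.k7qGr A s).ent p) z' = R.eF (R.ent s p) (R.unit (R.eLab (R.ent s p)) (k7qB z')) := k7q_eF_unit (s := s) hR A (R.ent s p) z'
    rw [e1, e2]
    refine l1.trans ?_
    show K * dist (R.unit (R.eLab (R.ent s p)) (k7qB z)) (R.unit (R.eLab (R.ent s p)) (k7qB z'))
      ≤ 24 * K ^ 9 * dist (k7pPk (R.toW A s) (R.a (R.k * s)) (R.a (R.ell * s)) (R.eLab (R.ent s p)) z)
        (k7pPk (R.toW A s) (R.a (R.k * s)) (R.a (R.ell * s)) (R.eLab (R.ent s p)) z')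
    calc K * dist (R.unit (R.eLab (R.ent s p)) (k7qB z)) (R.unit (R.eLab (R.ent s p)) (k7qB z'))
        ≤ K * (2 * K ^ 4 * dist (k7pPk (R.toW A s) (R.a (R.k * s)) (R.a (R.ell * s)) (R.eLab (R.ent s p)) z)
        (k7pPk (R.toW A s) (R.a (R.k * s)) (R.a (R.ell * s)) (R.eLab (R.ent s p)) z')) := mul_le_mul_of_nonneg_left l2 hK0.le
      _ = 2 * K ^ 5 * dist (k7pPk (R.toW A s) (R.a (R.k * s)) (R.a (R.ell * s)) (R.eLab (R.ent s p)) z)
        (k7pPk (R.toW A s) (R.a (R.k * s)) (R.a (R.ell * s)) (R.eLab (R.ent s p)) z') := by ring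
      _ ≤ _ := by
        refine mul_le_mul_of_nonneg_right ?_ dist_nonneg
        have := hpow 5 (by norm_num)
        linarith

end ent

/-! ## BLOCK C.  The assembly -/

/-! ### C1 (leaf L-252-S7q-C1): monotonicity, the two records -/

theorem k7q_gr_mono {W : K7aW} {Γ : K7pGr W} {Sh : Set (ℝ → ℝ → ℝ)} {K K' a h g ρ : ℝ} (H : Γ.Ok Sh K a h g ρ) (hK : K ≤ K') (ha : 0 ≤ a) : Γ.Ok Sh K' a h g ρ := by
  have hρ := H.ρ_pos
  exact {
    m_ent := H.m_ent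
    m_eF := H.m_eF
    ρ_pos := H.ρ_pos
    ρ_le := H.ρ_le
    ρ_lo := H.ρ_lo.trans (mul_le_mul_of_nonneg_right hK hρ.le)
    lab := H.lab
    card := fun Q => (H.card Q).trans hK
    fit := fun p hp => (H.fit p hp).trans (mul_le_mul_of_nonneg_right hK ha)
    lip := fun p hp z hz z' hz' => (H.lip p hp z hz z' hz').trans (mul_le_mul_of_nonneg_right hK dist_nonneg)
    sheet := H.sheet }

/-- (`k7w_w_mono`, `k7q_gr_mono`) -/
theorem k7q_in_mono {R : KsRef KbVer.two} {A : R.Par} {s K K' : ℝ} {Ms Ms' Ws Ws' : Finset ℝ} (H : K7qIn R A s K Ms Ws) (hN : 0 ≤ R.N) (hK : K ≤ K')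
    (hMs : Ms' ⊆ Ms) (hWs : Ws' ⊆ Ws) : K7qIn R A s K' Ms' Ws' := by
  obtain ⟨h1, ρ, h2⟩ := H
  exact ⟨k7w_w_mono h1 hN hK (Real.rpow_nonneg hN _) (Real.rpow_nonneg hN _) (Real.rpow_nonneg hN _) hMs hWs,
    ρ, k7q_gr_mono h2 hK (Real.rpow_nonneg hN _)⟩

/-- (`k7a_toW_ok S0`, `k7q_gr_ok`; `C := max C₀ 24`-like so that `24 K⁹ ≤ C K^C` and `C₀ K^C₀ ≤ C K^C`; `R.a x = R.N ^ (-x)` is `rfl`) -/
theorem k7q_in (S0 : ℝ) : ∃ C : ℝ, 1 ≤ C ∧ ∀ (R : KsRef KbVer.two) (K : ℝ) (A : R.Par) (s : ℝ), R.S ≤ S0 → R.Ok K → R.Tilt K → R.One A → 1 ≤ R.ord →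
    s ∈ R.depths → (∃ Q, R.dep Q = s) → K7qIn R A s (C * K ^ C) R.meshes R.widths := by
  obtain ⟨C₀, hC₀, h₀⟩ := k7a_toW_ok S0
  refine ⟨max C₀ 24, hC₀.trans (le_max_left _ _), ?_⟩
  intro R K A s hS hR hT hO ho hs hex
  have hK := hR.K_ge
  have hK0 : 0 < K := by linarith
  have hN : 0 ≤ R.N := by linarith [hR.N_ge]
  have hC24 : (24 : ℝ) ≤ max C₀ 24 := le_max_right _ _
  have e1 : C₀ * K ^ C₀ ≤ max C₀ 24 * K ^ (max C₀ 24) :=
    mul_le_mul (le_max_left _ _) (Real.rpow_le_rpow_of_exponent_le hK (le_max_left _ _)) (Real.rpow_nonneg hK0.le _) (by linarith)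
  have e2 : 24 * K ^ 9 ≤ max C₀ 24 * K ^ (max C₀ 24) := by
    have : K ^ 9 = K ^ ((9 : ℕ) : ℝ) := (Real.rpow_natCast K 9).symm
    rw [this]
    refine mul_le_mul hC24 (Real.rpow_le_rpow_of_exponent_le hK ?_) (Real.rpow_nonneg hK0.le _) (by linarith)
    push_cast
    linarith
  exact ⟨k7w_w_mono (h₀ R K A s hS hR hT hO hs hex) hN e1 (Real.rpow_nonneg hN _) (Real.rpow_nonneg hN _) (Real.rpow_nonneg hN _) subset_rfl subset_rfl,
    1 / (24 * K ^ 9), k7q_gr_mono (k7q_gr_ok hR hT ho A hs) e2 (Real.rpow_nonneg hN _)⟩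

/-- finitely many thresholds -/
theorem k7q_fin_thr {ι : Type} (ss : Finset ι) (Pr : ι → ℝ → Prop) (h : ∀ s ∈ ss, ∃ x0 : ℝ, ∀ x, x0 ≤ x → Pr s x) : ∃ x0 : ℝ, ∀ x, x0 ≤ x → ∀ s ∈ ss, Pr s x := by
  classical
  induction ss using Finset.induction_on with
  | empty => exact ⟨0, fun x _ s hs => absurd hs (Finset.notMem_empty s)⟩
  | insert a ss ha ih =>
    obtain ⟨x1, h1⟩ := ih fun s hs => h s (Finset.mem_insert_of_mem hs)
    obtain ⟨x2, h2⟩ := h a (Finset.mem_insert_self a ss)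
    refine ⟨max x1 x2, fun x hx s hs => ?_⟩
    rcases Finset.mem_insert.1 hs with rfl | hs'
    · exact h2 x ((le_max_right _ _).trans hx)
    · exact h1 x ((le_max_left _ _).trans hx) s hs'

/-- finitely many positive numbers -/
theorem k7q_fin_pos {ι : Type} (ss : Finset ι) (f : ι → ℝ) (h : ∀ s ∈ ss, 0 < f s) : ∃ c : ℝ, 0 < c ∧ ∀ s ∈ ss, c ≤ f s := by
  classical
  induction ss using Finset.induction_on with
  | empty => exact ⟨1, one_pos, fun s hs => absurd hs (Finset.notMem_empty s)⟩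
  | insert a ss ha ih =>
    obtain ⟨c1, hc1, h1⟩ := ih fun s hs => h s (Finset.mem_insert_of_mem hs)
    have h2 := h a (Finset.mem_insert_self a ss)
    refine ⟨min c1 (f a), lt_min hc1 h2, fun s hs => ?_⟩
    rcases Finset.mem_insert.1 hs with rfl | hs'
    · exact min_le_right _ _
    · exact (min_le_left _ _).trans (h1 s hs')

/-! ### C2 (leaf L-252-S7q-C2): one depth, then finitely many depths of Sec 7.2 -/

/-- `K7qStep` for the record `R.toW A s` (instantiate `W := R.toW A s`, `Γ := R.k7qGr A s`, `Sh := k7qSh`; `(R.toW A s).prior = R.prior`, `.Ev0 = R.Ev0`, `.χ0 = R.χ` by `rfl`; `subst`) -/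
theorem k7q_step_R {p : KpPrm} {s M Mχ : ℝ} (h : K7qStep p.d p.S s (p.k * s) (p.ell * s) M Mχ) (t : ℝ) (ht : 0 < t) :
    ∃ (τ N1 : ℝ) (Ms Ws : Finset ℝ), 0 < τ ∧ (∀ M' ∈ Ms, 0 ≤ M') ∧ (∀ r ∈ Ws, 0 ≤ r) ∧
      ∀ (R : KsRef KbVer.two) (A : R.Par) (E : Set (R.L × ℝ)), R.prm = p → N1 ≤ R.N → K7qIn R A s (R.N ^ τ) Ms Ws → R.χ ≤ R.N ^ (-Mχ) →
        MeasurableSet E → E ⊆ R.Ev0 → 1 ≤ ENNReal.ofReal (R.N ^ τ) * R.prior E →
        ∃ (P : K7aLayer (R.toLn A)) (β : ℝ) (E' : Set (R.L × ℝ)), MeasurableSet E' ∧ E' ⊆ E ∧ (∀ x ∈ E', P.lab x.1 ≠ none) ∧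
          1 ≤ ENNReal.ofReal (R.N ^ t) * R.prior E' ∧ P.Ok (R.N ^ t) (R.N ^ (-Mχ)) (R.N ^ (-s)) β p.d ∧
          R.N ^ (-(p.ell * s) - M - t) ≤ β ∧ β ≤ R.N ^ (-(p.ell * s) + t) := by
  obtain ⟨τ, N1, Ms, Ws, hτ, hMs, hWs, H⟩ := h t ht
  refine ⟨τ, N1, Ms, Ws, hτ, hMs, hWs, ?_⟩
  intro R A E hp hN hin hχ hE hEs hd
  subst hp
  obtain ⟨h1, ρ, h2⟩ := hin
  exact H R.N hN (R.toW A s) (R.k7qGr A s) k7qSh ρ E h1 hχ h2 hE hEs hd

/-- **finitely many depths.**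
PLAN.  `Finset.induction_on ss`.   `∅`: `τ = t`, `E' = E`, any `P` (e.g. `Ph := Empty`/`PEmpty`, `lab := fun _ => none`).   `insert s ss`: the induction hypothesis at `t` gives `(τ₁, N₁, Ms₁, Ws₁)`; `k7q_step_R` for `s` at `min t τ₁` gives `(τ₂, N₂, Ms₂, Ws₂)`;
`τ := min τ₁ τ₂`, `N1 := max (max N₁ N₂) 1`, unions of the lists (`k7q_in_mono`, `Real.rpow_le_rpow_of_exponent_le`).   First the step (`E → E₁`, `P_s`, `β_s`), then the induction hypothesis (`E₁ → E'`; density `N^(min t τ₁) ≤ N^τ₁`);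
`P := Function.update P' s P_s`, `β := Function.update β' s β_s` (`s ∉ ss`); slack of `P_s`: `k7w_layer_mono` (`β_s ≥ 0` from its lower bound), exponents: `Real.rpow_le_rpow_of_exponent_le`. -/
theorem k7q_chain {p : KpPrm} {M Mχ : ℝ} (ss : Finset ℝ) (h : ∀ s ∈ ss, K7qStep p.d p.S s (p.k * s) (p.ell * s) M Mχ) (t : ℝ) (ht : 0 < t) :
    ∃ (τ N1 : ℝ) (Ms Ws : Finset ℝ), 0 < τ ∧ (∀ M' ∈ Ms, 0 ≤ M') ∧ (∀ r ∈ Ws, 0 ≤ r) ∧
      ∀ (R : KsRef KbVer.two) (A : R.Par) (E : Set (R.L × ℝ)), R.prm = p → N1 ≤ R.N → (∀ s ∈ ss, K7qIn R A s (R.N ^ τ) Ms Ws) → R.χ ≤ R.N ^ (-Mχ) →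
        MeasurableSet E → E ⊆ R.Ev0 → 1 ≤ ENNReal.ofReal (R.N ^ τ) * R.prior E →
        ∃ (P : ℝ → K7aLayer (R.toLn A)) (β : ℝ → ℝ) (E' : Set (R.L × ℝ)), MeasurableSet E' ∧ E' ⊆ E ∧ 1 ≤ ENNReal.ofReal (R.N ^ t) * R.prior E' ∧
          ∀ s ∈ ss, (∀ x ∈ E', (P s).lab x.1 ≠ none) ∧ (P s).Ok (R.N ^ t) (R.N ^ (-Mχ)) (R.N ^ (-s)) (β s) p.d ∧
            R.N ^ (-(p.ell * s) - M - t) ≤ β s ∧ β s ≤ R.N ^ (-(p.ell * s) + t) := by
  classical
  induction ss using Finset.induction_on with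
  | empty =>
    refine ⟨t, 0, ∅, ∅, ht, fun M' hM' => absurd hM' (Finset.notMem_empty _), fun r hr => absurd hr (Finset.notMem_empty _), ?_⟩
    intro R A E _ _ _ _ hE _ hd
    exact ⟨fun _ => ⟨Empty, inferInstance, fun _ => none, fun x => x.elim, fun x => x.elim, fun x => x.elim⟩, fun _ => 0, E, hE, subset_rfl, hd,
      fun s hs => absurd hs (Finset.notMem_empty _)⟩
  | insert a ss ha ih =>
    obtain ⟨τ₁, N₁, Ms₁, Ws₁, hτ₁, hMs₁, hWs₁, H₁⟩ := ih fun s hs => h s (Finset.mem_insert_of_mem hs)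
    obtain ⟨τ₂, N₂, Ms₂, Ws₂, hτ₂, hMs₂, hWs₂, H₂⟩ := k7q_step_R (h a (Finset.mem_insert_self a ss)) (min t τ₁) (lt_min ht hτ₁)
    refine ⟨min τ₁ τ₂, max (max N₁ N₂) 1, Ms₁ ∪ Ms₂, Ws₁ ∪ Ws₂, lt_min hτ₁ hτ₂, fun M' hM' => ?_, fun r hr => ?_, ?_⟩
    · rcases Finset.mem_union.1 hM' with h' | h'
      · exact hMs₁ M' h'
      · exact hMs₂ M' h'
    · rcases Finset.mem_union.1 hr with h' | h'
      · exact hWs₁ r h'
      · exact hWs₂ r h'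
    intro R A E hp hN hin hχ hE hEs hd
    have hN1 : 1 ≤ R.N := (le_max_right _ _).trans hN
    have hN0 : 0 ≤ R.N := by linarith
    have hNa : N₁ ≤ R.N := ((le_max_left _ _).trans (le_max_left _ _)).trans hN
    have hNb : N₂ ≤ R.N := ((le_max_right _ _).trans (le_max_left _ _)).trans hN
    have hmono : ∀ x y : ℝ, x ≤ y → R.N ^ x ≤ R.N ^ y := fun x y hxy => Real.rpow_le_rpow_of_exponent_le hN1 hxy
    obtain ⟨Pa, βa, E₁, mE₁, sE₁, labE₁, dE₁, okPa, lo, hi⟩ := H₂ R A E hp hNb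
      (k7q_in_mono (hin a (Finset.mem_insert_self a ss)) hN0 (hmono _ _ (min_le_right _ _)) Finset.subset_union_right Finset.subset_union_right) hχ hE hEs
      (hd.trans (mul_le_mul_left (ENNReal.ofReal_le_ofReal (hmono _ _ (min_le_right _ _))) _))
    obtain ⟨P', β', E', mE', sE', dE', hall⟩ := H₁ R A E₁ hp hNa
      (fun s hs => k7q_in_mono (hin s (Finset.mem_insert_of_mem hs)) hN0 (hmono _ _ (min_le_left _ _)) Finset.subset_union_left Finset.subset_union_left) hχ mE₁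
      (sE₁.trans hEs) (dE₁.trans (mul_le_mul_left (ENNReal.ofReal_le_ofReal (hmono _ _ (min_le_right _ _))) _))
    refine ⟨Function.update P' a Pa, Function.update β' a βa, E', mE', sE'.trans sE₁, dE', fun s hs => ?_⟩
    rcases Finset.mem_insert.1 hs with rfl | hs'
    · rw [Function.update_self, Function.update_self]
      have hβ0 : 0 ≤ βa := le_trans (Real.rpow_nonneg hN0 _) lo
      refine ⟨fun x hx => labE₁ x (sE' hx), k7w_layer_mono okPa (hmono _ _ (min_le_left _ _)) (Real.rpow_nonneg hN0 _) hβ0, ?_, ?_⟩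
      · refine le_trans (hmono _ _ ?_) lo
        have := min_le_left t τ₁
        linarith
      · refine hi.trans (hmono _ _ ?_)
        have := min_le_left t τ₁
        linarith
    · have hne : s ≠ a := fun e => ha (e ▸ hs')
      rw [Function.update_of_ne hne, Function.update_of_ne hne]
      exact hall s hs'

/-! ### C3 (leaf L-252-S7q-C3): the dyadic domain length, Lemma 7.2 for the record -/

theorem k7q_dy_div (lev n : ℕ) (h : lev ≤ n) : (1 / 2 : ℝ) ^ n = (1 / 2 : ℝ) ^ lev / 2 ^ (n - lev) := by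
  obtain ⟨j, rfl⟩ := Nat.exists_eq_add_of_le h
  rw [Nat.add_sub_cancel_left, pow_add, one_div_pow (2 : ℝ) j]
  ring

/-- PLAN.  `n₀` := the least `n` with `(1/2)^n ≤ m` (`exists_pow_lt_of_lt_one`, `Nat.find`): `m / 2 < (1/2)^n₀ ≤ m` (`m ≤ 1`); `n := max lev n₀`, `(1/2)^n = min ((1/2)^lev) ((1/2)^n₀)`. -/
theorem k7q_dy (lev : ℕ) (m K : ℝ) (hm : 0 < m) (hm1 : m ≤ 1) (hK : 2 ≤ K) (hq : m ≤ K * (1 / 2 : ℝ) ^ lev) :
    ∃ n : ℕ, lev ≤ n ∧ m ≤ K * (1 / 2 : ℝ) ^ n ∧ (1 / 2 : ℝ) ^ n ≤ m := by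
  have hex : ∃ n : ℕ, (1 / 2 : ℝ) ^ n ≤ m := by
    obtain ⟨n, hn⟩ := exists_pow_lt_of_lt_one hm (by norm_num : (1 / 2 : ℝ) < 1)
    exact ⟨n, hn.le⟩
  classical
  obtain ⟨n₀, hn₀, hmin⟩ : ∃ n₀ : ℕ, (1 / 2 : ℝ) ^ n₀ ≤ m ∧ ∀ k < n₀, ¬ (1 / 2 : ℝ) ^ k ≤ m :=
    ⟨Nat.find hex, Nat.find_spec hex, fun k hk => Nat.find_min hex hk⟩
  have hlow : m ≤ 2 * (1 / 2 : ℝ) ^ n₀ := by
    rcases Nat.eq_zero_or_pos n₀ with h0 | h0
    · subst h0
      rw [pow_zero]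
      linarith
    · obtain ⟨k, rfl⟩ : ∃ k, n₀ = k + 1 := ⟨n₀ - 1, by omega⟩
      have h1 := hmin k (by omega)
      have e : 2 * (1 / 2 : ℝ) ^ (k + 1) = (1 / 2 : ℝ) ^ k := by
        rw [pow_succ]
        ring
      rw [e]
      exact (not_le.1 h1).le
  rcases le_total lev n₀ with h | h
  · refine ⟨n₀, h, ?_, hn₀⟩
    have : 0 < (1 / 2 : ℝ) ^ n₀ := by positivity
    nlinarith
  · refine ⟨lev, le_rfl, hq, ?_⟩
    exact (pow_le_pow_of_le_one (by norm_num) (by norm_num) h).trans hn₀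

/-- `K7qCmp` for the record `R.toW A s`, with the choice of the dyadic length.
PLAN.  `h t ht` gives `(κ, τ₀, N₀, Ms, Ws)`; `τ := min τ₀ t`, `N1 := max N₀ (max 2 (2 ^ (1/τ)))` (so `2 ≤ N^τ`).   `m := min (N^(-(k s))) (β / N^(-(ℓ s)))`, `0 < m ≤ 1`; `m ≤ h ≤ N^τ q` (`K7aW.Ok.q_lo`); `k7q_dy` with `K = N^τ`: `n`; `qd := (1/2)^n = q / 2^(n - lev)`;
`N^(-τ₀) m ≤ N^(-τ) m ≤ qd ≤ m ≤ N^τ₀ m`;  raise the slacks `N^τ ≤ N^τ₀` (`k7q_in_mono`, `k7w_layer_mono`);  `β / N^(-x) = β * N^x` (`Real.rpow_neg`). -/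
theorem k7q_cmp_R {p : KpPrm} {s Bmax Mχ : ℝ} (hk : 0 ≤ p.k * s) (h : K7qCmp k7qSh p.d p.S s (p.k * s) (p.ell * s) Bmax Mχ) (t : ℝ) (ht : 0 < t) :
    ∃ (κ τ N1 : ℝ) (Ms Ws : Finset ℝ), 0 < κ ∧ 0 < τ ∧ (∀ M' ∈ Ms, 0 ≤ M') ∧ (∀ r ∈ Ws, 0 ≤ r) ∧
      ∀ (R : KsRef KbVer.two) (A : R.Par) (P : K7aLayer (R.toLn A)) (β : ℝ), R.prm = p → N1 ≤ R.N → K7qIn R A s (R.N ^ τ) Ms Ws → R.χ ≤ R.N ^ (-Mχ) →
        P.Ok (R.N ^ τ) (R.N ^ (-Mχ)) (R.N ^ (-s)) β p.d → R.N ^ (-Bmax) ≤ β → β ≤ R.N ^ (-(p.ell * s) + τ) →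
        ∃ (Zx : Set (R.L × ℝ)) (qd : ℝ), MeasurableSet Zx ∧ R.lam0 Zx ≤ ENNReal.ofReal (R.N ^ (-κ)) ∧ (∃ j : ℕ, qd = (R.toW A s).q / 2 ^ j) ∧
          min (R.N ^ (-(p.k * s))) (β * R.N ^ (p.ell * s)) ≤ R.N ^ t * qd ∧ qd ≤ R.N ^ t * min (R.N ^ (-(p.k * s))) (β * R.N ^ (p.ell * s)) ∧
          K7aLists (R.toW A s) P (R.Ev0 \ Zx) (R.N ^ t) (R.N ^ (-Mχ)) qd (R.N ^ (-(p.ell * s))) (qd * R.N ^ (-(p.ell * s))) := by
  obtain ⟨κ, τ₀, N₀, Ms, Ws, hκ, hτ₀, hMs, hWs, H⟩ := h t ht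
  have hτ : 0 < min τ₀ t := lt_min hτ₀ ht
  refine ⟨κ, min τ₀ t, max N₀ (max 2 ((2 : ℝ) ^ (1 / min τ₀ t))), Ms, Ws, hκ, hτ, hMs, hWs, ?_⟩
  obtain ⟨τ, hτd⟩ : ∃ τ, τ = min τ₀ t := ⟨_, rfl⟩
  rw [← hτd] at hτ ⊢
  have hτ0 : τ ≤ τ₀ := hτd ▸ min_le_left _ _
  have hτt : τ ≤ t := hτd ▸ min_le_right _ _
  intro R A P β hp hN hIn hχ hP hβ1 hβ2
  subst hp
  have hN0 : N₀ ≤ R.N := le_of_max_le_left hN
  have hN2 : 2 ≤ R.N := le_of_max_le_left (le_of_max_le_right hN)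
  have hN3 : (2 : ℝ) ^ (1 / τ) ≤ R.N := le_of_max_le_right (le_of_max_le_right hN)
  have hN1 : 1 ≤ R.N := by linarith
  have hNp : 0 < R.N := by linarith
  have hK2 : 2 ≤ R.N ^ τ := by
    calc (2 : ℝ) = ((2 : ℝ) ^ (1 / τ)) ^ τ := by
          rw [← Real.rpow_mul (by norm_num), one_div, inv_mul_cancel₀ hτ.ne', Real.rpow_one]
      _ ≤ R.N ^ τ := Real.rpow_le_rpow (by positivity) hN3 hτ.le
  have hKK : R.N ^ τ ≤ R.N ^ τ₀ := Real.rpow_le_rpow_of_exponent_le hN1 hτ0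
  have hKt : R.N ^ τ ≤ R.N ^ t := Real.rpow_le_rpow_of_exponent_le hN1 hτt
  have hβ0 : 0 < β := lt_of_lt_of_le (by positivity) hβ1
  have ediv : β / R.N ^ (-(R.prm.ell * s)) = β * R.N ^ (R.prm.ell * s) := by
    rw [Real.rpow_neg hNp.le, div_inv_eq_mul]
  obtain ⟨m, hmd⟩ : ∃ m, m = min (R.N ^ (-(R.prm.k * s))) (β * R.N ^ (R.prm.ell * s)) := ⟨_, rfl⟩
  have hm0 : 0 < m := by
    rw [hmd]
    exact lt_min (by positivity) (by positivity)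
  have hmh : m ≤ R.N ^ (-(R.prm.k * s)) := hmd ▸ min_le_left _ _
  have hm1 : m ≤ 1 := hmh.trans (Real.rpow_le_one_of_one_le_of_nonpos hN1 (by linarith))
  have hq : m ≤ R.N ^ τ * (1 / 2 : ℝ) ^ (R.toW A s).lev := hmh.trans hIn.1.q_lo
  obtain ⟨n, hn1, hn2, hn3⟩ := k7q_dy (R.toW A s).lev m (R.N ^ τ) hm0 hm1 hK2 hq
  obtain ⟨hW, ρ, hΓ⟩ := k7q_in_mono hIn hNp.le hKK (Finset.Subset.refl _) (Finset.Subset.refl _)
  have hP' := k7w_layer_mono hP hKK (by positivity) hβ0.le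
  have hp0 : (0 : ℝ) < (1 / 2 : ℝ) ^ n := by positivity
  have g1 : R.N ^ (-τ₀) * min (R.N ^ (-(R.prm.k * s))) (β / R.N ^ (-(R.prm.ell * s))) ≤ (1 / 2 : ℝ) ^ n := by
    rw [ediv, ← hmd, Real.rpow_neg hNp.le, inv_mul_le_iff₀ (by positivity)]
    exact hn2.trans (mul_le_mul_of_nonneg_right hKK hp0.le)
  have g2 : (1 / 2 : ℝ) ^ n ≤ R.N ^ τ₀ * min (R.N ^ (-(R.prm.k * s))) (β / R.N ^ (-(R.prm.ell * s))) := by
    rw [ediv, ← hmd]
    exact hn3.trans (le_mul_of_one_le_left hm0.le (Real.one_le_rpow hN1 hτ₀.le))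
  obtain ⟨Zx, hZm, hZ, hL⟩ := H R.N hN0 (R.toW A s) (R.k7qGr A s) ρ P β n hW hχ hΓ hP' hβ1
    (hβ2.trans (Real.rpow_le_rpow_of_exponent_le hN1 (by linarith))) hn1 g1 g2
  refine ⟨Zx, (1 / 2 : ℝ) ^ n, hZm, hZ, ⟨n - (R.toW A s).lev, k7q_dy_div _ _ hn1⟩, ?_, ?_, hL⟩
  · rw [← hmd]
    exact hn2.trans (mul_le_mul_of_nonneg_right hKt hp0.le)
  · rw [← hmd]
    exact hn3.trans (le_mul_of_one_le_left hm0.le (Real.one_le_rpow hN1 ht.le))

/-! ### C4 (leaf L-252-S7q-C4): removal of the exceptional sets, requirement lists -/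

/-- removal of finitely many small sets from a dense selection.
PLAN.  `prior E ≤ prior (E \ ⋃ Z) + ∑ prior (E ∩ Z s) ≤ .. + ∑ lam0 (Z s)` (`E ⊆ Ev0`, `Measure.restrict_apply`), `∑ ≤ card * ofReal (N^(-κ))`;  multiply by `ofReal (N^t)`: `1 ≤ x + ofReal (card N^(t-κ)) ≤ x + 1/2`, so `1/2 ≤ x`, `1 ≤ 2 x ≤ ofReal (N^t') * prior ..`. -/
theorem k7q_remove {R : KsRef KbVer.two} {K : ℝ} (hR : R.Ok K) (ss : Finset ℝ) (Z : ℝ → Set (R.L × ℝ)) (E : Set (R.L × ℝ)) (t t' κ : ℝ) (hE : E ⊆ R.Ev0)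
    (hZm : ∀ s ∈ ss, MeasurableSet (Z s)) (hZ : ∀ s ∈ ss, R.lam0 (Z s) ≤ ENNReal.ofReal (R.N ^ (-κ))) (hd : 1 ≤ ENNReal.ofReal (R.N ^ t) * R.prior E)
    (h1 : (ss.card : ℝ) * R.N ^ (t - κ) ≤ 1 / 2) (h2 : 2 * R.N ^ t ≤ R.N ^ t') : 1 ≤ ENNReal.ofReal (R.N ^ t') * R.prior (E \ ⋃ s ∈ ss, Z s) := by
  have hN : 0 < R.N := lt_of_lt_of_le (by norm_num) hR.N_ge
  have a1 : R.prior (E ∩ ⋃ s ∈ ss, Z s) ≤ (ss.card : ℝ≥0∞) * ENNReal.ofReal (R.N ^ (-κ)) := by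
    rw [Set.inter_iUnion₂]
    refine (measure_biUnion_finset_le ss (fun s => E ∩ Z s)).trans ?_
    calc ∑ s ∈ ss, R.prior (E ∩ Z s) ≤ ∑ _s ∈ ss, ENNReal.ofReal (R.N ^ (-κ)) := by
          refine Finset.sum_le_sum fun s hs => le_trans ?_ (hZ s hs)
          have e : R.lam0 (Z s) = R.prior (Z s ∩ R.Ev0) := Measure.restrict_apply (hZm s hs)
          rw [e]
          exact measure_mono fun x hx => ⟨hx.2, hE hx.1⟩
      _ = (ss.card : ℝ≥0∞) * ENNReal.ofReal (R.N ^ (-κ)) := by rw [Finset.sum_const, nsmul_eq_mul]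
  have a2 : R.prior E ≤ R.prior (E ∩ ⋃ s ∈ ss, Z s) + R.prior (E \ ⋃ s ∈ ss, Z s) := measure_le_inter_add_sdiff _ _ _
  generalize R.prior (E \ ⋃ s ∈ ss, Z s) = x at a2 ⊢
  have a3 : ENNReal.ofReal (R.N ^ t) * ((ss.card : ℝ≥0∞) * ENNReal.ofReal (R.N ^ (-κ))) ≤ 1 / 2 := by
    have e : ENNReal.ofReal (R.N ^ t) * ((ss.card : ℝ≥0∞) * ENNReal.ofReal (R.N ^ (-κ))) = ENNReal.ofReal ((ss.card : ℝ) * R.N ^ (t - κ)) := by
      rw [← ENNReal.ofReal_natCast, ← ENNReal.ofReal_mul (by positivity), ← ENNReal.ofReal_mul (by positivity), sub_eq_add_neg, Real.rpow_add hN]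
      congr 1
      ring
    rw [e]
    refine (ENNReal.ofReal_le_ofReal h1).trans (le_of_eq ?_)
    rw [ENNReal.ofReal_div_of_pos (by norm_num)]
    simp
  have a4 : (1 : ℝ≥0∞) ≤ 1 / 2 + ENNReal.ofReal (R.N ^ t) * x := by
    calc (1 : ℝ≥0∞) ≤ ENNReal.ofReal (R.N ^ t) * R.prior E := hd
      _ ≤ ENNReal.ofReal (R.N ^ t) * ((ss.card : ℝ≥0∞) * ENNReal.ofReal (R.N ^ (-κ)) + x) := by
          gcongr
          exact a2.trans (by gcongr)
      _ = ENNReal.ofReal (R.N ^ t) * ((ss.card : ℝ≥0∞) * ENNReal.ofReal (R.N ^ (-κ))) + ENNReal.ofReal (R.N ^ t) * x := mul_add _ _ _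
      _ ≤ 1 / 2 + ENNReal.ofReal (R.N ^ t) * x := by gcongr
  have a5 : (1 / 2 : ℝ≥0∞) ≤ ENNReal.ofReal (R.N ^ t) * x := by
    have e : (1 / 2 : ℝ≥0∞) + 1 / 2 = 1 := ENNReal.add_halves 1
    have a4' : (1 / 2 : ℝ≥0∞) + 1 / 2 ≤ 1 / 2 + ENNReal.ofReal (R.N ^ t) * x := e.le.trans a4
    exact (ENNReal.add_le_add_iff_left (a := (1 / 2 : ℝ≥0∞)) (by simp)).1 a4'
  calc (1 : ℝ≥0∞) = 2 * (1 / 2) := by
        rw [one_div]
        exact (ENNReal.mul_inv_cancel (by norm_num) (by norm_num)).symm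
    _ ≤ 2 * (ENNReal.ofReal (R.N ^ t) * x) := by gcongr
    _ = ENNReal.ofReal (2 * R.N ^ t) * x := by
        rw [ENNReal.ofReal_mul (by norm_num), mul_assoc]
        simp
    _ ≤ ENNReal.ofReal (R.N ^ t') * x := by gcongr

/-- requirement lists: given depths, meshes, widths, mesh exponent (add one deep depth `1 + ∑ widths`) -/
theorem k7q_req (ss Ms Ws : Finset ℝ) (U : ℝ) (hss : ∀ s ∈ ss, 0 < s) (hMs : ∀ M ∈ Ms, 0 ≤ M) (hWs : ∀ r ∈ Ws, 0 ≤ r) :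
    ∃ G : KsReq, G.Ok ∧ ss ⊆ G.depths ∧ Ms ⊆ G.meshes ∧ Ws ⊆ G.widths ∧ U ≤ G.U := by
  have h0 : 0 ≤ ∑ r ∈ Ws, r := Finset.sum_nonneg hWs
  refine ⟨⟨insert (1 + ∑ r ∈ Ws, r) ss, Ws, Ms, 1, max U 0⟩, ⟨Finset.insert_nonempty _ _, ?_, hWs, hMs, le_max_right _ _, ?_, le_rfl⟩,
    Finset.subset_insert _ _, Finset.Subset.refl _, Finset.Subset.refl _, le_max_left _ _⟩
  · intro s hs
    rcases Finset.mem_insert.1 hs with rfl | hs
    · linarith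
    · exact hss s hs
  · intro r hr
    refine ⟨_, Finset.mem_insert_self _ _, ?_⟩
    have : r ≤ ∑ r ∈ Ws, r := Finset.single_le_sum (f := fun r => r) (fun i hi => hWs i hi) hr
    linarith

/-! ### C5 (leaf L-252-S7q-C5): the exit -/

theorem k7q_rpow_le {x N e : ℝ} (hx : 0 ≤ x) (he : 0 < e) (h : x ^ (1 / e) ≤ N) : x ≤ N ^ e := by
  calc x = (x ^ (1 / e)) ^ e := by rw [← Real.rpow_mul hx, one_div, inv_mul_cancel₀ he.ne', Real.rpow_one]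
    _ ≤ N ^ e := Real.rpow_le_rpow (Real.rpow_nonneg hx _) h he.le

/-- **EXIT.**
PLAN.  `M := 1 + ∑ s ∈ ss, (s + k s + ℓ s)`, `Bmax s := ℓ s + M + 1`.   `k7q_P72_iff`, `k7q_L72_iff`, `k7q_fin_thr` (twice): `Mχ0`.   Given `Mχ`, `τ'`:  `k7q_cmp_R` at `τ'` for every `s ∈ ss` (`choose!`): `κ s, τL s, ..`; `k7q_fin_pos`: `κ₀ ≤ κ s`, `τ₀ ≤ τL s`;
`t := min (min τ₀ (κ₀/2)) (min (τ'/2) 1)`;  `k7q_chain ss _ t`: `(τ₁, ..)`;  `k7q_in p.S`: `C`;  `τ := min τ₁ τ₀ / (2 C)`-like with `C (N^τ)^C ≤ N^(min τ₁ τ₀)` for `N ≥ N1`;  `G := k7q_req ss (all meshes) (all widths) Mχ`.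
For `R`: `E` is nonempty (density), so every depth `s ∈ ss` has a label (`hR.lab`);  `K7qIn` at all `s ∈ ss`;  chain: `E₁, P, β`;  `k7q_cmp_R`: `Zx s`, `qd s` (`choose!`);  `E' := E₁ \ ⋃ s ∈ ss, Zx s`;  `k7q_remove`;  `k7w_lists_mono`, `k7w_layer_mono`. -/
theorem k7q_P72K (hP : k7p_P72) (hL : k7p_L72 k7qSh) : k7a_P72K := by
  classical
  intro p ss hp hell hss
  obtain ⟨M, hM⟩ : ∃ M : ℝ, M = 1 + ∑ s ∈ ss, (s + p.k * s + p.ell * s) := ⟨_, rfl⟩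
  have hks : ∀ s ∈ ss, 0 < p.k * s := fun s hs => mul_pos hp.k_pos (hss s hs)
  have hls : ∀ s ∈ ss, 0 < p.ell * s := fun s hs => mul_pos hell (hss s hs)
  have hterm : ∀ s ∈ ss, 0 ≤ s + p.k * s + p.ell * s := fun s hs => by
    have h1 := hss s hs
    have h2 := hks s hs
    have h3 := hls s hs
    linarith
  have hM0 : 0 ≤ M := by
    rw [hM]
    have := Finset.sum_nonneg hterm
    linarith
  have hMs : ∀ s ∈ ss, s + p.k * s + p.ell * s < M := fun s hs => by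
    rw [hM]
    have := Finset.single_le_sum hterm hs
    linarith
  obtain ⟨X1, hX1⟩ := k7q_fin_thr ss (fun s Mχ => K7qStep p.d p.S s (p.k * s) (p.ell * s) M Mχ) (fun s hs =>
    (k7q_P72_iff.1 hP) p.d p.S s (p.k * s) (p.ell * s) M hp.d_nonneg hp.d_lt hp.S_pos (hss s hs) (hks s hs) (hls s hs) (hMs s hs))
  obtain ⟨X2, hX2⟩ := k7q_fin_thr ss (fun s Mχ => K7qCmp k7qSh p.d p.S s (p.k * s) (p.ell * s) (p.ell * s + M + 1) Mχ) (fun s hs =>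
    ((k7q_L72_iff k7qSh).1 hL) p.d p.S s (p.k * s) (p.ell * s) (p.ell * s + M + 1) hp.d_nonneg hp.d_lt hp.S_pos (hss s hs) (hks s hs) (hls s hs)
      (by linarith))
  refine ⟨M, max X1 X2, hM0, ?_⟩
  intro Mχ hMχ τ' hτ'
  have hS := hX1 Mχ ((le_max_left _ _).trans hMχ)
  have hC := hX2 Mχ ((le_max_right _ _).trans hMχ)
  have hcmp := fun s (hs : s ∈ ss) => k7q_cmp_R (hks s hs).le (hC s hs) τ' hτ'
  choose! κ τL NL MsL WsL hκ hτL hMsL hWsL hcmpR using hcmp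
  obtain ⟨κ₀, hκ₀, hκ₀le⟩ := k7q_fin_pos ss κ hκ
  obtain ⟨τ₀, hτ₀, hτ₀le⟩ := k7q_fin_pos ss τL hτL
  obtain ⟨t, ht⟩ : ∃ t : ℝ, t = min (min τ₀ (κ₀ / 2)) (min (τ' / 2) 1) := ⟨_, rfl⟩
  have ht0 : 0 < t := by
    rw [ht]
    exact lt_min (lt_min hτ₀ (by positivity)) (lt_min (by positivity) one_pos)
  have ht1 : t ≤ τ₀ := by rw [ht]; exact (min_le_left _ _).trans (min_le_left _ _)
  have ht2 : t ≤ κ₀ / 2 := by rw [ht]; exact (min_le_left _ _).trans (min_le_right _ _)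
  have ht3 : t ≤ τ' / 2 := by rw [ht]; exact (min_le_right _ _).trans (min_le_left _ _)
  have ht4 : t ≤ 1 := by rw [ht]; exact (min_le_right _ _).trans (min_le_right _ _)
  obtain ⟨τ₁, N₁, Ms₁, Ws₁, hτ₁, hMs₁, hWs₁, hchain⟩ := k7q_chain ss hS t ht0
  obtain ⟨C, hC1, hin⟩ := k7q_in p.S
  obtain ⟨μ, hμ⟩ : ∃ μ : ℝ, μ = min τ₁ τ₀ := ⟨_, rfl⟩
  have hμ0 : 0 < μ := by rw [hμ]; exact lt_min hτ₁ hτ₀
  have hμ1 : μ ≤ τ₁ := by rw [hμ]; exact min_le_left _ _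
  have hμ2 : μ ≤ τ₀ := by rw [hμ]; exact min_le_right _ _
  obtain ⟨G, hG, hGd, hGm, hGw, hGU⟩ := k7q_req ss (Ms₁ ∪ ss.biUnion MsL) (Ws₁ ∪ ss.biUnion WsL) Mχ hss
    (fun x hx => by
      rcases Finset.mem_union.1 hx with h | h
      · exact hMs₁ x h
      · obtain ⟨s, hs, hx'⟩ := Finset.mem_biUnion.1 h
        exact hMsL s hs x hx')
    (fun x hx => by
      rcases Finset.mem_union.1 hx with h | h
      · exact hWs₁ x h
      · obtain ⟨s, hs, hx'⟩ := Finset.mem_biUnion.1 h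
        exact hWsL s hs x hx')
  obtain ⟨NX, hNX⟩ : ∃ X : ℝ, ∀ s ∈ ss, NL s ≤ X := by
    obtain ⟨X, hX⟩ := (ss.image NL).exists_le
    exact ⟨X, fun s hs => hX _ (Finset.mem_image_of_mem _ hs)⟩
  have hC0 : 0 < C := by linarith
  refine ⟨μ / (2 * C), max (max N₁ NX) (max (max 2 (C ^ (1 / (μ / 2)))) (max ((2 * ((ss.card : ℝ) + 1)) ^ (1 / (κ₀ / 2))) (2 ^ (1 / (τ' / 2))))), G,
    by positivity, hG, ?_⟩
  intro R A E hprm hN hd hm hw ho hχ hR hT hO hE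
  obtain ⟨N, hNdef⟩ : ∃ N : ℝ, N = R.N := ⟨_, rfl⟩
  rw [← hNdef] at hN hχ hR hT hE ⊢
  have hNa : N₁ ≤ N := ((le_max_left _ _).trans (le_max_left _ _)).trans hN
  have hNb : NX ≤ N := ((le_max_right _ _).trans (le_max_left _ _)).trans hN
  have hNc : 2 ≤ N := (((le_max_left _ _).trans (le_max_left _ _)).trans (le_max_right _ _)).trans hN
  have hNd : C ^ (1 / (μ / 2)) ≤ N := (((le_max_right _ _).trans (le_max_left _ _)).trans (le_max_right _ _)).trans hN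
  have hNe : (2 * ((ss.card : ℝ) + 1)) ^ (1 / (κ₀ / 2)) ≤ N := (((le_max_left _ _).trans (le_max_right _ _)).trans (le_max_right _ _)).trans hN
  have hNf : (2 : ℝ) ^ (1 / (τ' / 2)) ≤ N := (((le_max_right _ _).trans (le_max_right _ _)).trans (le_max_right _ _)).trans hN
  have hN1 : 1 ≤ N := by linarith
  have hN0 : 0 < N := by linarith
  have hmono : ∀ {x y : ℝ}, x ≤ y → N ^ x ≤ N ^ y := fun h => Real.rpow_le_rpow_of_exponent_le hN1 h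
  have hpos : ∀ x : ℝ, 0 < N ^ x := fun x => Real.rpow_pos_of_pos hN0 x
  -- the slack
  have hslack : C * (N ^ (μ / (2 * C))) ^ C ≤ N ^ μ := by
    have h1 : (N ^ (μ / (2 * C))) ^ C = N ^ (μ / 2) := by
      rw [← Real.rpow_mul hN0.le]
      congr 1
      field_simp
    have h2 : C ≤ N ^ (μ / 2) := k7q_rpow_le hC0.le (by positivity) hNd
    rw [h1]
    calc C * N ^ (μ / 2) ≤ N ^ (μ / 2) * N ^ (μ / 2) := mul_le_mul_of_nonneg_right h2 (hpos _).le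
      _ = N ^ μ := by rw [← Real.rpow_add hN0]; congr 1; ring
  have hτμ : μ / (2 * C) ≤ μ := by
    rw [div_le_iff₀ (by positivity)]
    nlinarith
  -- a point
  have hne : E.Nonempty := by
    by_contra hcon
    rw [Set.not_nonempty_iff_eq_empty] at hcon
    have := hE.mass
    rw [hcon, measure_empty, mul_zero] at this
    exact absurd this (by norm_num)
  obtain ⟨x, hx⟩ := hne
  have hx0 : x ∈ R.Ev0 := hE.sub hx
  have hdep : ∀ s ∈ ss, s ∈ R.depths := fun s hs => hd (hGd hs)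
  have hIn : ∀ s ∈ ss, K7qIn R A s (N ^ μ) R.meshes R.widths := fun s hs =>
    k7q_in_mono (hin R (N ^ (μ / (2 * C))) A s (by rw [← hprm]) hR hT hO (hG.ord.trans ho) (hdep s hs) ⟨R.labAt s x, (hR.lab s (hdep s hs) x hx0).1⟩)
      (by rw [← hNdef]; exact hN0.le) hslack (Finset.Subset.refl _) (Finset.Subset.refl _)
  have hχ' : R.χ ≤ N ^ (-Mχ) := hχ.trans (hmono (neg_le_neg hGU))
  have hofR : ∀ {x y : ℝ}, x ≤ y → ENNReal.ofReal (N ^ x) ≤ ENNReal.ofReal (N ^ y) := fun h => ENNReal.ofReal_le_ofReal (hmono h)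
  obtain ⟨P, β, E₁, hE₁m, hE₁s, hE₁d, hPs⟩ := hchain R A E hprm (hNdef ▸ hNa)
    (fun s hs => hNdef ▸ k7q_in_mono (hIn s hs) (by rw [← hNdef]; exact hN0.le) (hmono hμ1)
      ((Finset.subset_union_left.trans hGm).trans hm) ((Finset.subset_union_left.trans hGw).trans hw))
    (hNdef ▸ hχ') hE.meas hE.sub (hNdef ▸ hE.mass.trans (mul_le_mul' (hofR (hτμ.trans hμ1)) le_rfl))
  rw [← hNdef] at hE₁d hPs
  have hβ0 : ∀ s ∈ ss, 0 ≤ β s := fun s hs => (hpos _).le.trans (hPs s hs).2.2.1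
  have hcm := fun s (hs : s ∈ ss) => hcmpR s hs R A (P s) (β s) hprm (hNdef ▸ (hNX s hs).trans hNb)
    (hNdef ▸ k7q_in_mono (hIn s hs) (by rw [← hNdef]; exact hN0.le) (hmono (hμ2.trans (hτ₀le s hs)))
      (((Finset.subset_biUnion_of_mem MsL hs).trans Finset.subset_union_right).trans (hGm.trans hm))
      (((Finset.subset_biUnion_of_mem WsL hs).trans Finset.subset_union_right).trans (hGw.trans hw)))
    (hNdef ▸ hχ') (hNdef ▸ k7w_layer_mono (hPs s hs).2.1 (hmono (ht1.trans (hτ₀le s hs))) (hpos _).le (hβ0 s hs))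
    (hNdef ▸ (hmono (by linarith)).trans (hPs s hs).2.2.1)
    (hNdef ▸ (hPs s hs).2.2.2.trans (hmono (by linarith [ht1.trans (hτ₀le s hs)])))
  choose! Zx qd hZm hZ hj hq1 hq2 hlist using hcm
  rw [← hNdef] at hZ hq1 hq2 hlist
  have hsubE : E₁ \ ⋃ s ∈ ss, Zx s ⊆ E₁ := Set.sdiff_subset
  have hmass : 1 ≤ ENNReal.ofReal (N ^ τ') * R.prior (E₁ \ ⋃ s ∈ ss, Zx s) := by
    have := k7q_remove hR ss Zx E₁ t τ' κ₀ (hE₁s.trans hE.sub) hZm
      (fun s hs => hNdef ▸ (hZ s hs).trans (hofR (neg_le_neg (hκ₀le s hs)))) (hNdef ▸ hE₁d) ?_ ?_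
    · rwa [← hNdef] at this
    · rw [← hNdef]
      have h1 : 2 * ((ss.card : ℝ) + 1) ≤ N ^ (κ₀ / 2) := k7q_rpow_le (by positivity) (by positivity) hNe
      have h2 : N ^ (t - κ₀) ≤ N ^ (-(κ₀ / 2)) := hmono (by linarith)
      have h3 : N ^ (-(κ₀ / 2)) * N ^ (κ₀ / 2) = 1 := by
        rw [← Real.rpow_add hN0]
        simp
      have h4 : 0 < N ^ (-(κ₀ / 2)) := hpos _
      have h5 : (0 : ℝ) ≤ ss.card := Nat.cast_nonneg _
      have h6 : N ^ (-(κ₀ / 2)) * (2 * ((ss.card : ℝ) + 1)) ≤ 1 :=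
        (mul_le_mul_of_nonneg_left h1 h4.le).trans h3.le
      calc (ss.card : ℝ) * N ^ (t - κ₀) ≤ (ss.card : ℝ) * N ^ (-(κ₀ / 2)) := mul_le_mul_of_nonneg_left h2 h5
        _ ≤ 1 / 2 := by nlinarith
    · rw [← hNdef]
      have h1 : (2 : ℝ) ≤ N ^ (τ' / 2) := k7q_rpow_le (by norm_num) (by positivity) hNf
      calc 2 * N ^ t ≤ N ^ (τ' / 2) * N ^ (τ' / 2) := mul_le_mul h1 (hmono ht3) (hpos _).le (hpos _).le
        _ = N ^ τ' := by rw [← Real.rpow_add hN0]; congr 1; ring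
  have htτ : t ≤ τ' := by linarith
  refine ⟨E₁ \ ⋃ s ∈ ss, Zx s, P, β, qd,
    ⟨hE₁m.diff (Finset.measurableSet_biUnion ss hZm), (hsubE.trans hE₁s).trans hE.sub, hmass⟩, hsubE.trans hE₁s, ?_⟩
  intro s hs
  obtain ⟨g1, g2, g3, g4⟩ := hPs s hs
  refine ⟨k7w_layer_mono g2 (hmono htτ) (hpos _).le (hβ0 s hs), (hmono (by linarith)).trans g3, g4.trans (hmono (by linarith)),
    fun y hy => g1 y (hsubE hy), hj s hs, hq1 s hs, hq2 s hs, ?_⟩
  refine k7w_lists_mono (hlist s hs) le_rfl ?_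
  rintro y ⟨hy1, hy2⟩
  refine ⟨hE.sub (hE₁s hy1), fun hy3 => hy2 ?_⟩
  exact Set.mem_biUnion hs hy3

/-- the exit in terms of Thm 7.1 -/
theorem k7q_P72K_of (h : k7a_T71) : k7a_P72K := by
  obtain ⟨m, C, hC⟩ := k7q_code
  exact k7q_P72K (k7p_P72_of h) (k7p_L72_of k7qSh m C k7q_match hC)

end

end Claimed.Agent.R252
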